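import Vale.Agent.Q105.Defs
import Vale.Agent.P105.Bdl.B1

/-!
# Row A, second half: from the expectation bound to singularity
-/

open MeasureTheory Real Filter Topology Finset
open scoped ENNReal

namespace Vale.Agent.Q105

open Vale.Agent.P105

/-- reverse Markov inequality -/
lemma a_revMarkov {Ω : Type} [MeasurableSpace Ω] (μ : Measure Ω) [IsProbabilityMeasure μ]
    (V : Ω → ℝ) (hV : Integrable V μ) (S : Set Ω) (hS : MeasurableSet S) (a M c : ℝ)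
    (ha : 0 ≤ a) (hM : ∀ ω, V ω ≤ M) (hout : ∀ ω, ω ∉ S → V ω ≤ a) (hc : c ≤ ∫ ω, V ω ∂μ) :
    c - a ≤ M * μ.real S := by
  have h1 : ∫ ω, V ω ∂μ ≤ ∫ ω, (a + S.indicator (fun _ => M) ω) ∂μ := by
    refine integral_mono hV ((integrable_const a).add ((integrable_const M).indicator hS)) ?_
    intro ω
    by_cases hω : ω ∈ S
    · simp only [Set.indicator_of_mem hω]
      linarith [hM ω]
    · simp only [Set.indicator_of_notMem hω]
      linarith [hout ω hω]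
  rw [integral_add (integrable_const a) ((integrable_const M).indicator hS),
    integral_indicator_const _ hS] at h1
  simp only [integral_const, probReal_univ, smul_eq_mul, one_mul] at h1
  nlinarith [h1, hc]

lemma a_abs_sgn (b : Bool) : |sgn b| = 1 := by
  cases b <;> simp [sgn]

/-- the first coordinate is bounded -/
lemma a_Y_le {l : ℝ} (h0 : 0 ≤ l) (h1 : l ≤ 0.6) (ω : ℕ → Bool) :
    |∑' i, sgn (ω i) * l ^ i| ≤ 3 := by
  have hl : l < 1 := by linarith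
  have hs := hasSum_geometric_of_lt_one h0 hl
  have hb : ∀ i, ‖sgn (ω i) * l ^ i‖ ≤ l ^ i := by
    intro i
    rw [Real.norm_eq_abs, abs_mul, a_abs_sgn, one_mul, abs_of_nonneg (pow_nonneg h0 i)]
  have h2 := tsum_of_norm_bounded hs hb
  rw [Real.norm_eq_abs] at h2
  refine h2.trans ?_
  rw [inv_le_comm₀ (by linarith) (by norm_num)]
  linarith

lemma a_gamma_sq {x : ℝ} (h : x ≤ 1.00020922) : x ≤ exp 0.00020921 := by
  have h1 := Real.quadratic_le_exp_of_nonneg (x := 0.00020921) (by norm_num)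
  refine h.trans (le_trans ?_ h1)
  norm_num

/-- the arithmetic of the volume bound -/
lemma a_vol (g A : ℝ) (k0 n : ℕ) (hg1 : 1 ≤ g) (hg : g ^ 2 ≤ exp 0.00020921) :
    2 * (10 * exp (3 - n * 0.00020922 + A)) * ((10000 : ℝ) + 1) ^ 2 /
        (1 / 10 ^ 8 * (0.01 / g ^ (k0 + n)) ^ 2) ≤
      (20 * exp (3 + A) * 10001 ^ 2 * 10 ^ 12 * exp (k0 * 0.00020921)) *
        exp (-(n * (1 / 10 ^ 8))) := by
  have hg0 : 0 < g := by linarith
  have hp : 0 < g ^ (k0 + n) := pow_pos hg0 _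
  have h1 : (g ^ (k0 + n)) ^ 2 ≤ exp (((k0 + n : ℕ) : ℝ) * 0.00020921) := by
    rw [← pow_mul, mul_comm, pow_mul, Real.exp_nat_mul]
    exact pow_le_pow_left₀ (by positivity) hg _
  have e1 : 2 * (10 * exp (3 - n * 0.00020922 + A)) * ((10000 : ℝ) + 1) ^ 2 /
        (1 / 10 ^ 8 * (0.01 / g ^ (k0 + n)) ^ 2) =
      20 * exp (3 - n * 0.00020922 + A) * 10001 ^ 2 * 10 ^ 12 * (g ^ (k0 + n)) ^ 2 := by
    field_simp
    ring
  have e2 : (20 * exp (3 + A) * 10001 ^ 2 * 10 ^ 12 * exp (k0 * 0.00020921)) *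
        exp (-(n * (1 / 10 ^ 8))) =
      20 * exp (3 - n * 0.00020922 + A) * 10001 ^ 2 * 10 ^ 12 *
        exp (((k0 + n : ℕ) : ℝ) * 0.00020921) := by
    have e3 : exp (3 + A) * exp (k0 * 0.00020921) * exp (-(n * (1 / 10 ^ 8))) =
        exp (3 - n * 0.00020922 + A) * exp (((k0 + n : ℕ) : ℝ) * 0.00020921) := by
      rw [← Real.exp_add, ← Real.exp_add, ← Real.exp_add]
      congr 1
      push_cast
      ring
    linear_combination (20 * 10001 ^ 2 * 10 ^ 12 : ℝ) * e3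
  rw [e1, e2]
  exact mul_le_mul_of_nonneg_left h1 (by positivity)

lemma a_small (C ε : ℝ) (hε : 0 < ε) :
    ∃ n : ℕ, 1 ≤ n ∧ C * exp (-(n * (1 / 10 ^ 8))) ≤ ε := by
  have h1 : Tendsto (fun n : ℕ => (n : ℝ) * (1 / 10 ^ 8)) atTop atTop :=
    tendsto_natCast_atTop_atTop.atTop_mul_const (by norm_num)
  have h2 : Tendsto (fun n : ℕ => C * exp (-((n : ℝ) * (1 / 10 ^ 8)))) atTop (𝓝 (C * 0)) :=
    (Real.tendsto_exp_neg_atTop_nhds_zero.comp h1).const_mul C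
  rw [mul_zero] at h2
  obtain ⟨n, hn⟩ := ((h2.eventually (ge_mem_nhds hε)).and (eventually_ge_atTop 1)).exists
  exact ⟨n, hn.2, hn.1⟩

/-- one level: a set of small Lebesgue measure which the first coordinate visits often -/
lemma a_level (hP : IsProbabilityMeasure PP) (hH : RowH) (hS : RowS)
    (Y : (ℕ → Bool) → ℝ) (Z : (ℕ → Bool) → ℂ) (hY : Measurable Y) (hZ : Measurable Z)
    (hYb : ∀ ω, |Y ω| ≤ 3) (hZb : ∀ ω, ‖Z ω‖ ≤ 10000) (ρ : ℝ) (hρ : 0 < ρ) (hρ1 : ρ ≤ 1)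
    (n : ℕ) (hn : 1 ≤ n) (δ : ℝ) (N : ℕ) (T : ℂ → ℝ → ℝ) (hN : (N : ℝ) * δ ^ 2 ≤ 10 ^ 25 + 1)
    (hT : Continuous fun p : ℝ × ℂ => T p.2 p.1) (hTb : ∀ z x, |T z x| ≤ n)
    (hI : ∀ η : ℂ, ‖η‖ < ρ →
      Integrable (fun ω => T (Z ω + η) (Y ω) -
        Rm δ ((1 + 1 / 1000) / 2) N (T (Z ω + η)) (Y ω)) PP ∧
      (n : ℝ) * 0.00020924 ≤ ∫ ω, (T (Z ω + η) (Y ω) -
        Rm δ ((1 + 1 / 1000) / 2) N (T (Z ω + η)) (Y ω)) ∂PP) :
    ∃ E : Set ℝ, MeasurableSet E ∧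
      volume E ≤ ENNReal.ofReal (2 * (10 * exp (3 - n * 0.00020922 + (10 ^ 25 + 1) * 1001 / 2)) *
        ((10000 : ℝ) + 1) ^ 2 / (1 / 10 ^ 8 * ρ ^ 2)) ∧
      ENNReal.ofReal (1 / 10 ^ 8 / 2) ≤ PP (Y ⁻¹' E) := by
  obtain ⟨hH1, hH2, hH3⟩ := hH
  have hn0 : (0 : ℝ) < n := by exact_mod_cast hn
  have hRc := hH3 δ ((1 + 1 / 1000) / 2) N T hT
  have hG : MeasurableSet {p : ℝ × ℂ | |p.1| ≤ 3 ∧ (n : ℝ) * 0.00020922 ≤
      T p.2 p.1 - Rm δ ((1 + 1 / 1000) / 2) N (T p.2) p.1} := by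
    refine IsClosed.measurableSet ?_
    refine IsClosed.inter (s₁ := {p : ℝ × ℂ | |p.1| ≤ 3}) ?_ ?_
    · exact isClosed_le (continuous_fst.abs) continuous_const
    · exact isClosed_le continuous_const (hT.sub hRc)
  refine hS Y Z _ 10000 ρ _ (1 / 10 ^ 8) hY hZ hG hZb hρ hρ1 (by positivity) (by norm_num)
    (fun z => ?_) (fun η hη => ?_)
  · have hc : Continuous (T z) := hT.comp (continuous_id.prodMk continuous_const)
    refine (hH1 δ (1 / 1000) 3 (n * 0.00020922) N (T z) (by norm_num) hc).trans ?_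
    refine ENNReal.ofReal_le_ofReal ?_
    refine mul_le_mul_of_nonneg_left (Real.exp_le_exp.2 ?_) (by norm_num)
    have e : (N : ℝ) * (1 + 1 / (1 / 1000)) * δ ^ 2 / 2 = (N * δ ^ 2) * 1001 / 2 := by ring
    rw [e]
    linarith
  · obtain ⟨hI1, hI2⟩ := hI η hη
    have hm : Measurable fun ω => (Y ω, Z ω + η) := hY.prodMk (hZ.add_const η)
    have hSm := hm hG
    have key := a_revMarkov PP _ hI1 _ hSm (n * 0.00020922) (2 * n) _ (by positivity)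
      (fun ω => by
        have h1 := (abs_le.1 (hTb (Z ω + η) (Y ω))).2
        have h2 := hH2 δ ((1 + 1 / 1000) / 2) n N (T (Z ω + η)) (by norm_num)
          (hTb (Z ω + η)) (Y ω)
        linarith)
      (fun ω hω => by
        by_contra hlt
        exact hω ⟨hYb ω, (not_le.1 hlt).le⟩) hI2
    rw [ENNReal.ofReal_le_iff_le_toReal (measure_ne_top _ _)]
    have key2 : (n : ℝ) * (2 * (1 / 10 ^ 8)) ≤ n * (2 * PP.real ((fun ω => (Y ω, Z ω + η)) ⁻¹'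
        {p : ℝ × ℂ | |p.1| ≤ 3 ∧ (n : ℝ) * 0.00020922 ≤
          T p.2 p.1 - Rm δ ((1 + 1 / 1000) / 2) N (T p.2) p.1})) := by
      linarith
    have key3 := le_of_mul_le_mul_left key2 hn0
    have key4 := le_of_mul_le_mul_left key3 (by norm_num : (0 : ℝ) < 2)
    exact key4

/-- singularity from the expectation bounds at all levels -/
theorem a2_main (hCF : RowCF) (hH : RowH) (hS : RowS) (D : Dat) (hD : D.Good) (k0 : ℕ)
    (hZ : Measurable fun ω : ℕ → Bool => ∑' i, (sgn (ω i) : ℂ) * D.γ⁻¹ ^ i)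
    (hZb : ∀ ω : ℕ → Bool, ‖∑' i, (sgn (ω i) : ℂ) * D.γ⁻¹ ^ i‖ ≤ 10000)
    (h1 : ∀ n : ℕ, ∃ (δ : ℝ) (N : ℕ) (T : ℂ → ℝ → ℝ), (N : ℝ) * δ ^ 2 ≤ 10 ^ 25 + 1 ∧
      (Continuous fun p : ℝ × ℂ => T p.2 p.1) ∧ (∀ z x, |T z x| ≤ n) ∧
      ∀ η : ℂ, ‖η‖ < 0.01 / ‖D.γ‖ ^ (k0 + n) →
        Integrable (fun ω : ℕ → Bool =>
          T ((∑' i, (sgn (ω i) : ℂ) * D.γ⁻¹ ^ i) + η) (∑' i, sgn (ω i) * D.b⁻¹ ^ i) -
            Rm δ ((1 + 1 / 1000) / 2) N (T ((∑' i, (sgn (ω i) : ℂ) * D.γ⁻¹ ^ i) + η))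
              (∑' i, sgn (ω i) * D.b⁻¹ ^ i)) PP ∧
        (n : ℝ) * 0.00020924 ≤ ∫ ω : ℕ → Bool,
          (T ((∑' i, (sgn (ω i) : ℂ) * D.γ⁻¹ ^ i) + η) (∑' i, sgn (ω i) * D.b⁻¹ ^ i) -
            Rm δ ((1 + 1 / 1000) / 2) N (T ((∑' i, (sgn (ω i) : ℂ) * D.γ⁻¹ ^ i) + η))
              (∑' i, sgn (ω i) * D.b⁻¹ ^ i)) ∂PP) :
    bernConv D.b⁻¹ ⟂ₘ volume := by
  have hb1 := hD.out.b1
  have hb0 : 0 < D.b := by linarith
  have hl0 : 0 < D.b⁻¹ := inv_pos.2 hb0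
  have hl6 : D.b⁻¹ ≤ 0.6 := by
    rw [inv_le_comm₀ hb0 (by norm_num)]
    linarith
  have hl1 : D.b⁻¹ < 1 := by linarith
  have hY : Measurable fun ω : ℕ → Bool => ∑' i, sgn (ω i) * D.b⁻¹ ^ i :=
    (hCF.2.2.2 (fun i => D.b⁻¹ ^ i) (summable_geometric_of_lt_one hl0.le hl1)).1
  have hg1 : 1 ≤ ‖D.γ‖ := by
    have := hD.out.n1
    nlinarith [norm_nonneg D.γ]
  have hg2 : ‖D.γ‖ ^ 2 ≤ exp 0.00020921 := a_gamma_sq hD.out.n2
  refine Salem.singular_of_sets hl0 hl1 (δ := 1 / 10 ^ 8 / 2) (by norm_num) fun ε hε => ?_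
  obtain ⟨n, hn, hnε⟩ := a_small (20 * exp (3 + (10 ^ 25 + 1) * 1001 / 2) * 10001 ^ 2 * 10 ^ 12 *
    exp (k0 * 0.00020921)) ε hε
  obtain ⟨δ, N, T, hN, hT, hTb, hI⟩ := h1 n
  have hp1 : 1 ≤ ‖D.γ‖ ^ (k0 + n) := one_le_pow₀ hg1
  have hρ : (0 : ℝ) < 0.01 / ‖D.γ‖ ^ (k0 + n) := by positivity
  have hρ1 : (0.01 : ℝ) / ‖D.γ‖ ^ (k0 + n) ≤ 1 := by
    rw [div_le_one (by linarith)]
    linarith
  obtain ⟨E, hEm, hEv, hEp⟩ := a_level hCF.1 hH hS _ _ hY hZ (a_Y_le hl0.le hl6) hZb _ hρ hρ1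
    n hn δ N T hN hT hTb hI
  refine ⟨E, hEm, hEv.trans (ENNReal.ofReal_le_ofReal ?_), ?_⟩
  · exact (a_vol _ _ k0 n hg1 hg2).trans hnε
  · unfold bernConv
    rw [Measure.map_apply hY hEm]
    exact hEp

end Vale.Agent.Q105
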