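import Vale.Agent.Q105.A1
import Vale.Agent.Q105.A2

/-!
# Row A: the criterion
-/

namespace Vale.Agent.Q105

theorem rowA (hCF : RowCF) (hH : RowH) (hE : RowE) (hK : RowK) (hS : RowS) (hN : RowN) : RowA := by
  intro D hD J _ Φ G Q bb hG hB hbb hQ hc
  obtain ⟨-, hZ, hZb, -⟩ := hN D hD J Φ
  exact a2_main hCF hH hS D hD Φ.k0 hZ hZb
    (a1_main hCF hE hK hN D hD J Φ G Q bb hG hB hbb hQ hc)

end Vale.Agent.Q105
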