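import Vale.Agent.Q105.Defs

/-!
# Row A, first half: the lower bound for the mean
-/

open MeasureTheory Real Filter Topology Finset
open scoped ENNReal

namespace Vale.Agent.Q105

open Vale.Agent.P105

theorem a1_norm_ei (t : ℝ) : ‖ei t‖ = 1 := Complex.norm_exp_ofReal_mul_I t

theorem a1_ei_add (s t : ℝ) : ei (s + t) = ei s * ei t := by
  simp only [ei, ← Complex.exp_add]
  congr 1
  push_cast
  ring

theorem a1_ei_re (t : ℝ) : (ei t).re = cos t := Complex.exp_ofReal_mul_I_re t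

theorem a1_row {g : ℕ → ℝ} (hg : ∀ d, 0 ≤ g d) {n k : ℕ} (hk : k < n) :
    ∑ k' ∈ range n, g (k - k' + (k' - k)) ≤ g 0 + 2 * ∑ d ∈ range n, g (d + 1) := by
  obtain ⟨m, rfl⟩ := Nat.exists_eq_add_of_lt hk
  have e1 : k + m + 1 = k + 1 + m := by omega
  have h1 : ∑ k' ∈ range k, g (k - k' + (k' - k)) = ∑ d ∈ range k, g (d + 1) := by
    rw [← Finset.sum_range_reflect (fun d => g (d + 1)) k]
    refine Finset.sum_congr rfl fun i hi => ?_
    have := Finset.mem_range.1 hi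
    congr 1
    omega
  have h2 : ∑ i ∈ range m, g (k - (k + 1 + i) + (k + 1 + i - k)) = ∑ d ∈ range m, g (d + 1) := by
    refine Finset.sum_congr rfl fun i _ => ?_
    congr 1
    omega
  have h3 : ∀ l ≤ k + m + 1, ∑ d ∈ range l, g (d + 1) ≤ ∑ d ∈ range (k + m + 1), g (d + 1) :=
    fun l hl => Finset.sum_le_sum_of_subset_of_nonneg (Finset.range_mono hl) fun i _ _ => hg _
  have h4 := h3 k (by omega)
  have h5 := h3 m (by omega)
  conv_lhs => rw [e1, Finset.sum_range_add, Finset.sum_range_succ, h1, h2]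
  simp only [Nat.sub_self, add_zero]
  linarith

theorem a1_Kr_nonneg {r : ℝ} (hr : 0 ≤ r) : 0 ≤ Kr r := by
  unfold Kr
  exact div_nonneg hr (by nlinarith [sq_nonneg (r - 1 / 2)])

theorem a1_trig_le {K J : Type} [Fintype K] [Fintype J] (w : K → J → ℝ) (u : K → J → ℂ)
    (h : J → ℝ) (hu : ∀ k j, ‖u k j‖ ≤ h j) (h1 : ∑ j, h j ≤ 1) (x : ℝ) :
    |trig w u x| ≤ Fintype.card K := by
  unfold trig
  calc _ ≤ ∑ k, |∑ j, (u k j * ei (w k j * x)).re| := Finset.abs_sum_le_sum_abs _ _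
    _ ≤ ∑ _k : K, (1 : ℝ) := by
        refine Finset.sum_le_sum fun k _ => (Finset.abs_sum_le_sum_abs _ _).trans
          (le_trans (Finset.sum_le_sum fun j _ => ?_) h1)
        refine (Complex.abs_re_le_norm _).trans ?_
        rw [norm_mul, a1_norm_ei, mul_one]
        exact hu k j
    _ = _ := by simp

theorem a1_main (hCF : RowCF) (hE : RowE) (hK : RowK) (hN : RowN) (D : Dat) (hD : D.Good)
    (J : Type) [Fintype J] (Φ : Fam D J) (G Q : ℝ) (bb : ℕ → ℝ) (hG : Φ.Gain G) (hB : Φ.Bil bb)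
    (hbb : ∀ d, 0 ≤ bb d)
    (hQ : ∀ n, bb 0 + 2 * ∑ d ∈ range n, bb (d + 1) * Kr (0.54369 ^ (d + 1)) ≤ Q)
    (hc : 0.00020925 ≤ 0.9999 * G - 0.5011 * Q) (n : ℕ) :
    ∃ (δ : ℝ) (N : ℕ) (T : ℂ → ℝ → ℝ), (N : ℝ) * δ ^ 2 ≤ 10 ^ 25 + 1 ∧
      (Continuous fun p : ℝ × ℂ => T p.2 p.1) ∧ (∀ z x, |T z x| ≤ n) ∧
      ∀ η : ℂ, ‖η‖ < 0.01 / ‖D.γ‖ ^ (Φ.k0 + n) →
        Integrable (fun ω : ℕ → Bool => T ((∑' i, (sgn (ω i) : ℂ) * D.γ⁻¹ ^ i) + η)
          (∑' i, sgn (ω i) * D.b⁻¹ ^ i) - Rm δ ((1 + 1 / 1000) / 2) N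
          (T ((∑' i, (sgn (ω i) : ℂ) * D.γ⁻¹ ^ i) + η)) (∑' i, sgn (ω i) * D.b⁻¹ ^ i)) PP ∧
        (n : ℝ) * 0.00020924 ≤ ∫ ω : ℕ → Bool, (T ((∑' i, (sgn (ω i) : ℂ) * D.γ⁻¹ ^ i) + η)
          (∑' i, sgn (ω i) * D.b⁻¹ ^ i) - Rm δ ((1 + 1 / 1000) / 2) N
          (T ((∑' i, (sgn (ω i) : ℂ) * D.γ⁻¹ ^ i) + η)) (∑' i, sgn (ω i) * D.b⁻¹ ^ i)) ∂PP := by
  classical
  obtain ⟨hprob, -, -, hcf⟩ := hCF
  obtain ⟨hsum, -, -, hφ⟩ := hN D hD J Φ
  choose φ hφ using hφ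
  have hb1 : (1 : ℝ) ≤ D.b := le_trans (by norm_num) hD.out.b1
  have hb0 : (0 : ℝ) < D.b := by linarith
  have hc0 : 0 < D.c := lt_of_lt_of_le (by norm_num) hD.c1
  have hπ3 : (3 : ℝ) < π := pi_gt_three
  have hπ4 : π < 4 := pi_lt_four
  have hγ1 : 1 ≤ ‖D.γ‖ := by
    have h := hD.out.n1
    by_contra h'
    have h2 : ‖D.γ‖ ^ 2 ≤ 1 := pow_le_one₀ (norm_nonneg _) (not_le.1 h').le
    linarith
  set B : ℝ := D.b ^ (Φ.k0 + n) with hBdef
  have hB1 : 1 ≤ B := one_le_pow₀ hb1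
  set δ : ℝ := 1 / (1000 * B) with hδ
  have hδ0 : 0 < δ := by positivity
  have hδ1 : δ ≤ 1 := by
    rw [hδ, div_le_one (by positivity)]
    linarith
  set N : ℕ := ⌈(10 : ℝ) ^ 25 / δ ^ 2⌉₊ with hNdef
  have hN1 : (10 : ℝ) ^ 25 ≤ N * δ ^ 2 := by
    rw [← div_le_iff₀ (by positivity)]
    exact Nat.le_ceil _
  have hN2 : (N : ℝ) * δ ^ 2 ≤ 10 ^ 25 + 1 := by
    have h1 : (N : ℝ) ≤ 10 ^ 25 / δ ^ 2 + 1 := (Nat.ceil_lt_add_one (by positivity)).le
    have h2 : δ ^ 2 ≤ 1 := pow_le_one₀ hδ0.le hδ1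
    calc (N : ℝ) * δ ^ 2 ≤ (10 ^ 25 / δ ^ 2 + 1) * δ ^ 2 :=
          mul_le_mul_of_nonneg_right h1 (by positivity)
      _ = 10 ^ 25 + δ ^ 2 := by field_simp
      _ ≤ _ := by linarith
  have hN0 : 0 < N := Nat.ceil_pos.2 (by positivity)
  let w : Fin n → J → ℝ := fun k j => π * D.c * Φ.Wb j * D.b ^ (Φ.k0 + k)
  let ζ : Fin n → J → ℂ := fun k j => 2 * π * D.r * Φ.Wg j * D.γ ^ (Φ.k0 + k)
  let sg : Fin n → J → ℝ := fun k j => if 0 ≤ amp (Φ.a (Φ.k0 + k) j) then 1 else -1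
  let x : Fin n → ℝ := fun k => π * D.c * D.b ^ (Φ.k0 + k) * δ
  have hsg1 : ∀ k j, |sg k j| = 1 := by
    intro k j
    simp only [sg]
    split_ifs <;> simp
  have hsg2 : ∀ k j, sg k j * amp (Φ.a (Φ.k0 + k) j) = |amp (Φ.a (Φ.k0 + k) j)| := by
    intro k j
    simp only [sg]
    split_ifs with h
    · rw [one_mul, abs_of_nonneg h]
    · rw [abs_of_neg (not_le.1 h)]; ring
  have hx0 : ∀ k, 0 < x k := fun k => by simp only [x]; positivity
  have hx1 : ∀ k, x k ≤ 1 / 1000 := by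
    intro k
    have h1 : D.b ^ (Φ.k0 + k) ≤ B := pow_le_pow_right₀ hb1 (by omega)
    have h2 : π * D.c ≤ 1 := by nlinarith [hD.c2]
    have h3 : D.b ^ (Φ.k0 + k) * δ ≤ 1 / 1000 := by
      calc _ ≤ B * δ := mul_le_mul_of_nonneg_right h1 hδ0.le
        _ = 1 / 1000 := by rw [hδ]; field_simp
    calc x k = π * D.c * (D.b ^ (Φ.k0 + k) * δ) := by simp only [x]; ring
      _ ≤ 1 * (1 / 1000) := mul_le_mul h2 h3 (by positivity) zero_le_one
      _ = _ := one_mul _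
  have hx2 : ∀ k, cbar (x k) ^ (2 * N) ≤ 1 / 10 ^ 9 := by
    intro k
    refine ((hK.2.1 _ (hx0 k) (hx1 k)).2.2 N hN0).trans ?_
    have h1 : 1 ≤ D.b ^ (Φ.k0 + k) := one_le_pow₀ hb1
    have h2 : 3 / 10 ^ 8 ≤ π * D.c := by nlinarith [hD.c1]
    have h3 : 3 / 10 ^ 8 * 1 * δ ≤ x k :=
      mul_le_mul_of_nonneg_right (mul_le_mul h2 h1 zero_le_one (by positivity)) hδ0.le
    have h4 : (3 / 10 ^ 8 * 1 * δ) ^ 2 ≤ x k ^ 2 := pow_le_pow_left₀ (by positivity) h3 2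
    have h5 : (2 : ℝ) * 10 ^ 9 ≤ N * x k ^ 2 := by
      calc (2 : ℝ) * 10 ^ 9 ≤ (3 / 10 ^ 8) ^ 2 * 10 ^ 25 := by norm_num
        _ ≤ (3 / 10 ^ 8) ^ 2 * (N * δ ^ 2) := by gcongr
        _ = N * (3 / 10 ^ 8 * 1 * δ) ^ 2 := by ring
        _ ≤ _ := mul_le_mul_of_nonneg_left h4 (Nat.cast_nonneg _)
    rw [div_le_div_iff₀ (by linarith) (by positivity)]
    linarith
  have hx3 : ∀ k k' : Fin n, (k' : ℕ) ≤ k → x k' ≤ 0.54369 ^ ((k : ℕ) - k') * x k := by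
    intro k k' hk
    have h1 : (1 : ℝ) ≤ (0.54369 * D.b) ^ ((k : ℕ) - k') :=
      one_le_pow₀ (by nlinarith [hD.out.b1])
    have h2 : x k = D.b ^ ((k : ℕ) - k') * x k' := by
      simp only [x]
      rw [show Φ.k0 + (k : ℕ) = (k : ℕ) - k' + (Φ.k0 + k') by omega, pow_add]
      ring
    rw [h2, ← mul_assoc, ← mul_pow]
    exact le_mul_of_one_le_left (hx0 k').le h1
  have hker : ∀ k k' : Fin n, ker N (cbar (x k)) (sbar (x k)) (cbar (x k')) (sbar (x k')) ≤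
      1.001 * Kr (0.54369 ^ ((k : ℕ) - k' + (k' - k))) := by
    intro k k'
    rcases le_total (k' : ℕ) k with h | h
    · rw [Nat.sub_eq_zero_of_le h, add_zero]
      exact (hK.2.2 _ _ _ N (hx0 k') (hx1 k) (hx3 k k' h) (by positivity)
        (pow_le_one₀ (by norm_num) (by norm_num))).1
    · rw [Nat.sub_eq_zero_of_le h, zero_add]
      exact (hK.2.2 _ _ _ N (hx0 k) (hx1 k') (hx3 k' k h) (by positivity)
        (pow_le_one₀ (by norm_num) (by norm_num))).2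
  have hQ0 : 0 ≤ Q := by
    have := hQ 0
    rw [Finset.sum_range_zero] at this
    linarith [hbb 0]
  have hdbl : ∑ k : Fin n, ∑ k' : Fin n, bb ((k : ℕ) - k' + (k' - k)) *
      ker N (cbar (x k)) (sbar (x k)) (cbar (x k')) (sbar (x k')) ≤ n * (1.001 * Q) := by
    let g : ℕ → ℝ := fun d => bb d * Kr (0.54369 ^ d)
    have hg : ∀ d, 0 ≤ g d := fun d => mul_nonneg (hbb d) (a1_Kr_nonneg (by positivity))
    have hg0 : g 0 = bb 0 := by simp [g, Kr]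
    calc _ ≤ ∑ _k : Fin n, 1.001 * Q := by
          refine Finset.sum_le_sum fun k _ => ?_
          calc _ ≤ ∑ k' : Fin n, 1.001 * g ((k : ℕ) - k' + (k' - k)) := by
                refine Finset.sum_le_sum fun k' _ => ?_
                refine (mul_le_mul_of_nonneg_left (hker k k') (hbb _)).trans (le_of_eq ?_)
                simp only [g]
                ring
            _ = 1.001 * ∑ k' ∈ range n, g ((k : ℕ) - k' + (k' - k)) := by
                rw [← Finset.mul_sum, Fin.sum_univ_eq_sum_range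
                  (fun k' => g ((k : ℕ) - k' + (k' - k))) n]
            _ ≤ 1.001 * Q := by
                refine mul_le_mul_of_nonneg_left ((a1_row hg k.2).trans ?_) (by norm_num)
                rw [hg0]
                exact hQ n
      _ = _ := by simp
  have hnu : ∀ (k : Fin n) (j : J) (t : ℝ), ‖(Φ.h j : ℂ) * (sg k j : ℂ) * ei t‖ ≤ Φ.h j := by
    intro k j t
    rw [norm_mul, norm_mul, a1_norm_ei, Complex.norm_real, Complex.norm_real, Real.norm_eq_abs,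
      Real.norm_eq_abs, hsg1, abs_of_nonneg (Φ.h0 j), mul_one, mul_one]
  refine ⟨δ, N, fun z => trig w fun k j =>
    (Φ.h j : ℂ) * (sg k j : ℂ) * ei ((ζ k j * z).re - φ (Φ.k0 + k) j), hN2, ?_, ?_, ?_⟩
  · simp only [trig, ei]
    fun_prop
  · intro z y
    have := a1_trig_le w (fun k j =>
      (Φ.h j : ℂ) * (sg k j : ℂ) * ei ((ζ k j * z).re - φ (Φ.k0 + k) j)) Φ.h
      (fun k j => hnu k j _) Φ.h1 y
    rwa [Fintype.card_fin] at this
  intro η hη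
  let Y : (ℕ → Bool) → ℝ := fun ω => ∑' i, sgn (ω i) * D.b⁻¹ ^ i
  let Z : (ℕ → Bool) → ℂ := fun ω => ∑' i, (sgn (ω i) : ℂ) * D.γ⁻¹ ^ i
  let u₀ : Fin n → J → ℂ := fun k j => (Φ.h j : ℂ) * (sg k j : ℂ) * ei (ζ k j * η).re
  let U : Fin n → J → (ℕ → Bool) → ℂ := fun k j ω => ei ((ζ k j * Z ω).re - φ (Φ.k0 + k) j)
  let Ψ : Fin n → J → (ℕ → Bool) → ℂ := fun k j => chi (Φ.a (Φ.k0 + k) j)
  have hΨ : ∀ k j ω, Ψ k j ω = U k j ω * ei (w k j * Y ω) := fun k j ω => hφ _ j ω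
  have hΨm : ∀ k j, Measurable (Ψ k j) := fun k j => (hcf _ (hsum _ j)).2.1
  have hΨ1 : ∀ k j ω, ‖Ψ k j ω‖ ≤ 1 := fun k j ω => (a1_norm_ei _).le
  have hT : ∀ ω, (fun (k : Fin n) (j : J) =>
      (Φ.h j : ℂ) * (sg k j : ℂ) * ei ((ζ k j * (Z ω + η)).re - φ (Φ.k0 + k) j)) =
      fun k j => u₀ k j * U k j ω := by
    intro ω
    funext k j
    simp only [u₀, U]
    rw [mul_assoc _ (ei _), ← a1_ei_add, mul_add, Complex.add_re]
    congr 2
    ring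
  obtain ⟨hI, hR⟩ := hE (Fin n) J δ ((1 + 1 / 1000) / 2) N w Φ.h U Ψ Y (fun k => cbar (x k))
    (fun k => sbar (x k)) (fun k k' => bb ((k : ℕ) - k' + (k' - k))) u₀ (by norm_num) Φ.h0 hΨ
    hΨm hΨ1
    (fun k j => by
      rw [show w k j * δ = x k * Φ.Wb j by simp only [w, x]; ring]
      exact (hK.1 _ _ (hx0 k) (hx1 k) (Φ.hb j)).1)
    (fun k j => by
      rw [show w k j * δ = x k * Φ.Wb j by simp only [w, x]; ring]
      exact (hK.1 _ _ (hx0 k) (hx1 k) (Φ.hb j)).2)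
    (fun k => (hK.2.1 _ (hx0 k) (hx1 k)).1) (fun k => (hK.2.1 _ (hx0 k) (hx1 k)).2.1)
    (fun k j => hnu k j _)
    (fun k k' u u' p p' hp hp' hu hu' => by
      rcases le_total (k' : ℕ) k with h | h
      · have h1 := hB (Φ.k0 + k') (k - k') (Nat.le_add_right _ _) u u' p p' hp hp' hu hu'
        rw [show Φ.k0 + (k' : ℕ) + (k - k') = Φ.k0 + k by omega] at h1
        rw [Nat.sub_eq_zero_of_le h, add_zero]
        exact h1
      · have h1 := hB (Φ.k0 + k) (k' - k) (Nat.le_add_right _ _) u' u p' p hp' hp hu' hu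
        rw [show Φ.k0 + (k : ℕ) + (k' - k) = Φ.k0 + k' by omega] at h1
        rw [Nat.sub_eq_zero_of_le h, zero_add, mul_comm p p']
        simpa only [mul_comm] using h1)
  have hΨi : ∀ k j, Integrable (Ψ k j) PP := fun k j =>
    Integrable.of_bound (hΨm k j).aestronglyMeasurable 1 (Eventually.of_forall (hΨ1 k j))
  have hTe : ∀ ω, trig w (fun k j => u₀ k j * U k j ω) (Y ω) =
      ∑ k, ∑ j, (u₀ k j * Ψ k j ω).re := by
    intro ω
    simp only [trig, hΨ, mul_assoc]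
  have hti : ∀ k j, Integrable (fun ω => (u₀ k j * Ψ k j ω).re) PP := fun k j =>
    ((hΨi k j).const_mul (u₀ k j)).re
  have hTi : Integrable (fun ω => trig w (fun k j => u₀ k j * U k j ω) (Y ω)) PP := by
    simp only [hTe]
    exact integrable_finsetSum _ fun k _ => integrable_finsetSum _ fun j _ => hti k j
  have hTv : ∫ ω, trig w (fun k j => u₀ k j * U k j ω) (Y ω) ∂PP =
      ∑ k : Fin n, ∑ j, Φ.h j * |amp (Φ.a (Φ.k0 + k) j)| * cos (ζ k j * η).re := by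
    simp only [hTe]
    rw [integral_finsetSum _ fun k _ => integrable_finsetSum _ fun j _ => hti k j]
    refine Finset.sum_congr rfl fun k _ => ?_
    rw [integral_finsetSum _ fun j _ => hti k j]
    refine Finset.sum_congr rfl fun j _ => ?_
    have h1 := integral_re ((hΨi k j).const_mul (u₀ k j))
    simp only [RCLike.re_to_complex] at h1
    rw [h1, integral_const_mul, (hcf _ (hsum _ j)).2.2.1, ← hsg2, Complex.re_mul_ofReal]
    simp only [u₀]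
    rw [← Complex.ofReal_mul, Complex.re_ofReal_mul, a1_ei_re]
    ring
  have hcos : ∀ k j, 0.99995 ≤ cos (ζ k j * η).re := by
    intro k j
    have h0 : 0 < ‖D.γ‖ ^ (Φ.k0 + n) := by positivity
    have h1 : ‖ζ k j‖ ≤ ‖D.γ‖ ^ (Φ.k0 + n) := by
      have h2 : ‖D.γ‖ ^ (Φ.k0 + k) ≤ ‖D.γ‖ ^ (Φ.k0 + n) := pow_le_pow_right₀ hγ1 (by omega)
      have h3 : ‖ζ k j‖ = 2 * π * ‖D.r‖ * ‖Φ.Wg j‖ * ‖D.γ‖ ^ (Φ.k0 + k) := by
        simp only [ζ, norm_mul, norm_pow, Complex.norm_real, Real.norm_eq_abs, Complex.norm_ofNat,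
          abs_of_pos pi_pos]
      rw [h3]
      calc _ ≤ 2 * 4 * 0.013 * 4 * ‖D.γ‖ ^ (Φ.k0 + n) := by
            have := hD.r2
            have := Φ.hg j
            gcongr
        _ ≤ _ := by linarith
    have h4 : |(ζ k j * η).re| ≤ 0.01 := by
      refine (Complex.abs_re_le_norm _).trans ?_
      rw [norm_mul]
      calc _ ≤ ‖D.γ‖ ^ (Φ.k0 + n) * (0.01 / ‖D.γ‖ ^ (Φ.k0 + n)) :=
            mul_le_mul h1 hη.le (norm_nonneg _) h0.le
        _ = _ := by field_simp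
    have h5 : (ζ k j * η).re ^ 2 ≤ 0.01 ^ 2 := by
      rw [← sq_abs]
      exact pow_le_pow_left₀ (abs_nonneg _) h4 2
    have h6 := one_sub_sq_div_two_le_cos (x := (ζ k j * η).re)
    linarith
  have hTl : n * (0.99995 * G) ≤ ∫ ω, trig w (fun k j => u₀ k j * U k j ω) (Y ω) ∂PP := by
    rw [hTv]
    calc (n : ℝ) * (0.99995 * G) = ∑ _k : Fin n, 0.99995 * G := by simp
      _ ≤ _ := by
        refine Finset.sum_le_sum fun k _ => ?_
        refine (mul_le_mul_of_nonneg_left (hG (Φ.k0 + k) (Nat.le_add_right _ _))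
          (by norm_num)).trans ?_
        rw [Finset.mul_sum]
        refine Finset.sum_le_sum fun j _ => ?_
        rw [mul_comm]
        exact mul_le_mul_of_nonneg_left (hcos k j) (mul_nonneg (Φ.h0 j) (abs_nonneg _))
  have hcb : ∑ k : Fin n, cbar (x k) ^ (2 * N) * ∑ j, Φ.h j ≤ n * (1 / 10 ^ 9) := by
    calc _ ≤ ∑ _k : Fin n, (1 / 10 ^ 9 : ℝ) := by
          refine Finset.sum_le_sum fun k _ => ?_
          calc _ ≤ 1 / 10 ^ 9 * 1 := mul_le_mul (hx2 k) Φ.h1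
                (Finset.sum_nonneg fun j _ => Φ.h0 j) (by positivity)
            _ = _ := mul_one _
      _ = _ := by simp
  have hfun : (fun ω : ℕ → Bool => trig w (fun (k : Fin n) (j : J) =>
      (Φ.h j : ℂ) * (sg k j : ℂ) * ei ((ζ k j * (Z ω + η)).re - φ (Φ.k0 + k) j)) (Y ω) -
      Rm δ ((1 + 1 / 1000) / 2) N (trig w fun (k : Fin n) (j : J) =>
      (Φ.h j : ℂ) * (sg k j : ℂ) * ei ((ζ k j * (Z ω + η)).re - φ (Φ.k0 + k) j)) (Y ω)) =
      fun ω => trig w (fun k j => u₀ k j * U k j ω) (Y ω) -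
        Rm δ ((1 + 1 / 1000) / 2) N (trig w fun k j => u₀ k j * U k j ω) (Y ω) := by
    funext ω
    rw [hT ω]
  refine ⟨hfun ▸ hTi.sub hI, ?_⟩
  have hfin : (n : ℝ) * 0.00020924 ≤ ∫ ω, (trig w (fun k j => u₀ k j * U k j ω) (Y ω) -
      Rm δ ((1 + 1 / 1000) / 2) N (trig w fun k j => u₀ k j * U k j ω) (Y ω)) ∂PP := by
    rw [integral_sub hTi hI]
    have h1 : (0.00020924 : ℝ) ≤ 0.99995 * G - 1 / 10 ^ 9 - (1 + 1 / 1000) / 2 * (1.001 * Q) := by
      linarith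
    have h2 := mul_le_mul_of_nonneg_left h1 (Nat.cast_nonneg (α := ℝ) n)
    linarith
  rw [← hfun] at hfin
  exact hfin

end Vale.Agent.Q105
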