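import Vale.Agent.Q105.Defs

/-!
# Row B: the bilinear bound with windows
-/

open MeasureTheory Real Filter Topology Finset

namespace Vale.Agent.Q105

open Vale.Agent.P105

theorem b_norm (a : ℕ → ℝ) (ω : ℕ → Bool) : ‖chi a ω‖ = 1 := by
  unfold chi ei
  exact Complex.norm_exp_ofReal_mul_I _

theorem b_int (hCF : RowCF) {a : ℕ → ℝ} (ha : Summable a) : Integrable (chi a) PP := by
  have := hCF.1
  exact Integrable.of_bound (hCF.2.2.2 a ha).2.1.aestronglyMeasurable 1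
    (ae_of_all _ fun ω => (b_norm a ω).le)

/-- the product of two sums of characters, expanded -/
theorem b_expand (hCF : RowCF) {J : Type} [Fintype J] {a a' : J → ℕ → ℝ}
    (ha : ∀ j, Summable (a j)) (ha' : ∀ j, Summable (a' j)) (u u' : J → ℂ) (ω : ℕ → Bool) :
    (∑ j, u j * chi (a j) ω) * (∑ j, u' j * chi (a' j) ω) =
      ∑ j, ∑ j', u j * u' j' * chi (a j + a' j') ω := by
  rw [Finset.sum_mul_sum]
  refine Finset.sum_congr rfl fun j _ => Finset.sum_congr rfl fun j' _ => ?_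
  rw [(hCF.2.2.2 (a j) (ha j)).2.2.2.1 (a' j') (ha' j') ω]
  ring

theorem b_intmul (hCF : RowCF) {J : Type} [Fintype J] {a a' : J → ℕ → ℝ}
    (ha : ∀ j, Summable (a j)) (ha' : ∀ j, Summable (a' j)) (u u' : J → ℂ) :
    Integrable (fun ω => (∑ j, u j * chi (a j) ω) * (∑ j, u' j * chi (a' j) ω)) PP := by
  simp only [b_expand hCF ha ha' u u']
  exact integrable_finsetSum _ fun j _ => integrable_finsetSum _ fun j' _ =>
    (b_int hCF ((ha j).add (ha' j'))).const_mul _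

theorem b_bil (hCF : RowCF) {J : Type} [Fintype J] {a a' : J → ℕ → ℝ}
    (ha : ∀ j, Summable (a j)) (ha' : ∀ j, Summable (a' j)) (u u' : J → ℂ) :
    ∫ ω, (∑ j, u j * chi (a j) ω) * (∑ j, u' j * chi (a' j) ω) ∂PP =
      ∑ j, ∑ j', u j * u' j' * (amp (a j + a' j') : ℂ) := by
  simp only [b_expand hCF ha ha' u u']
  have hs : ∀ j j', Summable (a j + a' j') := fun j j' => (ha j).add (ha' j')
  rw [integral_finsetSum _ fun j _ => integrable_finsetSum _ fun j' _ =>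
    (b_int hCF (hs j j')).const_mul _]
  refine Finset.sum_congr rfl fun j _ => ?_
  rw [integral_finsetSum _ fun j' _ => (b_int hCF (hs j j')).const_mul _]
  refine Finset.sum_congr rfl fun j' _ => ?_
  rw [integral_const_mul, (hCF.2.2.2 _ (hs j j')).2.2.1]

theorem b_conj (hCF : RowCF) {J : Type} [Fintype J] (a : J → ℕ → ℝ) (u : J → ℂ)
    (ω : ℕ → Bool) :
    (starRingEnd ℂ) (∑ j, u j * chi (a j) ω) =
      ∑ j, (starRingEnd ℂ) (u j) * chi (-a j) ω := by
  rw [map_sum]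
  refine Finset.sum_congr rfl fun j _ => ?_
  rw [map_mul, hCF.2.2.1]

/-- the mean square of a sum of characters -/
theorem b_sq (hCF : RowCF) {J : Type} [Fintype J] {h : J → ℝ} {a : J → ℕ → ℝ} {L p : ℝ}
    {u : J → ℂ} (ha : ∀ j, Summable (a j))
    (hL : ∑ j, ∑ j', h j * h j' * |amp (a j - a j')| ≤ L) (hu : ∀ j, ‖u j‖ ≤ p * h j) :
    Integrable (fun ω => ‖∑ j, u j * chi (a j) ω‖ ^ 2) PP ∧
      ∫ ω, ‖∑ j, u j * chi (a j) ω‖ ^ 2 ∂PP ≤ p ^ 2 * L := by
  have hn : ∀ j, Summable ((fun j => -a j) j) := fun j => (ha j).neg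
  have key : ∀ ω, (∑ j, u j * chi (a j) ω) *
      (∑ j, (starRingEnd ℂ) (u j) * chi (-a j) ω) =
      ((‖∑ j, u j * chi (a j) ω‖ ^ 2 : ℝ) : ℂ) := by
    intro ω
    rw [← b_conj hCF, Complex.mul_conj, Complex.normSq_eq_norm_sq]
  have hI := b_intmul hCF ha hn u fun j => (starRingEnd ℂ) (u j)
  have hB := b_bil hCF ha hn u fun j => (starRingEnd ℂ) (u j)
  simp only [key] at hI hB
  refine ⟨by simpa only [RCLike.re_to_complex, Complex.ofReal_re] using hI.re, ?_⟩
  rw [integral_complex_ofReal] at hB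
  have h1 : ∫ ω, ‖∑ j, u j * chi (a j) ω‖ ^ 2 ∂PP ≤
      ‖∑ j, ∑ j', u j * (starRingEnd ℂ) (u j') * (amp (a j + -a j') : ℂ)‖ := by
    rw [← hB, Complex.norm_real, Real.norm_eq_abs]
    exact le_abs_self _
  refine h1.trans ((norm_sum_le _ _).trans ?_)
  refine le_trans ?_ (mul_le_mul_of_nonneg_left hL (sq_nonneg p))
  rw [Finset.mul_sum]
  refine Finset.sum_le_sum fun j _ => (norm_sum_le _ _).trans ?_
  rw [Finset.mul_sum]
  refine Finset.sum_le_sum fun j' _ => ?_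
  rw [norm_mul, norm_mul, Complex.norm_real, Real.norm_eq_abs, ← sub_eq_add_neg,
    RCLike.norm_conj]
  have h2 : ‖u j‖ * ‖u j'‖ ≤ (p * h j) * (p * h j') :=
    mul_le_mul (hu j) (hu j') (norm_nonneg _) ((norm_nonneg _).trans (hu j))
  calc ‖u j‖ * ‖u j'‖ * |amp (a j - a j')| ≤ (p * h j) * (p * h j') * |amp (a j - a j')| :=
        mul_le_mul_of_nonneg_right h2 (abs_nonneg _)
    _ = _ := by ring

/-- the Cauchy-Schwarz bound -/
theorem b_base (hCF : RowCF) {J : Type} [Fintype J] {h : J → ℝ} {a a' : J → ℕ → ℝ} {L : ℝ}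
    (ha : ∀ j, Summable (a j)) (ha' : ∀ j, Summable (a' j))
    (hL : ∑ j, ∑ j', h j * h j' * |amp (a j - a j')| ≤ L)
    (hL' : ∑ j, ∑ j', h j * h j' * |amp (a' j - a' j')| ≤ L)
    (u u' : J → ℂ) (p p' : ℝ) (hp : 0 ≤ p) (hp' : 0 ≤ p')
    (hu : ∀ j, ‖u j‖ ≤ p * h j) (hu' : ∀ j, ‖u' j‖ ≤ p' * h j) :
    ‖∑ j, ∑ j', u j * u' j' * (amp (a j + a' j') : ℂ)‖ ≤ p * p' * L := by
  rcases hp.eq_or_lt with rfl | hp
  · have : ∀ j, u j = 0 := fun j => norm_le_zero_iff.1 (by simpa using hu j)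
    simp [this]
  rcases hp'.eq_or_lt with rfl | hp'
  · have : ∀ j, u' j = 0 := fun j => norm_le_zero_iff.1 (by simpa using hu' j)
    simp [this]
  obtain ⟨i1, e1⟩ := b_sq hCF ha hL hu
  obtain ⟨i2, e2⟩ := b_sq hCF ha' hL' hu'
  rw [← b_bil hCF ha ha' u u']
  refine (norm_integral_le_integral_norm _).trans ?_
  have hpp : 0 < p * p' := mul_pos hp hp'
  have h3 : ∫ ω, ‖(∑ j, u j * chi (a j) ω) * (∑ j, u' j * chi (a' j) ω)‖ ∂PP ≤
      ∫ ω, (p' / (2 * p) * ‖∑ j, u j * chi (a j) ω‖ ^ 2 +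
        p / (2 * p') * ‖∑ j, u' j * chi (a' j) ω‖ ^ 2) ∂PP := by
    refine integral_mono (b_intmul hCF ha ha' u u').norm
      ((i1.const_mul _).add (i2.const_mul _)) fun ω => ?_
    dsimp only
    rw [norm_mul]
    generalize ‖∑ j, u j * chi (a j) ω‖ = x
    generalize ‖∑ j, u' j * chi (a' j) ω‖ = y
    have : p' / (2 * p) * x ^ 2 + p / (2 * p') * y ^ 2 - x * y =
        (p' * x - p * y) ^ 2 / (2 * (p * p')) := by
      field_simp
      ring
    have h4 : 0 ≤ (p' * x - p * y) ^ 2 / (2 * (p * p')) := by positivity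
    linarith
  refine h3.trans ?_
  rw [integral_add (i1.const_mul _) (i2.const_mul _), integral_const_mul, integral_const_mul]
  have h5 : 0 ≤ p' / (2 * p) := by positivity
  have h6 : 0 ≤ p / (2 * p') := by positivity
  calc _ ≤ p' / (2 * p) * (p ^ 2 * L) + p / (2 * p') * (p' ^ 2 * L) :=
        add_le_add (mul_le_mul_of_nonneg_left e1 h5) (mul_le_mul_of_nonneg_left e2 h6)
    _ = p * p' * L := by
        field_simp
        ring

/-- the induction over the window -/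
theorem b_ind {J : Type} [Fintype J] {h : J → ℝ} (R : J → J → ℂ) (B B' : J → ℕ → ℝ)
    (C : ℕ → ℝ) {s L : ℝ} (hs : 0 ≤ s)
    (base : ∀ (u u' : J → ℂ) (p p' : ℝ), 0 ≤ p → 0 ≤ p' → (∀ j, ‖u j‖ ≤ p * h j) →
      (∀ j, ‖u' j‖ ≤ p' * h j) → ‖∑ j, ∑ j', u j * u' j' * R j j'‖ ≤ p * p' * L)
    (T : Finset ℕ) (hB : ∀ j, ∀ i ∈ T, |B j i| ≤ s) (hB' : ∀ j, ∀ i ∈ T, |B' j i| ≤ s) :
    ∀ (u u' : J → ℂ) (p p' : ℝ), 0 ≤ p → 0 ≤ p' → (∀ j, ‖u j‖ ≤ p * h j) →
      (∀ j, ‖u' j‖ ≤ p' * h j) →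
      ‖∑ j, ∑ j', u j * u' j' * (((∏ i ∈ T, cos (C i + (B j i + B' j' i)) : ℝ) : ℂ) * R j j')‖ ≤
        p * p' * (L * ∏ i ∈ T, (|cos (C i)| * (1 + s ^ 2) + 2 * s * |sin (C i)|)) := by
  classical
  induction T using Finset.induction_on with
  | empty => simpa using base
  | insert i T hi ih =>
    intro u u' p p' hp hp' hu hu'
    have ih' := ih (fun j k hk => hB j k (mem_insert_of_mem hk))
      (fun j k hk => hB' j k (mem_insert_of_mem hk))
    have hc : ∀ (v : J → ℂ) (q : ℝ) (x : J → ℝ), (∀ j, ‖v j‖ ≤ q * h j) →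
        ∀ j, ‖v j * (cos (x j) : ℝ)‖ ≤ q * h j := by
      intro v q x hv j
      rw [norm_mul, Complex.norm_real, Real.norm_eq_abs]
      exact (mul_le_of_le_one_right (norm_nonneg _) (abs_cos_le_one _)).trans (hv j)
    have hsn : ∀ (v : J → ℂ) (q : ℝ) (x : J → ℝ), (∀ j, ‖v j‖ ≤ q * h j) → (∀ j, |x j| ≤ s) →
        ∀ j, ‖v j * (sin (x j) : ℝ)‖ ≤ q * s * h j := by
      intro v q x hv hx j
      rw [norm_mul, Complex.norm_real, Real.norm_eq_abs]
      calc ‖v j‖ * |sin (x j)| ≤ q * h j * s :=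
            mul_le_mul (hv j) (abs_sin_le_abs.trans (hx j)) (abs_nonneg _)
              ((norm_nonneg _).trans (hv j))
        _ = _ := by ring
    have m1 : ∀ j, |B j i| ≤ s := fun j => hB j i (mem_insert_self _ _)
    have m2 : ∀ j, |B' j i| ≤ s := fun j => hB' j i (mem_insert_self _ _)
    have hps := mul_nonneg hp hs
    have hps' := mul_nonneg hp' hs
    have cc := ih' _ _ p p' hp hp' (hc u p (fun j => B j i) hu) (hc u' p' (fun j => B' j i) hu')
    have ss := ih' _ _ _ _ hps hps' (hsn u p (fun j => B j i) hu m1)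
      (hsn u' p' (fun j => B' j i) hu' m2)
    have sc := ih' _ _ _ p' hps hp' (hsn u p (fun j => B j i) hu m1)
      (hc u' p' (fun j => B' j i) hu')
    have cs := ih' _ _ p _ hp hps' (hc u p (fun j => B j i) hu)
      (hsn u' p' (fun j => B' j i) hu' m2)
    simp only [Finset.prod_insert hi]
    obtain ⟨Q, hQ⟩ : ∃ Q : J → J → ℂ, ∀ j j',
        (((∏ i ∈ T, cos (C i + (B j i + B' j' i)) : ℝ) : ℂ) * R j j') = Q j j' :=
      ⟨_, fun _ _ => rfl⟩
    simp only [hQ] at cc ss sc cs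
    have e : ∑ j, ∑ j', u j * u' j' * (((cos (C i + (B j i + B' j' i)) *
        ∏ i ∈ T, cos (C i + (B j i + B' j' i)) : ℝ) : ℂ) * R j j') =
        (cos (C i) : ℝ) * ((∑ j, ∑ j', u j * (cos (B j i) : ℝ) * (u' j' * (cos (B' j' i) : ℝ)) *
            Q j j') -
          ∑ j, ∑ j', u j * (sin (B j i) : ℝ) * (u' j' * (sin (B' j' i) : ℝ)) * Q j j') -
        (sin (C i) : ℝ) * ((∑ j, ∑ j', u j * (sin (B j i) : ℝ) * (u' j' * (cos (B' j' i) : ℝ)) *
            Q j j') +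
          ∑ j, ∑ j', u j * (cos (B j i) : ℝ) * (u' j' * (sin (B' j' i) : ℝ)) * Q j j') := by
      simp only [← Finset.sum_sub_distrib, ← Finset.sum_add_distrib, Finset.mul_sum]
      refine Finset.sum_congr rfl fun j _ => Finset.sum_congr rfl fun j' _ => ?_
      rw [← hQ, Real.cos_add, Real.cos_add, Real.sin_add]
      simp only [Complex.ofReal_mul, Complex.ofReal_sub, Complex.ofReal_add]
      ring
    rw [e]
    refine (norm_sub_le _ _).trans ?_
    rw [norm_mul, norm_mul, Complex.norm_real, Complex.norm_real, Real.norm_eq_abs,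
      Real.norm_eq_abs]
    have n1 := mul_le_mul_of_nonneg_left ((norm_sub_le _ _).trans (add_le_add cc ss))
      (abs_nonneg (cos (C i)))
    have n2 := mul_le_mul_of_nonneg_left ((norm_add_le _ _).trans (add_le_add sc cs))
      (abs_nonneg (sin (C i)))
    refine (add_le_add n1 n2).trans (le_of_eq ?_)
    ring

/-- a sequence with the window removed -/
noncomputable def b_z (S : Finset ℕ) (a : ℕ → ℝ) : ℕ → ℝ := fun i => if i ∈ S then 0 else a i

theorem b_zsum (S : Finset ℕ) {a : ℕ → ℝ} (ha : Summable a) : Summable (b_z S a) := by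
  refine Summable.of_norm_bounded ha.norm fun i => ?_
  unfold b_z
  split_ifs
  · simp
  · exact le_rfl

theorem b_cpos {β : ℝ} (h0 : 0 ≤ β) (h1 : β ≤ 1 / 8) : 0 < cos (2 * π * β) := by
  have := pi_pos
  refine cos_pos_of_mem_Ioo ⟨by nlinarith, by nlinarith⟩

/-- the Gram bound after removal of the window -/
theorem b_gram (hCF : RowCF) {J : Type} [Fintype J] {h : J → ℝ} {a : J → ℕ → ℝ}
    {S : Finset ℕ} {A : ℕ → ℝ} {β Λ : ℝ} (hh : ∀ j, 0 ≤ h j) (ha : ∀ j, Summable (a j))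
    (h0 : 0 ≤ β) (h1 : β ≤ 1 / 8) (hA : ∀ j, ∀ i ∈ S, |a j i - A i| ≤ β)
    (hL : ∑ j, ∑ j', h j * h j' * |amp (a j - a j')| ≤ Λ) :
    ∑ j, ∑ j', h j * h j' * |amp (b_z S (a j) - b_z S (a j'))| ≤
      Λ / ∏ _i ∈ S, cos (2 * π * β) := by
  have hc := b_cpos h0 h1
  have hP : 0 < ∏ _i ∈ S, cos (2 * π * β) := Finset.prod_pos fun _ _ => hc
  rw [le_div_iff₀ hP]
  refine le_trans ?_ hL
  rw [Finset.sum_mul]
  refine Finset.sum_le_sum fun j _ => ?_
  rw [Finset.sum_mul]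
  refine Finset.sum_le_sum fun j' _ => ?_
  rw [mul_assoc]
  refine mul_le_mul_of_nonneg_left ?_ (mul_nonneg (hh j) (hh j'))
  have hs : Summable (a j - a j') := (ha j).sub (ha j')
  have e : (fun i => if i ∈ S then 0 else (a j - a j') i) = b_z S (a j) - b_z S (a j') := by
    funext i
    simp only [b_z, Pi.sub_apply]
    split_ifs <;> simp
  rw [(hCF.2.2.2 _ hs).2.2.2.2.1 S, e, abs_mul, mul_comm]
  refine mul_le_mul_of_nonneg_right ?_ (abs_nonneg _)
  refine le_trans ?_ (le_abs_self _)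
  refine Finset.prod_le_prod (fun _ _ => hc.le) fun i hi => ?_
  have hpi := pi_pos
  have h2 : |(a j - a j') i| ≤ 2 * β := by
    have := hA j i hi
    have := hA j' i hi
    rw [Pi.sub_apply]
    rw [abs_le] at *
    constructor <;> linarith
  rw [← cos_abs (π * _), abs_mul, abs_of_pos hpi]
  refine cos_le_cos_of_nonneg_of_le_pi (by positivity) (by nlinarith) (by nlinarith)

/-- the complex bilinear bound -/
theorem b_core (hCF : RowCF) {J : Type} [Fintype J] {h : J → ℝ} {a a' : J → ℕ → ℝ}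
    {S : Finset ℕ} {A A' : ℕ → ℝ} {β Λ p p' : ℝ} {u u' : J → ℂ}
    (hh : ∀ j, 0 ≤ h j) (ha : ∀ j, Summable (a j)) (ha' : ∀ j, Summable (a' j))
    (h0 : 0 ≤ β) (h1 : β ≤ 1 / 8) (hp : 0 ≤ p) (hp' : 0 ≤ p')
    (hA : ∀ j, ∀ i ∈ S, |a j i - A i| ≤ β) (hA' : ∀ j, ∀ i ∈ S, |a' j i - A' i| ≤ β)
    (hL : ∑ j, ∑ j', h j * h j' * |amp (a j - a j')| ≤ Λ)
    (hL' : ∑ j, ∑ j', h j * h j' * |amp (a' j - a' j')| ≤ Λ)
    (hu : ∀ j, ‖u j‖ ≤ p * h j) (hu' : ∀ j, ‖u' j‖ ≤ p' * h j) :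
    ‖∑ j, ∑ j', u j * u' j' * (amp (a j + a' j') : ℂ)‖ ≤ p * p' * (Λ * wf β S (A + A')) := by
  have hpi := pi_pos
  have base := b_base hCF (fun j => b_zsum S (ha j)) (fun j => b_zsum S (ha' j))
    (b_gram hCF hh ha h0 h1 hA hL) (b_gram hCF hh ha' h0 h1 hA' hL')
  have hB : ∀ (x : J → ℕ → ℝ) (X : ℕ → ℝ), (∀ j, ∀ i ∈ S, |x j i - X i| ≤ β) →
      ∀ j, ∀ i ∈ S, |π * (x j i - X i)| ≤ π * β := by
    intro x X hx j i hi
    rw [abs_mul, abs_of_pos hpi]
    exact mul_le_mul_of_nonneg_left (hx j i hi) hpi.le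
  have main := b_ind _ (fun j i => π * (a j i - A i)) (fun j i => π * (a' j i - A' i))
    (fun i => π * (A + A') i) (mul_nonneg hpi.le h0) base S (hB a A hA) (hB a' A' hA')
    u u' p p' hp hp' hu hu'
  have e : ∀ j j', (amp (a j + a' j') : ℂ) =
      ((∏ i ∈ S, cos (π * (A + A') i + (π * (a j i - A i) + π * (a' j' i - A' i))) : ℝ) : ℂ) *
        (amp (b_z S (a j) + b_z S (a' j')) : ℂ) := by
    intro j j'
    have hs : Summable (a j + a' j') := (ha j).add (ha' j')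
    have e1 : (fun i => if i ∈ S then 0 else (a j + a' j') i) = b_z S (a j) + b_z S (a' j') := by
      funext i
      simp only [b_z, Pi.add_apply]
      split_ifs <;> simp
    rw [(hCF.2.2.2 _ hs).2.2.2.2.1 S, e1, Complex.ofReal_mul]
    congr 2
    refine Finset.prod_congr rfl fun i _ => ?_
    congr 1
    simp only [Pi.add_apply]
    ring
  simp only [e]
  refine main.trans (le_of_eq ?_)
  unfold wf
  rw [Finset.prod_div_distrib]
  ring

theorem rowB (hCF : RowCF) : RowB := by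
  intro J _ h a a' S S' A A' β Λ p p' u u' hh ha ha' h0 h1 hp hp' hA hA' hL hL' hu hu'
  have hn : ∀ j, Summable ((fun j => -a' j) j) := fun j => (ha' j).neg
  have c1 := b_core hCF hh ha ha' h0 h1 hp hp' (fun j i hi => hA j i (mem_union_left _ hi))
    (fun j i hi => hA' j i (mem_union_left _ hi)) hL hL' hu hu'
  have c2 := b_core (a' := fun j => -a' j) (A' := -A') (u' := fun j => (starRingEnd ℂ) (u' j))
    hCF hh ha hn h0 h1 hp hp' (fun j i hi => hA j i (mem_union_right _ hi))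
    (fun j i hi => by
      have := hA' j i (mem_union_right _ hi)
      simp only [Pi.neg_apply]
      rwa [← abs_neg, neg_sub, sub_neg_eq_add, neg_add_eq_sub])
    hL
    (by
      refine le_trans (le_of_eq ?_) hL'
      refine Finset.sum_congr rfl fun j _ => Finset.sum_congr rfl fun j' _ => ?_
      rw [← hCF.2.1 (a' j - a' j'), neg_sub']) hu
    (fun j => by rw [RCLike.norm_conj]; exact hu' j)
  rw [← b_bil hCF ha ha'] at c1
  rw [← b_bil hCF ha hn, ← sub_eq_add_neg] at c2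
  have i1 := b_intmul hCF ha ha' u u'
  have i2 := b_intmul hCF ha hn u fun j => (starRingEnd ℂ) (u' j)
  simp only [← b_conj hCF] at c2 i2
  have e : ∀ ω, (∑ j, u j * chi (a j) ω).re * (∑ j, u' j * chi (a' j) ω).re =
      RCLike.re ((1 / 2 : ℂ) * ((∑ j, u j * chi (a j) ω) * (∑ j, u' j * chi (a' j) ω) +
        (∑ j, u j * chi (a j) ω) * (starRingEnd ℂ) (∑ j, u' j * chi (a' j) ω))) := by
    intro ω
    generalize (∑ j, u j * chi (a j) ω) = x
    generalize (∑ j, u' j * chi (a' j) ω) = y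
    rw [← mul_add, Complex.add_conj]
    simp
    ring
  simp only [e]
  have i3 : Integrable (fun ω => (1 / 2 : ℂ) *
      ((∑ j, u j * chi (a j) ω) * (∑ j, u' j * chi (a' j) ω) +
        (∑ j, u j * chi (a j) ω) * (starRingEnd ℂ) (∑ j, u' j * chi (a' j) ω))) PP :=
    (i1.add i2).const_mul _
  rw [integral_re i3, integral_const_mul, integral_add i1 i2]
  refine (RCLike.abs_re_le_norm _).trans ?_
  rw [norm_mul]
  have h2 : ‖(1 / 2 : ℂ)‖ = 1 / 2 := by simp
  rw [h2]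
  have h3 := (norm_add_le _ _).trans (add_le_add c1 c2)
  linarith

end Vale.Agent.Q105
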