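import Vale.Agent.Q105.Defs

/-!
# Row B: the bilinear bound with windows
-/

open MeasureTheory Real Filter Topology Finset
open scoped ENNReal

namespace Vale.Agent.Q105

open Vale.Agent.P105

/-- the kernel `R` has bilinear norm at most `L` on vectors dominated by `h` -/
def B33Bd {J : Type} [Fintype J] (h : J → ℝ) (R : J → J → ℝ) (L : ℝ) : Prop :=
  ∀ (u u' : J → ℂ) (p p' : ℝ), 0 ≤ p → 0 ≤ p' → (∀ j, ‖u j‖ ≤ p * h j) →
    (∀ j, ‖u' j‖ ≤ p' * h j) → ‖∑ j, ∑ j', u j * u' j' * (R j j' : ℂ)‖ ≤ p * p' * L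

theorem b33_scale {J : Type} {h : J → ℝ} {u : J → ℂ} {p s : ℝ} {c : J → ℝ}
    (hu : ∀ j, ‖u j‖ ≤ p * h j) (hc : ∀ j, |c j| ≤ s) (j : J) :
    ‖u j * (c j : ℂ)‖ ≤ p * s * h j := by
  rw [norm_mul, Complex.norm_real, Real.norm_eq_abs]
  have h1 := mul_le_mul (hu j) (hc j) (abs_nonneg _) ((norm_nonneg _).trans (hu j))
  linarith [h1, mul_right_comm p (h j) s]

theorem b33_step {J : Type} [Fintype J] {h : J → ℝ} {R : J → J → ℝ} {L s C : ℝ} {B B' : J → ℝ}
    (hR : B33Bd h R L) (hs : 0 ≤ s) (hB : ∀ j, |B j| ≤ s) (hB' : ∀ j, |B' j| ≤ s) :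
    B33Bd h (fun j j' => cos (C + B j + B' j') * R j j')
      (L * (|cos C| * (1 + s ^ 2) + 2 * s * |sin C|)) := by
  intro u u' p p' hp hp' hu hu'
  have hc : ∀ j, |cos (B j)| ≤ 1 := fun j => abs_cos_le_one _
  have hc' : ∀ j, |cos (B' j)| ≤ 1 := fun j => abs_cos_le_one _
  have hn : ∀ j, |sin (B j)| ≤ s := fun j => (abs_sin_le_abs).trans (hB j)
  have hn' : ∀ j, |sin (B' j)| ≤ s := fun j => (abs_sin_le_abs).trans (hB' j)
  have e1 := hR _ _ _ _ (mul_nonneg hp zero_le_one) (mul_nonneg hp' zero_le_one)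
    (b33_scale hu hc) (b33_scale hu' hc')
  have e2 := hR _ _ _ _ (mul_nonneg hp hs) (mul_nonneg hp' hs)
    (b33_scale hu hn) (b33_scale hu' hn')
  have e3 := hR _ _ _ _ (mul_nonneg hp hs) (mul_nonneg hp' zero_le_one)
    (b33_scale hu hn) (b33_scale hu' hc')
  have e4 := hR _ _ _ _ (mul_nonneg hp zero_le_one) (mul_nonneg hp' hs)
    (b33_scale hu hc) (b33_scale hu' hn')
  set T1 := ∑ j, ∑ j', u j * (cos (B j) : ℝ) * (u' j' * (cos (B' j') : ℝ)) * (R j j' : ℂ) with hT1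
  set T2 := ∑ j, ∑ j', u j * (sin (B j) : ℝ) * (u' j' * (sin (B' j') : ℝ)) * (R j j' : ℂ) with hT2
  set T3 := ∑ j, ∑ j', u j * (sin (B j) : ℝ) * (u' j' * (cos (B' j') : ℝ)) * (R j j' : ℂ) with hT3
  set T4 := ∑ j, ∑ j', u j * (cos (B j) : ℝ) * (u' j' * (sin (B' j') : ℝ)) * (R j j' : ℂ) with hT4
  have key : ∑ j, ∑ j', u j * u' j' * ((cos (C + B j + B' j') * R j j' : ℝ) : ℂ) =
      ((cos C : ℝ) : ℂ) * (T1 - T2) - ((sin C : ℝ) : ℂ) * (T3 + T4) := by
    rw [hT1, hT2, hT3, hT4]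
    simp only [← Finset.sum_sub_distrib, ← Finset.sum_add_distrib, Finset.mul_sum]
    refine Finset.sum_congr rfl fun j _ => Finset.sum_congr rfl fun j' _ => ?_
    have : cos (C + B j + B' j') = cos C * (cos (B j) * cos (B' j') - sin (B j) * sin (B' j')) -
        sin C * (sin (B j) * cos (B' j') + cos (B j) * sin (B' j')) := by
      rw [add_assoc, cos_add, cos_add, sin_add]
    rw [this]
    simp only [Complex.ofReal_mul, Complex.ofReal_sub, Complex.ofReal_add]
    ring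
  rw [key]
  have n1 : ‖T1 - T2‖ ≤ p * p' * L * (1 + s ^ 2) := by
    have := norm_sub_le T1 T2
    nlinarith [this, e1, e2]
  have n2 : ‖T3 + T4‖ ≤ p * p' * L * (2 * s) := by
    have := norm_add_le T3 T4
    nlinarith [this, e3, e4]
  have n3 := norm_sub_le (((cos C : ℝ) : ℂ) * (T1 - T2)) (((sin C : ℝ) : ℂ) * (T3 + T4))
  rw [norm_mul, norm_mul, Complex.norm_real, Complex.norm_real, Real.norm_eq_abs,
    Real.norm_eq_abs] at n3
  have m1 := mul_le_mul_of_nonneg_left n1 (abs_nonneg (cos C))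
  have m2 := mul_le_mul_of_nonneg_left n2 (abs_nonneg (sin C))
  calc _ ≤ |cos C| * (p * p' * L * (1 + s ^ 2)) + |sin C| * (p * p' * L * (2 * s)) := by linarith
    _ = _ := by ring

theorem b33_ind {J : Type} [Fintype J] {h : J → ℝ} {R : J → J → ℝ} {L s : ℝ} (C : ℕ → ℝ)
    (B B' : J → ℕ → ℝ) (hR : B33Bd h R L) (hs : 0 ≤ s) (T : Finset ℕ)
    (hB : ∀ j, ∀ i ∈ T, |B j i| ≤ s) (hB' : ∀ j, ∀ i ∈ T, |B' j i| ≤ s) :
    B33Bd h (fun j j' => (∏ i ∈ T, cos (C i + B j i + B' j' i)) * R j j')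
      (L * ∏ i ∈ T, (|cos (C i)| * (1 + s ^ 2) + 2 * s * |sin (C i)|)) := by
  induction T using Finset.induction_on with
  | empty => simpa using hR
  | insert i T hi ih =>
    have ih' := ih (fun j k hk => hB j k (mem_insert_of_mem hk))
      (fun j k hk => hB' j k (mem_insert_of_mem hk))
    have st := b33_step (C := C i) (B := fun j => B j i) (B' := fun j => B' j i) ih' hs
      (fun j => hB j i (mem_insert_self _ _)) (fun j => hB' j i (mem_insert_self _ _))
    simp only [Finset.prod_insert hi]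
    convert st using 1
    · funext j j'
      ring
    · ring

theorem b33_norm (a : ℕ → ℝ) (ω : ℕ → Bool) : ‖chi a ω‖ = 1 := by
  unfold chi ei
  exact Complex.norm_exp_ofReal_mul_I _

theorem b33_int (hCF : RowCF) {a : ℕ → ℝ} (ha : Summable a) : Integrable (chi a) PP := by
  have := hCF.1
  exact Integrable.of_bound ((hCF.2.2.2 a ha).2.1.aestronglyMeasurable) 1
    (Eventually.of_forall fun ω => (b33_norm a ω).le)

/-- the integral of a product of two sums of characters -/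
theorem b33_prod (hCF : RowCF) {J : Type} [Fintype J] {a a' : J → ℕ → ℝ}
    (ha : ∀ j, Summable (a j)) (ha' : ∀ j, Summable (a' j)) (u u' : J → ℂ) :
    Integrable (fun ω => (∑ j, u j * chi (a j) ω) * (∑ j, u' j * chi (a' j) ω)) PP ∧
    ∫ ω, (∑ j, u j * chi (a j) ω) * (∑ j, u' j * chi (a' j) ω) ∂PP =
      ∑ j, ∑ j', u j * u' j' * (amp (a j + a' j') : ℂ) := by
  have e : (fun ω => (∑ j, u j * chi (a j) ω) * (∑ j, u' j * chi (a' j) ω)) =
      fun ω => ∑ j, ∑ j', u j * u' j' * chi (a j + a' j') ω := by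
    funext ω
    rw [Finset.sum_mul_sum]
    refine Finset.sum_congr rfl fun j _ => Finset.sum_congr rfl fun j' _ => ?_
    rw [(hCF.2.2.2 (a j) (ha j)).2.2.2.1 (a' j') (ha' j') ω]
    ring
  have hi : ∀ j j', Integrable (fun ω => u j * u' j' * chi (a j + a' j') ω) PP := fun j j' =>
    (b33_int hCF ((ha j).add (ha' j'))).const_mul _
  rw [e]
  refine ⟨integrable_finsetSum _ fun j _ => integrable_finsetSum _ fun j' _ => hi j j', ?_⟩
  rw [integral_finsetSum _ fun j _ => integrable_finsetSum _ fun j' _ => hi j j']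
  refine Finset.sum_congr rfl fun j _ => ?_
  rw [integral_finsetSum _ fun j' _ => hi j j']
  refine Finset.sum_congr rfl fun j' _ => ?_
  rw [integral_const_mul, (hCF.2.2.2 (a j + a' j') ((ha j).add (ha' j'))).2.2.1]

theorem b33_conj (hCF : RowCF) {J : Type} [Fintype J] (a : J → ℕ → ℝ) (u : J → ℂ)
    (ω : ℕ → Bool) :
    ∑ j, (starRingEnd ℂ) (u j) * chi (-a j) ω = (starRingEnd ℂ) (∑ j, u j * chi (a j) ω) := by
  rw [map_sum]
  refine Finset.sum_congr rfl fun j _ => ?_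
  rw [map_mul, hCF.2.2.1]

/-- the square norm of a sum of characters -/
theorem b33_sq (hCF : RowCF) {J : Type} [Fintype J] {h : J → ℝ} {a : J → ℕ → ℝ} {L p : ℝ}
    {u : J → ℂ} (ha : ∀ j, Summable (a j)) (hp : 0 ≤ p)
    (hG : ∑ j, ∑ j', h j * h j' * |amp (a j - a j')| ≤ L) (hu : ∀ j, ‖u j‖ ≤ p * h j) :
    Integrable (fun ω => ‖∑ j, u j * chi (a j) ω‖ ^ 2) PP ∧
    ∫ ω, ‖∑ j, u j * chi (a j) ω‖ ^ 2 ∂PP ≤ p ^ 2 * L := by
  obtain ⟨h1, h2⟩ := b33_prod hCF (a' := fun j => -a j) ha (fun j => (ha j).neg) u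
    (fun j => (starRingEnd ℂ) (u j))
  simp only [b33_conj hCF, Complex.mul_conj, Complex.normSq_eq_norm_sq] at h1 h2
  have h3 : Integrable (fun ω => ‖∑ j, u j * chi (a j) ω‖ ^ 2) PP := by
    have := h1.re
    simpa [← Complex.ofReal_pow] using this
  refine ⟨h3, ?_⟩
  rw [integral_complex_ofReal] at h2
  have h4 : ∫ ω, ‖∑ j, u j * chi (a j) ω‖ ^ 2 ∂PP ≤
      ‖∑ j, ∑ j', u j * (starRingEnd ℂ) (u j') * (amp (a j + -a j') : ℂ)‖ := by
    rw [← h2]
    exact (le_abs_self _).trans (by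
      rw [← Real.norm_eq_abs]
      exact (Complex.norm_real _).ge)
  refine h4.trans ((norm_sum_le _ _).trans ?_)
  refine le_trans ?_ (mul_le_mul_of_nonneg_left hG (sq_nonneg p))
  rw [Finset.mul_sum]
  refine Finset.sum_le_sum fun j _ => (norm_sum_le _ _).trans ?_
  rw [Finset.mul_sum]
  refine Finset.sum_le_sum fun j' _ => ?_
  rw [norm_mul, norm_mul, Complex.norm_conj, Complex.norm_real, Real.norm_eq_abs,
    ← sub_eq_add_neg]
  have m := mul_le_mul (hu j) (hu j') (norm_nonneg _) ((norm_nonneg _).trans (hu j))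
  have m2 := mul_le_mul_of_nonneg_right m (abs_nonneg (amp (a j - a j')))
  calc _ ≤ p * h j * (p * h j') * |amp (a j - a j')| := m2
    _ = _ := by ring

/-- the bound without windows -/
theorem b33_base (hCF : RowCF) {J : Type} [Fintype J] {h : J → ℝ} {a a' : J → ℕ → ℝ} {L : ℝ}
    (ha : ∀ j, Summable (a j)) (ha' : ∀ j, Summable (a' j))
    (hG : ∑ j, ∑ j', h j * h j' * |amp (a j - a j')| ≤ L)
    (hG' : ∑ j, ∑ j', h j * h j' * |amp (a' j - a' j')| ≤ L) :
    B33Bd h (fun j j' => amp (a j + a' j')) L := by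
  intro u u' p p' hp hp' hu hu'
  rcases hp.eq_or_lt with rfl | hp0
  · have : ∀ j, u j = 0 := fun j => norm_le_zero_iff.1 (by simpa using hu j)
    simp [this]
  rcases hp'.eq_or_lt with rfl | hp0'
  · have : ∀ j, u' j = 0 := fun j => norm_le_zero_iff.1 (by simpa using hu' j)
    simp [this]
  obtain ⟨i1, e1⟩ := b33_prod hCF ha ha' u u'
  obtain ⟨i2, e2⟩ := b33_sq hCF ha hp hG hu
  obtain ⟨i3, e3⟩ := b33_sq hCF ha' hp' hG' hu'
  rw [← e1]
  have hb : ‖∫ ω, (∑ j, u j * chi (a j) ω) * (∑ j, u' j * chi (a' j) ω) ∂PP‖ ≤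
      ∫ ω, (p' / (2 * p) * ‖∑ j, u j * chi (a j) ω‖ ^ 2 +
        p / (2 * p') * ‖∑ j, u' j * chi (a' j) ω‖ ^ 2) ∂PP := by
    refine norm_integral_le_of_norm_le ((i2.const_mul _).add (i3.const_mul _))
      (Eventually.of_forall fun ω => ?_)
    rw [norm_mul]
    set x := ‖∑ j, u j * chi (a j) ω‖
    set y := ‖∑ j, u' j * chi (a' j) ω‖
    have : p' / (2 * p) * x ^ 2 + p / (2 * p') * y ^ 2 - x * y =
        (p' * x - p * y) ^ 2 / (2 * p * p') := by
      field_simp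
      ring
    have h0 : 0 ≤ (p' * x - p * y) ^ 2 / (2 * p * p') := by positivity
    linarith
  rw [integral_add (i2.const_mul _) (i3.const_mul _), integral_const_mul, integral_const_mul] at hb
  have m1 := mul_le_mul_of_nonneg_left e2 (by positivity : 0 ≤ p' / (2 * p))
  have m2 := mul_le_mul_of_nonneg_left e3 (by positivity : 0 ≤ p / (2 * p'))
  have : p' / (2 * p) * (p ^ 2 * L) + p / (2 * p') * (p' ^ 2 * L) = p * p' * L := by
    field_simp
    ring
  linarith

/-- a sequence with the entries in `S` removed -/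
def b33z (S : Finset ℕ) (x : ℕ → ℝ) (i : ℕ) : ℝ := if i ∈ S then 0 else x i

theorem b33z_sum (S : Finset ℕ) {x : ℕ → ℝ} (hx : Summable x) : Summable (b33z S x) := by
  refine Summable.of_norm_bounded hx.abs fun i => ?_
  unfold b33z
  split_ifs <;> simp

theorem b33_cos_pos {β : ℝ} (h0 : 0 ≤ β) (h8 : β ≤ 1 / 8) : 0 < cos (2 * π * β) := by
  refine cos_pos_of_mem_Ioo ⟨?_, ?_⟩ <;> nlinarith [pi_pos]

theorem b33_gram (hCF : RowCF) {J : Type} [Fintype J] {h : J → ℝ} {a : J → ℕ → ℝ} {S : Finset ℕ}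
    {A : ℕ → ℝ} {β Λ : ℝ} (hh : ∀ j, 0 ≤ h j) (ha : ∀ j, Summable (a j)) (h0 : 0 ≤ β)
    (h8 : β ≤ 1 / 8) (hA : ∀ j, ∀ i ∈ S, |a j i - A i| ≤ β)
    (hG : ∑ j, ∑ j', h j * h j' * |amp (a j - a j')| ≤ Λ) :
    ∑ j, ∑ j', h j * h j' * |amp (b33z S (a j) - b33z S (a j'))| ≤
      Λ / ∏ _i ∈ S, cos (2 * π * β) := by
  have hc := b33_cos_pos h0 h8
  have hP : 0 < ∏ _i ∈ S, cos (2 * π * β) := Finset.prod_pos fun _ _ => hc
  rw [le_div_iff₀ hP, Finset.sum_mul]
  refine le_trans (Finset.sum_le_sum fun j _ => ?_) hG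
  rw [Finset.sum_mul]
  refine Finset.sum_le_sum fun j' _ => ?_
  rw [mul_assoc]
  refine mul_le_mul_of_nonneg_left ?_ (mul_nonneg (hh j) (hh j'))
  have e := (hCF.2.2.2 _ ((ha j).sub (ha j'))).2.2.2.2.1 S
  have e' : (fun i => if i ∈ S then 0 else (fun b => a j b - a j' b) i) =
      b33z S (a j) - b33z S (a j') := by
    funext i
    simp only [b33z, Pi.sub_apply]
    split_ifs <;> simp
  rw [e'] at e
  have e2 : amp (a j - a j') = (∏ i ∈ S, cos (π * (a j i - a j' i))) *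
      amp (b33z S (a j) - b33z S (a j')) := e
  rw [e2, abs_mul, mul_comm]
  refine mul_le_mul_of_nonneg_right ?_ (abs_nonneg _)
  refine le_trans ?_ (le_abs_self _)
  refine Finset.prod_le_prod (fun _ _ => hc.le) fun i hi => ?_
  have d : |a j i - a j' i| ≤ 2 * β := by
    have h1 := abs_le.1 (hA j i hi)
    have h2 := abs_le.1 (hA j' i hi)
    rw [abs_le]
    constructor <;> linarith [h1.1, h1.2, h2.1, h2.2]
  rw [← cos_abs (π * (a j i - a j' i))]
  refine cos_le_cos_of_nonneg_of_le_pi (abs_nonneg _) (by nlinarith [pi_pos]) ?_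
  rw [abs_mul, abs_of_pos pi_pos]
  nlinarith [pi_pos]

theorem b33_core (hCF : RowCF) {J : Type} [Fintype J] {h : J → ℝ} {a a' : J → ℕ → ℝ}
    {S : Finset ℕ} {A A' : ℕ → ℝ} {β Λ : ℝ} (hh : ∀ j, 0 ≤ h j) (ha : ∀ j, Summable (a j))
    (ha' : ∀ j, Summable (a' j)) (h0 : 0 ≤ β) (h8 : β ≤ 1 / 8)
    (hA : ∀ j, ∀ i ∈ S, |a j i - A i| ≤ β) (hA' : ∀ j, ∀ i ∈ S, |a' j i - A' i| ≤ β)
    (hG : ∑ j, ∑ j', h j * h j' * |amp (a j - a j')| ≤ Λ)
    (hG' : ∑ j, ∑ j', h j * h j' * |amp (a' j - a' j')| ≤ Λ) :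
    B33Bd h (fun j j' => amp (a j + a' j')) (Λ * wf β S (A + A')) := by
  have base := b33_base hCF (fun j => b33z_sum S (ha j)) (fun j => b33z_sum S (ha' j))
    (b33_gram hCF hh ha h0 h8 hA hG) (b33_gram hCF hh ha' h0 h8 hA' hG')
  have sc : ∀ x : ℝ, |x| ≤ β → |π * x| ≤ π * β := fun x hx => by
    rw [abs_mul, abs_of_pos pi_pos]
    exact mul_le_mul_of_nonneg_left hx pi_pos.le
  have st := b33_ind (fun i => π * (A + A') i) (fun j i => π * (a j i - A i))
    (fun j i => π * (a' j i - A' i)) base (mul_nonneg pi_pos.le h0) S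
    (fun j i hi => sc _ (hA j i hi)) (fun j i hi => sc _ (hA' j i hi))
  convert st using 1
  · funext j j'
    have e := (hCF.2.2.2 _ ((ha j).add (ha' j'))).2.2.2.2.1 S
    have e' : (fun i => if i ∈ S then 0 else (fun b => a j b + a' j' b) i) =
        b33z S (a j) + b33z S (a' j') := by
      funext i
      simp only [b33z, Pi.add_apply]
      split_ifs <;> simp
    rw [e'] at e
    refine Eq.trans e ?_
    congr 1
    refine Finset.prod_congr rfl fun i _ => ?_
    congr 1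
    simp only [Pi.add_apply]
    ring
  · unfold wf
    rw [Finset.prod_div_distrib]
    ring

theorem rowB33 (hCF : RowCF) : RowB := by
  intro J _ h a a' S S' A A' β Λ p p' u u' hh ha ha' h0 h8 hp hp' hA hA' hG hG' hu hu'
  have c1 := b33_core hCF (S := S) hh ha ha' h0 h8
    (fun j i hi => hA j i (mem_union_left _ hi)) (fun j i hi => hA' j i (mem_union_left _ hi))
    hG hG' u u' p p' hp hp' hu hu'
  have hGn : ∑ j, ∑ j', h j * h j' * |amp ((fun j => -a' j) j - (fun j => -a' j) j')| ≤ Λ := by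
    refine le_of_eq_of_le ?_ hG'
    refine Finset.sum_congr rfl fun j _ => Finset.sum_congr rfl fun j' _ => ?_
    rw [← hCF.2.1 (a' j - a' j')]
    congr 3
    funext i
    simp only [Pi.sub_apply, Pi.neg_apply]
    ring
  have c2 := b33_core hCF (S := S') (a' := fun j => -a' j) (A' := -A') hh ha
    (fun j => (ha' j).neg) h0 h8 (fun j i hi => hA j i (mem_union_right _ hi))
    (fun j i hi => by
      have := hA' j i (mem_union_right _ hi)
      rw [← abs_neg] at this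
      simpa [neg_sub, sub_eq_add_neg, add_comm] using this)
    hG hGn u (fun j => (starRingEnd ℂ) (u' j)) p p' hp hp' hu
    (fun j => by rw [Complex.norm_conj]; exact hu' j)
  obtain ⟨i1, e1⟩ := b33_prod hCF ha ha' u u'
  obtain ⟨i2, e2⟩ := b33_prod hCF (a' := fun j => -a' j) ha (fun j => (ha' j).neg) u
    (fun j => (starRingEnd ℂ) (u' j))
  rw [← e1] at c1
  rw [← e2, ← sub_eq_add_neg] at c2
  simp only [b33_conj hCF] at c2 i2
  have e : ∀ ω, (∑ j, u j * chi (a j) ω).re * (∑ j, u' j * chi (a' j) ω).re =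
      ((∑ j, u j * chi (a j) ω) * (∑ j, u' j * chi (a' j) ω)).re / 2 +
        ((∑ j, u j * chi (a j) ω) * (starRingEnd ℂ) (∑ j, u' j * chi (a' j) ω)).re / 2 := by
    intro ω
    simp only [Complex.mul_re, Complex.conj_re, Complex.conj_im]
    ring
  simp only [e]
  have r1 := integral_re i1
  have r2 := integral_re i2
  simp only [RCLike.re_to_complex] at r1 r2
  have j1 : Integrable (fun ω => ((∑ j, u j * chi (a j) ω) *
      (∑ j, u' j * chi (a' j) ω)).re) PP := i1.re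
  have j2 : Integrable (fun ω => ((∑ j, u j * chi (a j) ω) *
      (starRingEnd ℂ) (∑ j, u' j * chi (a' j) ω)).re) PP := i2.re
  rw [integral_add (j1.div_const 2) (j2.div_const 2), integral_div, integral_div, r1, r2]
  have b1 := (Complex.abs_re_le_norm _).trans c1
  have b2 := (Complex.abs_re_le_norm _).trans c2
  rw [abs_le] at b1 b2 ⊢
  constructor <;> nlinarith [b1.1, b1.2, b2.1, b2.2]

end Vale.Agent.Q105
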