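import Vale.Agent.Q105.Defs

/-!
# Row C: soundness of the integer bounds for the cosine
-/

open Real

namespace Vale.Agent.Q105

theorem c_step {f g : ℝ → ℝ} (hd : ∀ x, HasDerivAt f (g x) x) (h0 : f 0 = 0)
    (hg : ∀ x, 0 ≤ x → 0 ≤ g x) : ∀ x, 0 ≤ x → 0 ≤ f x := by
  intro x hx
  have hm : MonotoneOn f (Set.Ici 0) :=
    monotoneOn_of_deriv_nonneg (convex_Ici 0)
      (fun y _ => (hd y).continuousAt.continuousWithinAt)
      (fun y _ => (hd y).differentiableAt.differentiableWithinAt)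
      (fun y hy => by
        rw [(hd y).deriv]
        exact hg y (le_of_lt (by simpa using hy)))
  have := hm (Set.mem_Ici.2 le_rfl) (Set.mem_Ici.2 hx) hx
  rwa [h0] at this

theorem c_der (a b c0 c1 c2 c3 c4 c5 c6 c7 c8 c9 c10 x : ℝ) :
    HasDerivAt (fun y : ℝ => a * sin y + b * cos y + c0 + c1 * y + c2 * y ^ 2 + c3 * y ^ 3 +
      c4 * y ^ 4 + c5 * y ^ 5 + c6 * y ^ 6 + c7 * y ^ 7 + c8 * y ^ 8 + c9 * y ^ 9 + c10 * y ^ 10)
      ((-b) * sin x + a * cos x + c1 + 2 * c2 * x + 3 * c3 * x ^ 2 + 4 * c4 * x ^ 3 +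
      5 * c5 * x ^ 4 + 6 * c6 * x ^ 5 + 7 * c7 * x ^ 6 + 8 * c8 * x ^ 7 + 9 * c9 * x ^ 8 +
      10 * c10 * x ^ 9) x := by
  have h := ((((((((((((((hasDerivAt_sin x).const_mul a).fun_add
    ((hasDerivAt_cos x).const_mul b)).add_const c0).fun_add
    ((hasDerivAt_id' x).const_mul c1)).fun_add ((hasDerivAt_pow 2 x).const_mul c2)).fun_add
    ((hasDerivAt_pow 3 x).const_mul c3)).fun_add ((hasDerivAt_pow 4 x).const_mul c4)).fun_add
    ((hasDerivAt_pow 5 x).const_mul c5)).fun_add ((hasDerivAt_pow 6 x).const_mul c6)).fun_add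
    ((hasDerivAt_pow 7 x).const_mul c7)).fun_add ((hasDerivAt_pow 8 x).const_mul c8)).fun_add
    ((hasDerivAt_pow 9 x).const_mul c9)).fun_add ((hasDerivAt_pow 10 x).const_mul c10))
  refine h.congr_deriv ?_
  norm_num
  ring

/-- one integration step inside the family `a sin + b cos + polynomial` -/
theorem c_int (a b c0 c1 c2 c3 c4 c5 c6 c7 c8 c9 c10 : ℝ) (h0 : b + c0 = 0)
    (hg : ∀ x, 0 ≤ x → 0 ≤ (-b) * sin x + a * cos x + c1 + 2 * c2 * x + 3 * c3 * x ^ 2 +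
      4 * c4 * x ^ 3 + 5 * c5 * x ^ 4 + 6 * c6 * x ^ 5 + 7 * c7 * x ^ 6 + 8 * c8 * x ^ 7 +
      9 * c9 * x ^ 8 + 10 * c10 * x ^ 9) :
    ∀ y, 0 ≤ y → 0 ≤ a * sin y + b * cos y + c0 + c1 * y + c2 * y ^ 2 + c3 * y ^ 3 +
      c4 * y ^ 4 + c5 * y ^ 5 + c6 * y ^ 6 + c7 * y ^ 7 + c8 * y ^ 8 + c9 * y ^ 9 +
      c10 * y ^ 10 :=
  c_step (c_der a b c0 c1 c2 c3 c4 c5 c6 c7 c8 c9 c10) (by simpa using h0) hg

theorem c_t3 (y : ℝ) (hy : 0 ≤ y) : y - y ^ 3 / 6 ≤ sin y := by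
  have := c_int 1 0 0 (-1) 0 (1 / 6) 0 0 0 0 0 0 0 (by norm_num)
    (fun x _ => by have := one_sub_sq_div_two_le_cos (x := x); linarith) y hy
  linarith

theorem c_t4 (y : ℝ) (hy : 0 ≤ y) : cos y ≤ 1 - y ^ 2 / 2 + y ^ 4 / 24 := by
  have := c_int 0 (-1) 1 0 (-1 / 2) 0 (1 / 24) 0 0 0 0 0 0 (by norm_num)
    (fun x hx => by have := c_t3 x hx; linarith) y hy
  linarith

theorem c_t5 (y : ℝ) (hy : 0 ≤ y) : sin y ≤ y - y ^ 3 / 6 + y ^ 5 / 120 := by
  have := c_int (-1) 0 0 1 0 (-1 / 6) 0 (1 / 120) 0 0 0 0 0 (by norm_num)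
    (fun x hx => by have := c_t4 x hx; linarith) y hy
  linarith

theorem c_t6 (y : ℝ) (hy : 0 ≤ y) : 1 - y ^ 2 / 2 + y ^ 4 / 24 - y ^ 6 / 720 ≤ cos y := by
  have := c_int 0 1 (-1) 0 (1 / 2) 0 (-1 / 24) 0 (1 / 720) 0 0 0 0 (by norm_num)
    (fun x hx => by have := c_t5 x hx; linarith) y hy
  linarith

theorem c_t7 (y : ℝ) (hy : 0 ≤ y) : y - y ^ 3 / 6 + y ^ 5 / 120 - y ^ 7 / 5040 ≤ sin y := by
  have := c_int 1 0 0 (-1) 0 (1 / 6) 0 (-1 / 120) 0 (1 / 5040) 0 0 0 (by norm_num)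
    (fun x hx => by have := c_t6 x hx; linarith) y hy
  linarith

theorem c_t8 (y : ℝ) (hy : 0 ≤ y) :
    cos y ≤ 1 - y ^ 2 / 2 + y ^ 4 / 24 - y ^ 6 / 720 + y ^ 8 / 40320 := by
  have := c_int 0 (-1) 1 0 (-1 / 2) 0 (1 / 24) 0 (-1 / 720) 0 (1 / 40320) 0 0 (by norm_num)
    (fun x hx => by have := c_t7 x hx; linarith) y hy
  linarith

theorem c_t9 (y : ℝ) (hy : 0 ≤ y) :
    sin y ≤ y - y ^ 3 / 6 + y ^ 5 / 120 - y ^ 7 / 5040 + y ^ 9 / 362880 := by
  have := c_int (-1) 0 0 1 0 (-1 / 6) 0 (1 / 120) 0 (-1 / 5040) 0 (1 / 362880) 0 (by norm_num)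
    (fun x hx => by have := c_t8 x hx; linarith) y hy
  linarith

theorem c_t10 (y : ℝ) (hy : 0 ≤ y) :
    1 - y ^ 2 / 2 + y ^ 4 / 24 - y ^ 6 / 720 + y ^ 8 / 40320 - y ^ 10 / 3628800 ≤ cos y := by
  have := c_int 0 1 (-1) 0 (1 / 2) 0 (-1 / 24) 0 (1 / 720) 0 (-1 / 40320) 0 (1 / 3628800)
    (by norm_num) (fun x hx => by have := c_t9 x hx; linarith) y hy
  linarith

theorem c_pi_lo : (10851744800448 : ℝ) / 2 ^ 40 ≤ π ^ 2 := by
  have h := pi_gt_d20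
  have h2 : (3.14159265358979323846 : ℝ) ^ 2 ≤ π ^ 2 := by gcongr
  refine le_trans ?_ h2
  norm_num

theorem c_pi_hi : π ^ 2 ≤ (10851744800559 : ℝ) / 2 ^ 40 := by
  have h := pi_lt_d20
  have h0 := pi_pos
  have h2 : π ^ 2 ≤ (3.14159265358979323847 : ℝ) ^ 2 := by gcongr
  refine le_trans h2 ?_
  norm_num

theorem c_sub_ge (a b : ℕ) : (a : ℝ) - b ≤ (Nat.sub a b : ℕ) := by
  rcases le_total b a with h | h
  · rw [Nat.sub_eq, Nat.cast_sub h]
  · have : (a : ℝ) ≤ b := by exact_mod_cast h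
    have h0 : (0 : ℝ) ≤ (Nat.sub a b : ℕ) := Nat.cast_nonneg _
    linarith

theorem c_sub_le (a b : ℕ) : ((Nat.sub a b : ℕ) : ℝ) ≤ max 0 ((a : ℝ) - b) := by
  rcases le_total b a with h | h
  · rw [Nat.sub_eq, Nat.cast_sub h]
    exact le_max_right _ _
  · rw [Nat.sub_eq, Nat.sub_eq_zero_of_le h, Nat.cast_zero]
    exact le_max_left _ _

theorem c_div_le (a b : ℕ) : ((Nat.div a b : ℕ) : ℝ) ≤ (a : ℝ) / b := Nat.cast_div_le

theorem c_div_gt (a b : ℕ) (hb : 0 < b) : (a : ℝ) / b < ((Nat.div a b : ℕ) : ℝ) + 1 := by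
  have hb' : (0 : ℝ) < b := by exact_mod_cast hb
  rw [div_lt_iff₀ hb']
  have h : a < (a / b + 1) * b := by
    have := Nat.lt_mul_div_succ a hb
    rwa [Nat.mul_comm] at this
  have h2 : (a : ℝ) < ((a / b + 1) * b : ℕ) := by exact_mod_cast h
  push_cast at h2
  exact h2

theorem c_shift (a : ℕ) : Nat.shiftRight a 80 = Nat.div a (2 ^ 80) :=
  Nat.shiftRight_eq_div_pow a 80

theorem c_shift_le (K x : ℕ) :
    ((Nat.shiftRight (Nat.mul K (Nat.mul x x)) 80 : ℕ) : ℝ) ≤ K * ((x : ℝ) / 2 ^ 40) ^ 2 := by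
  rw [c_shift]
  refine (c_div_le _ _).trans (le_of_eq ?_)
  simp only [Nat.mul_eq]
  push_cast
  ring

theorem c_shift_gt (K x : ℕ) :
    K * ((x : ℝ) / 2 ^ 40) ^ 2 < ((Nat.shiftRight (Nat.mul K (Nat.mul x x)) 80 : ℕ) : ℝ) + 1 := by
  rw [c_shift]
  refine lt_of_eq_of_lt ?_ (c_div_gt _ _ (by positivity))
  simp only [Nat.mul_eq]
  push_cast
  ring

/-- the real value of `pol` -/
noncomputable def c_P (s : ℝ) : ℝ := 1 - s / 2 + s ^ 2 / 24 - s ^ 3 / 720 + s ^ 4 / 40320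

theorem c_pol_val (t : ℕ) :
    ((Nat.add (Nat.mul (Nat.add (Nat.mul t t) 2030995376952577013506375680) (Nat.mul t t))
      58927746017182005661972572455120531352527200132792320 : ℕ) : ℝ) -
    ((Nat.mul (Nat.add (Nat.mul 61572651155456 (Nat.mul t t))
      26797236395023903997740750335251746652160) t : ℕ) : ℝ) =
      2 ^ 160 * 40320 * c_P ((t : ℝ) / 2 ^ 40) := by
  simp only [Nat.mul_eq, Nat.add_eq, c_P]
  push_cast
  ring

theorem c_pol_ge (t : ℕ) : 2 ^ 160 * 40320 * c_P ((t : ℝ) / 2 ^ 40) ≤ (pol t : ℝ) := by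
  rw [← c_pol_val]
  exact c_sub_ge _ _

theorem c_pol_le (t : ℕ) : (pol t : ℝ) ≤ max 0 (2 ^ 160 * 40320 * c_P ((t : ℝ) / 2 ^ 40)) := by
  rw [← c_pol_val]
  exact c_sub_le _ _

theorem c_polL_le (t : ℕ) : (polL t : ℝ) ≤
    max 0 (2 ^ 160 * 40320 * (c_P ((t : ℝ) / 2 ^ 40) - ((t : ℝ) / 2 ^ 40) ^ 5 / 3628800)) := by
  refine (c_sub_le _ _).trans (max_le (le_max_left _ _) ?_)
  have h1 := c_pol_le t
  have h2 := c_div_gt (Nat.mul (Nat.mul (Nat.mul t t) (Nat.mul t t)) t) 98956046499840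
    (by norm_num)
  have h3 : ((Nat.mul (Nat.mul (Nat.mul t t) (Nat.mul t t)) t : ℕ) : ℝ) /
      ((98956046499840 : ℕ) : ℝ) = 2 ^ 160 * 40320 * (((t : ℝ) / 2 ^ 40) ^ 5 / 3628800) := by
    simp only [Nat.mul_eq]
    push_cast
    ring
  have h4 : (0 : ℝ) ≤ 2 ^ 160 * 40320 * (((t : ℝ) / 2 ^ 40) ^ 5 / 3628800) := by positivity
  rw [h3] at h2
  rw [Nat.cast_succ]
  rcases le_max_iff.1 h1 with h | h
  · exact le_trans (by linarith) (le_max_left _ _)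
  · refine le_trans ?_ (le_max_right _ _)
    rw [mul_sub]
    linarith

theorem c_cos_le_P {y s : ℝ} (hy : 0 ≤ y) (hy2 : y ≤ π) (hs : 0 ≤ s) (h : s ≤ y ^ 2) :
    cos y ≤ c_P s := by
  have h1 : √s ≤ y := Real.sqrt_le_iff.2 ⟨hy, h⟩
  have h2 := cos_le_cos_of_nonneg_of_le_pi (Real.sqrt_nonneg s) hy2 h1
  have h3 := c_t8 _ (Real.sqrt_nonneg s)
  have e : √s ^ 2 = s := Real.sq_sqrt hs
  have e4 : √s ^ 4 = s ^ 2 := by
    calc √s ^ 4 = (√s ^ 2) ^ 2 := by ring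
      _ = s ^ 2 := by rw [e]
  have e6 : √s ^ 6 = s ^ 3 := by
    calc √s ^ 6 = (√s ^ 2) ^ 3 := by ring
      _ = s ^ 3 := by rw [e]
  have e8 : √s ^ 8 = s ^ 4 := by
    calc √s ^ 8 = (√s ^ 2) ^ 4 := by ring
      _ = s ^ 4 := by rw [e]
  rw [e, e4, e6, e8] at h3
  exact h2.trans h3

theorem c_P_le_cos {y s : ℝ} (hy : 0 ≤ y) (hs : s ≤ 9) (h : y ^ 2 ≤ s) :
    c_P s - s ^ 5 / 3628800 ≤ cos y := by
  have hs0 : 0 ≤ s := le_trans (sq_nonneg y) h
  have h1 : y ≤ √s := Real.le_sqrt_of_sq_le h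
  have h0 : √s ≤ π := by
    refine Real.sqrt_le_iff.2 ⟨pi_pos.le, ?_⟩
    nlinarith [pi_gt_three]
  have h2 := cos_le_cos_of_nonneg_of_le_pi hy h0 h1
  have h3 := c_t10 _ (Real.sqrt_nonneg s)
  have e : √s ^ 2 = s := Real.sq_sqrt hs0
  have e4 : √s ^ 4 = s ^ 2 := by
    calc √s ^ 4 = (√s ^ 2) ^ 2 := by ring
      _ = s ^ 2 := by rw [e]
  have e6 : √s ^ 6 = s ^ 3 := by
    calc √s ^ 6 = (√s ^ 2) ^ 3 := by ring
      _ = s ^ 3 := by rw [e]
  have e8 : √s ^ 8 = s ^ 4 := by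
    calc √s ^ 8 = (√s ^ 2) ^ 4 := by ring
      _ = s ^ 4 := by rw [e]
  have e10 : √s ^ 10 = s ^ 5 := by
    calc √s ^ 10 = (√s ^ 2) ^ 5 := by ring
      _ = s ^ 5 := by rw [e]
  rw [e, e4, e6, e8, e10] at h3
  exact h3.trans h2

theorem c_ct {c : Bool} (h : c = true) (a b : ℕ) : cond c a b = a := by
  subst h
  rfl

theorem c_cf {c : Bool} (h : c = false) (a b : ℕ) : cond c a b = b := by
  subst h
  rfl

theorem c_upper (x : ℕ) (hx : x ≤ 549755813888) :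
    cos (π * ((x : ℝ) / 2 ^ 40)) ≤ (cosU x : ℝ) / 2 ^ 40 := by
  have hp := pi_pos
  obtain ⟨u, hu⟩ : ∃ u : ℝ, u = (x : ℝ) / 2 ^ 40 := ⟨_, rfl⟩
  have hu0 : 0 ≤ u := by rw [hu]; positivity
  have hlo := c_pi_lo
  have hhi := c_pi_hi
  rw [le_div_iff₀ (by positivity)]
  rw [cosU]
  rcases Bool.eq_false_or_eq_true (Nat.ble x 43980465111) with hb | hb
  · rw [c_ct hb]
    have hx2 : (x : ℝ) ≤ 43980465111 := by exact_mod_cast Nat.le_of_ble_eq_true hb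
    have hu1 : u ≤ 0.04 := by
      rw [hu, div_le_iff₀ (by positivity)]
      refine hx2.trans ?_
      norm_num
    refine le_trans ?_ (c_sub_ge _ _)
    have h1 := c_shift_le 5418723155168 x
    rw [← hu] at h1 ⊢
    have h2 := c_t4 (π * u) (by positivity)
    have h3 : u ^ 2 ≤ 0.0016 := by nlinarith
    have h4 : (9.8696 : ℝ) ≤ π ^ 2 := le_trans (by norm_num) hlo
    have h5 : π ^ 2 ≤ 9.86961 := le_trans hhi (by norm_num)
    have h6 : (π ^ 2) ^ 2 ≤ 9.86961 ^ 2 := by gcongr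
    have h7 : (π ^ 2) ^ 2 * u ^ 2 ≤ 9.86961 ^ 2 * 0.0016 := by gcongr
    have h8 : (5418723155168 : ℝ) / 2 ^ 40 ≤ π ^ 2 / 2 - (π ^ 2) ^ 2 * u ^ 2 / 24 := by
      have : (5418723155168 : ℝ) / 2 ^ 40 ≤
          10851744800448 / 2 ^ 40 / 2 - 9.86961 ^ 2 * 0.0016 / 24 := by norm_num
      linarith
    have h9 : (5418723155168 : ℝ) / 2 ^ 40 * u ^ 2 ≤
        (π ^ 2 / 2 - (π ^ 2) ^ 2 * u ^ 2 / 24) * u ^ 2 := by gcongr
    have h10 : cos (π * u) ≤ 1 - (5418723155168 : ℝ) / 2 ^ 40 * u ^ 2 := by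
      refine h2.trans ?_
      have : 1 - (π * u) ^ 2 / 2 + (π * u) ^ 4 / 24 =
          1 - (π ^ 2 / 2 - (π ^ 2) ^ 2 * u ^ 2 / 24) * u ^ 2 := by ring
      rw [this]
      linarith
    push_cast at h1 ⊢
    have h11 : cos (π * u) * 2 ^ 40 ≤ (1 - (5418723155168 : ℝ) / 2 ^ 40 * u ^ 2) * 2 ^ 40 := by
      gcongr
    refine h11.trans ?_
    have : (1 - (5418723155168 : ℝ) / 2 ^ 40 * u ^ 2) * 2 ^ 40 =
        1099511627776 - 5418723155168 * u ^ 2 := by ring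
    rw [this]
    linarith
  · rw [c_cf hb]
    obtain ⟨t, ht⟩ : ∃ t : ℕ, t = Nat.shiftRight (Nat.mul 10851744800448 (Nat.mul x x)) 80 :=
      ⟨_, rfl⟩
    have h1 := c_shift_le 10851744800448 x
    rw [← ht, ← hu] at h1
    rw [← ht, ← hu]
    have hx2 : (x : ℝ) ≤ 549755813888 := by exact_mod_cast hx
    have hu1 : u ≤ 1 := by
      rw [hu, div_le_iff₀ (by positivity)]
      refine hx2.trans ?_
      norm_num
    have h2 : (t : ℝ) / 2 ^ 40 ≤ (π * u) ^ 2 := by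
      push_cast at h1
      calc (t : ℝ) / 2 ^ 40 ≤ 10851744800448 * u ^ 2 / 2 ^ 40 := by gcongr
        _ = 10851744800448 / 2 ^ 40 * u ^ 2 := by ring
        _ ≤ π ^ 2 * u ^ 2 := by gcongr
        _ = (π * u) ^ 2 := by ring
    have h3 := c_cos_le_P (y := π * u) (by positivity) (by nlinarith) (by positivity) h2
    have h4 := c_pol_ge t
    have h5 := c_div_gt (pol t) 53594472790047807995481500670503493304320 (by norm_num)
    rw [Nat.cast_succ]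
    refine le_trans ?_ h5.le
    rw [le_div_iff₀ (by norm_num)]
    refine le_trans ?_ h4
    push_cast
    have : cos (π * u) * 2 ^ 40 * 53594472790047807995481500670503493304320 =
        2 ^ 160 * 40320 * cos (π * u) := by ring
    rw [this]
    gcongr

theorem c_lower (x : ℕ) (hx : x ≤ 549755814888) :
    (cosL x : ℝ) / 2 ^ 40 ≤ max 0 (cos (π * ((x : ℝ) / 2 ^ 40))) := by
  have hp := pi_pos
  obtain ⟨u, hu⟩ : ∃ u : ℝ, u = (x : ℝ) / 2 ^ 40 := ⟨_, rfl⟩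
  have hu0 : 0 ≤ u := by rw [hu]; positivity
  have hhi := c_pi_hi
  rw [div_le_iff₀ (by positivity), max_mul_of_nonneg _ _ (by positivity), zero_mul]
  rw [cosL]
  rcases Bool.eq_false_or_eq_true (Nat.ble x 43980465111) with hb | hb
  · rw [c_ct hb]
    refine (c_sub_le _ _).trans (max_le_max le_rfl ?_)
    have h1 := c_shift_gt 5425880975866 x
    rw [← hu] at h1 ⊢
    have h2 := one_sub_sq_div_two_le_cos (x := π * u)
    have h3 : π ^ 2 / 2 ≤ (5425880975866 : ℝ) / 2 ^ 40 := by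
      have : (10851744800559 : ℝ) / 2 ^ 40 / 2 ≤ 5425880975866 / 2 ^ 40 := by norm_num
      linarith
    have h4 : π ^ 2 / 2 * u ^ 2 ≤ (5425880975866 : ℝ) / 2 ^ 40 * u ^ 2 := by gcongr
    have h5 : 1 - (5425880975866 : ℝ) / 2 ^ 40 * u ^ 2 ≤ cos (π * u) := by
      refine le_trans ?_ h2
      have : (π * u) ^ 2 / 2 = π ^ 2 / 2 * u ^ 2 := by ring
      rw [this]
      linarith
    have h6 : (1 - (5425880975866 : ℝ) / 2 ^ 40 * u ^ 2) * 2 ^ 40 ≤ cos (π * u) * 2 ^ 40 := by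
      gcongr
    refine le_trans ?_ h6
    have : (1 - (5425880975866 : ℝ) / 2 ^ 40 * u ^ 2) * 2 ^ 40 =
        1099511627776 - 5425880975866 * u ^ 2 := by ring
    rw [this]
    push_cast at h1 ⊢
    linarith
  · rw [c_cf hb]
    obtain ⟨t0, ht⟩ : ∃ t : ℕ, t = Nat.shiftRight (Nat.mul 10851744800559 (Nat.mul x x)) 80 :=
      ⟨_, rfl⟩
    have h1 := c_shift_gt 10851744800559 x
    have h1' := c_shift_le 10851744800559 x
    rw [← ht, ← hu] at h1 h1'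
    rw [← ht, ← hu]
    push_cast at h1 h1'
    have hx2 : (x : ℝ) ≤ 549755814888 := by exact_mod_cast hx
    have hu1 : u ≤ 0.6 := by
      rw [hu, div_le_iff₀ (by positivity)]
      refine hx2.trans ?_
      norm_num
    obtain ⟨t, ht1⟩ : ∃ t : ℕ, t = Nat.succ t0 := ⟨_, rfl⟩
    have htc : (t : ℝ) = t0 + 1 := by rw [ht1, Nat.cast_succ]
    rw [← ht1]
    have h2 : (π * u) ^ 2 ≤ (t : ℝ) / 2 ^ 40 := by
      calc (π * u) ^ 2 = π ^ 2 * u ^ 2 := by ring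
        _ ≤ 10851744800559 / 2 ^ 40 * u ^ 2 := by gcongr
        _ = 10851744800559 * u ^ 2 / 2 ^ 40 := by ring
        _ ≤ (t : ℝ) / 2 ^ 40 := by
          rw [htc]
          gcongr
    have h2' : (t : ℝ) / 2 ^ 40 ≤ 9 := by
      rw [div_le_iff₀ (by positivity), htc]
      have : u ^ 2 ≤ 0.36 := by nlinarith
      norm_num
      linarith
    have h3 := c_P_le_cos (y := π * u) (by positivity) h2' h2
    have h4 := c_polL_le t
    refine (c_div_le _ _).trans ?_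
    rw [div_le_iff₀ (by norm_num), max_mul_of_nonneg _ _ (by norm_num), zero_mul]
    refine h4.trans (max_le_max le_rfl ?_)
    push_cast
    have : cos (π * u) * 2 ^ 40 * 53594472790047807995481500670503493304320 =
        2 ^ 160 * 40320 * cos (π * u) := by ring
    rw [this]
    gcongr

theorem c_abs_cos_int (w : ℝ) (m : ℤ) : |cos (π * (w + m))| = |cos (π * w)| := by
  have : π * (w + m) = π * w + m * π := by ring
  rw [this, cos_add_int_mul_pi, abs_mul, abs_zpow, abs_neg, abs_one, one_zpow, one_mul]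

theorem c_red (x : ℕ) : red x ≤ 549755813888 ∧ ∃ (m : ℤ) (σ : ℝ), (σ = 1 ∨ σ = -1) ∧
    (x : ℝ) / 2 ^ 40 = m + σ * ((red x : ℝ) / 2 ^ 40) := by
  have hd : (1099511627776 : ℕ) * (x / 1099511627776) + x % 1099511627776 = x :=
    Nat.div_add_mod x 1099511627776
  have hm : x % 1099511627776 < 1099511627776 := Nat.mod_lt _ (by norm_num)
  have hd' : (x : ℝ) = 1099511627776 * ((x / 1099511627776 : ℕ) : ℝ) +
      ((x % 1099511627776 : ℕ) : ℝ) := by exact_mod_cast hd.symm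
  have e : Nat.mod x 1099511627776 = x % 1099511627776 := rfl
  unfold red
  rw [e]
  cases hb : Nat.ble (x % 1099511627776) 549755813888 with
  | true =>
    simp only [cond_true]
    refine ⟨Nat.le_of_ble_eq_true hb, ((x / 1099511627776 : ℕ) : ℤ), 1, Or.inl rfl, ?_⟩
    rw [Int.cast_natCast]
    nth_rewrite 1 [hd']
    ring
  | false =>
    simp only [cond_false]
    have h1 : ¬ x % 1099511627776 ≤ 549755813888 := fun h => by
      rw [Nat.ble_eq_true_of_le h] at hb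
      exact Bool.noConfusion hb
    refine ⟨by rw [Nat.sub_eq]; omega, ((x / 1099511627776 : ℕ) : ℤ) + 1, -1, Or.inr rfl, ?_⟩
    rw [Nat.sub_eq, Nat.cast_sub hm.le, Int.cast_add, Int.cast_natCast, Int.cast_one]
    nth_rewrite 1 [hd']
    push_cast
    ring

theorem c_abs_le {a w : ℝ} (h0 : 0 ≤ a) (h1 : a ≤ w) (h2 : w ≤ 1 - a) :
    |cos (π * w)| ≤ cos (π * a) := by
  have hp := pi_pos
  refine abs_le.2 ⟨?_, ?_⟩
  · have h := cos_le_cos_of_nonneg_of_le_pi (x := π * a) (y := π - π * w) (by positivity)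
      (by nlinarith) (by nlinarith)
    rw [cos_pi_sub] at h
    linarith
  · exact cos_le_cos_of_nonneg_of_le_pi (by positivity) (by nlinarith) (by nlinarith)

theorem rowC : RowC := by
  intro x e n v he hv
  obtain ⟨hr, m, σ, hσ, hx⟩ := c_red x
  obtain ⟨r, hr'⟩ : ∃ r, r = red x := ⟨_, rfl⟩
  rw [← hr'] at hr hx ⊢
  have hp := pi_pos
  obtain ⟨w, hw1, hw2⟩ : ∃ w : ℝ, |w - (r : ℝ) / 2 ^ 40| ≤ (e : ℝ) / 2 ^ 40 ∧
      |cos (π * v)| = |cos (π * w)| := by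
    rcases hσ with rfl | rfl
    · refine ⟨v + ((n - m : ℤ) : ℝ), ?_, (c_abs_cos_int v _).symm⟩
      refine le_of_eq_of_le ?_ hv
      rw [hx]
      push_cast
      congr 1
      ring
    · refine ⟨-(v + ((n - m : ℤ) : ℝ)), ?_, ?_⟩
      · refine le_of_eq_of_le ?_ hv
        rw [hx, ← abs_neg]
        push_cast
        congr 1
        ring
      · rw [mul_neg, cos_neg]
        exact (c_abs_cos_int v _).symm
  rw [hw2]
  obtain ⟨hw3, hw4⟩ := abs_le.1 hw1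
  have hrr : (r : ℝ) ≤ 549755813888 := by exact_mod_cast hr
  have hr0 : (0 : ℝ) ≤ (r : ℝ) / 2 ^ 40 := by positivity
  have he0 : (0 : ℝ) ≤ (e : ℝ) / 2 ^ 40 := by positivity
  have hee : (e : ℝ) ≤ 1000 := by exact_mod_cast he
  have hr2 : (r : ℝ) / 2 ^ 40 ≤ 1 / 2 := by
    rw [div_le_iff₀ (by positivity)]
    refine hrr.trans ?_
    norm_num
  have he2 : (e : ℝ) / 2 ^ 40 ≤ 1 / 2 := by
    rw [div_le_iff₀ (by positivity)]
    refine hee.trans ?_
    norm_num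
  constructor
  · refine le_trans ?_ (c_upper _ (by rw [Nat.sub_eq]; omega))
    rcases le_total e r with h | h
    · rw [Nat.sub_eq, Nat.cast_sub h, sub_div]
      have : (e : ℝ) / 2 ^ 40 ≤ (r : ℝ) / 2 ^ 40 := by gcongr
      exact c_abs_le (by linarith) (by linarith) (by linarith)
    · rw [Nat.sub_eq, Nat.sub_eq_zero_of_le h, Nat.cast_zero, zero_div, mul_zero, cos_zero]
      exact abs_cos_le_one _
  · refine (c_lower _ (by rw [Nat.add_eq]; omega)).trans (max_le (abs_nonneg _) ?_)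
    refine le_trans ?_ (le_abs_self _)
    rw [Nat.add_eq, Nat.cast_add, add_div]
    have h1 : |w| ≤ (r : ℝ) / 2 ^ 40 + (e : ℝ) / 2 ^ 40 := abs_le.2 ⟨by linarith, by linarith⟩
    have h2 : cos (π * w) = cos (π * |w|) := by
      rw [← cos_abs (π * w), abs_mul, abs_of_pos hp]
    rw [h2]
    exact cos_le_cos_of_nonneg_of_le_pi (by positivity) (by nlinarith) (by gcongr)

end Vale.Agent.Q105
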