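import Vale.Agent.Q105.Defs

/-!
# Row C: soundness of the bounds for the cosine
-/

open Real

namespace Vale.Agent.Q105

lemma c82_step {f g : ℝ → ℝ} (h0 : f 0 = 0) (hd : ∀ x, HasDerivAt f (g x) x)
    (hg : ∀ x, 0 ≤ x → 0 ≤ g x) {y : ℝ} (hy : 0 ≤ y) : 0 ≤ f y := by
  have : MonotoneOn f (Set.Ici 0) :=
    monotoneOn_of_deriv_nonneg (convex_Ici 0)
      (fun x _ => (hd x).continuousAt.continuousWithinAt)
      (fun x _ => (hd x).differentiableAt.differentiableWithinAt) fun x hx => by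
        rw [(hd x).deriv]
        exact hg x (le_of_lt (by simpa using hx))
  simpa [h0] using this Set.self_mem_Ici hy hy

lemma c82_pw (n : ℕ) (c x : ℝ) : HasDerivAt (fun x : ℝ => x ^ (n + 1) / c) ((n + 1) * x ^ n / c) x := by
  simpa using (hasDerivAt_pow (n + 1) x).div_const c

lemma c82_s3 {y : ℝ} (hy : 0 ≤ y) : y - y ^ 3 / 6 ≤ sin y := by
  have := c82_step (f := fun x => sin x - x + x ^ 3 / 6) (g := fun x => cos x - 1 + x ^ 2 / 2)
    (by simp) (fun x => by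
      refine HasDerivAt.congr_deriv (((hasDerivAt_sin x).sub (hasDerivAt_id' x)).add (c82_pw 2 6 x)) ?_
      push_cast; ring)
    (fun x _ => by linarith [one_sub_sq_div_two_le_cos (x := x)]) hy
  linarith

lemma c82_c4 {y : ℝ} (hy : 0 ≤ y) : cos y ≤ 1 - y ^ 2 / 2 + y ^ 4 / 24 := by
  have := c82_step (f := fun x => 1 - x ^ 2 / 2 + x ^ 4 / 24 - cos x)
    (g := fun x => sin x - x + x ^ 3 / 6) (by simp) (fun x => by
      refine HasDerivAt.congr_deriv (((((c82_pw 1 2 x).const_sub 1).add (c82_pw 3 24 x)).sub (hasDerivAt_cos x))) ?_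
      push_cast; ring)
    (fun x hx => by linarith [c82_s3 hx]) hy
  linarith

lemma c82_s5 {y : ℝ} (hy : 0 ≤ y) : sin y ≤ y - y ^ 3 / 6 + y ^ 5 / 120 := by
  have := c82_step (f := fun x => x - x ^ 3 / 6 + x ^ 5 / 120 - sin x)
    (g := fun x => 1 - x ^ 2 / 2 + x ^ 4 / 24 - cos x) (by simp) (fun x => by
      refine HasDerivAt.congr_deriv (((((hasDerivAt_id' x).sub (c82_pw 2 6 x)).add (c82_pw 4 120 x)).sub
        (hasDerivAt_sin x))) ?_
      push_cast; ring)
    (fun x hx => by linarith [c82_c4 hx]) hy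
  linarith

lemma c82_c6 {y : ℝ} (hy : 0 ≤ y) : 1 - y ^ 2 / 2 + y ^ 4 / 24 - y ^ 6 / 720 ≤ cos y := by
  have := c82_step (f := fun x => cos x - (1 - x ^ 2 / 2 + x ^ 4 / 24 - x ^ 6 / 720))
    (g := fun x => x - x ^ 3 / 6 + x ^ 5 / 120 - sin x) (by simp) (fun x => by
      refine HasDerivAt.congr_deriv ((hasDerivAt_cos x).sub ((((c82_pw 1 2 x).const_sub 1).add (c82_pw 3 24 x)).sub
        (c82_pw 5 720 x))) ?_
      push_cast; ring)
    (fun x hx => by linarith [c82_s5 hx]) hy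
  linarith

lemma c82_s7 {y : ℝ} (hy : 0 ≤ y) : y - y ^ 3 / 6 + y ^ 5 / 120 - y ^ 7 / 5040 ≤ sin y := by
  have := c82_step (f := fun x => sin x - (x - x ^ 3 / 6 + x ^ 5 / 120 - x ^ 7 / 5040))
    (g := fun x => cos x - (1 - x ^ 2 / 2 + x ^ 4 / 24 - x ^ 6 / 720)) (by simp) (fun x => by
      refine HasDerivAt.congr_deriv ((hasDerivAt_sin x).sub ((((hasDerivAt_id' x).sub (c82_pw 2 6 x)).add
        (c82_pw 4 120 x)).sub (c82_pw 6 5040 x))) ?_
      push_cast; ring)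
    (fun x hx => by linarith [c82_c6 hx]) hy
  linarith

lemma c82_c8 {y : ℝ} (hy : 0 ≤ y) :
    cos y ≤ 1 - y ^ 2 / 2 + y ^ 4 / 24 - y ^ 6 / 720 + y ^ 8 / 40320 := by
  have := c82_step
    (f := fun x => 1 - x ^ 2 / 2 + x ^ 4 / 24 - x ^ 6 / 720 + x ^ 8 / 40320 - cos x)
    (g := fun x => sin x - (x - x ^ 3 / 6 + x ^ 5 / 120 - x ^ 7 / 5040)) (by simp) (fun x => by
      refine HasDerivAt.congr_deriv ((((((c82_pw 1 2 x).const_sub 1).add (c82_pw 3 24 x)).sub
        (c82_pw 5 720 x)).add (c82_pw 7 40320 x)).sub (hasDerivAt_cos x)) ?_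
      push_cast; ring)
    (fun x hx => by linarith [c82_s7 hx]) hy
  linarith

lemma c82_s9 {y : ℝ} (hy : 0 ≤ y) :
    sin y ≤ y - y ^ 3 / 6 + y ^ 5 / 120 - y ^ 7 / 5040 + y ^ 9 / 362880 := by
  have := c82_step
    (f := fun x => x - x ^ 3 / 6 + x ^ 5 / 120 - x ^ 7 / 5040 + x ^ 9 / 362880 - sin x)
    (g := fun x => 1 - x ^ 2 / 2 + x ^ 4 / 24 - x ^ 6 / 720 + x ^ 8 / 40320 - cos x) (by simp)
    (fun x => by
      refine HasDerivAt.congr_deriv ((((((hasDerivAt_id' x).sub (c82_pw 2 6 x)).add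
        (c82_pw 4 120 x)).sub (c82_pw 6 5040 x)).add (c82_pw 8 362880 x)).sub
        (hasDerivAt_sin x)) ?_
      push_cast; ring)
    (fun x hx => by linarith [c82_c8 hx]) hy
  linarith

lemma c82_c10 {y : ℝ} (hy : 0 ≤ y) :
    1 - y ^ 2 / 2 + y ^ 4 / 24 - y ^ 6 / 720 + y ^ 8 / 40320 - y ^ 10 / 3628800 ≤ cos y := by
  have := c82_step
    (f := fun x => cos x -
      (1 - x ^ 2 / 2 + x ^ 4 / 24 - x ^ 6 / 720 + x ^ 8 / 40320 - x ^ 10 / 3628800))
    (g := fun x => x - x ^ 3 / 6 + x ^ 5 / 120 - x ^ 7 / 5040 + x ^ 9 / 362880 - sin x) (by simp)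
    (fun x => by
      refine HasDerivAt.congr_deriv ((hasDerivAt_cos x).sub ((((((c82_pw 1 2 x).const_sub 1).add (c82_pw 3 24 x)).sub
        (c82_pw 5 720 x)).add (c82_pw 7 40320 x)).sub (c82_pw 9 3628800 x))) ?_
      push_cast; ring)
    (fun x hx => by linarith [c82_s9 hx]) hy
  linarith

lemma c82_pi : 9.8696044010 ≤ π ^ 2 ∧ π ^ 2 ≤ 9.8696044011 := by
  have h1 := pi_gt_d20
  have h2 := pi_lt_d20
  constructor <;> nlinarith

lemma c82_pi' : (10851744800448 : ℝ) / 2 ^ 40 ≤ π ^ 2 ∧ π ^ 2 ≤ (10851744800559 : ℝ) / 2 ^ 40 := by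
  obtain ⟨h1, h2⟩ := c82_pi
  constructor
  · refine le_trans ?_ h1; norm_num
  · refine h2.trans ?_; norm_num

lemma c82_sub_ge (a b : ℕ) : (a : ℝ) - b ≤ (Nat.sub a b : ℕ) := by
  rcases le_total b a with h | h
  · rw [Nat.sub_eq, Nat.cast_sub h]
  · have : (a : ℝ) ≤ b := by exact_mod_cast h
    have : (0 : ℝ) ≤ (Nat.sub a b : ℕ) := Nat.cast_nonneg _
    linarith

lemma c82_sub_le (a b : ℕ) : ((Nat.sub a b : ℕ) : ℝ) ≤ max 0 ((a : ℝ) - b) := by
  rcases le_total b a with h | h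
  · rw [Nat.sub_eq, Nat.cast_sub h]
    exact le_max_right _ _
  · rw [Nat.sub_eq, Nat.sub_eq_zero_of_le h]
    simp

lemma c82_div_le (a b : ℕ) : ((Nat.div a b : ℕ) : ℝ) ≤ (a : ℝ) / b := Nat.cast_div_le

lemma c82_div_gt (a b : ℕ) (hb : 0 < b) : (a : ℝ) / b ≤ ((Nat.div a b : ℕ) : ℝ) + 1 := by
  have h : a < b * (a / b + 1) := Nat.lt_mul_div_succ a hb
  have hb' : (0 : ℝ) < b := by exact_mod_cast hb
  rw [div_le_iff₀ hb', mul_comm]
  exact_mod_cast h.le

lemma c82_sh (a : ℕ) : Nat.shiftRight a 80 = Nat.div a (2 ^ 80) := Nat.shiftRight_eq_div_pow a 80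

/-- the polynomial in real form -/
lemma c82_pol (t : ℕ) (s : ℝ) (hs : (t : ℝ) = s * 2 ^ 40) :
    ((Nat.add (Nat.mul (Nat.add (Nat.mul t t) 2030995376952577013506375680) (Nat.mul t t))
      58927746017182005661972572455120531352527200132792320 : ℕ) : ℝ) -
    ((Nat.mul (Nat.add (Nat.mul 61572651155456 (Nat.mul t t))
      26797236395023903997740750335251746652160) t : ℕ) : ℝ) =
    (1 - s / 2 + s ^ 2 / 24 - s ^ 3 / 720 + s ^ 4 / 40320) * (40320 * 2 ^ 160) := by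
  simp only [Nat.add_eq, Nat.mul_eq]
  push_cast
  rw [hs]
  ring

lemma c82_U (x : ℕ) (hx : (x : ℝ) / 2 ^ 40 ≤ 1 / 2) :
    cos (π * (x / 2 ^ 40)) ≤ (cosU x : ℝ) / 2 ^ 40 := by
  set u : ℝ := x / 2 ^ 40 with hu
  have u0 : 0 ≤ u := by positivity
  have hxu : (x : ℝ) = u * 2 ^ 40 := by rw [hu]; field_simp
  rw [le_div_iff₀ (by positivity), cosU]
  cases hb : Nat.ble x 43980465111
  · rw [cond_false, c82_sh]
    set t := Nat.div (Nat.mul 10851744800448 (Nat.mul x x)) (2 ^ 80) with ht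
    have h1 : (t : ℝ) ≤ 10851744800448 * u ^ 2 := by
      refine (c82_div_le _ _).trans (le_of_eq ?_)
      simp only [Nat.mul_eq]
      push_cast
      rw [hxu]
      ring
    set s : ℝ := t / 2 ^ 40 with hs
    have s0 : 0 ≤ s := by positivity
    have hts : (t : ℝ) = s * 2 ^ 40 := by rw [hs]; field_simp
    have h2 : s ≤ (π * u) ^ 2 := by
      rw [hs, div_le_iff₀ (by positivity), mul_pow]
      have := c82_pi'.1
      rw [div_le_iff₀ (by positivity)] at this
      nlinarith [sq_nonneg u]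
    have h3 : √s ≤ π * u := sqrt_le_iff.2 ⟨by positivity, h2⟩
    have h4 : cos (π * u) ≤ cos √s :=
      cos_le_cos_of_nonneg_of_le_pi (sqrt_nonneg _) (by nlinarith [pi_pos]) h3
    have h5 := c82_c8 (sqrt_nonneg s)
    have e2 : √s ^ 2 = s := sq_sqrt s0
    have e4 : √s ^ 4 = s ^ 2 := by rw [show √s ^ 4 = (√s ^ 2) ^ 2 by ring, e2]
    have e6 : √s ^ 6 = s ^ 3 := by rw [show √s ^ 6 = (√s ^ 2) ^ 3 by ring, e2]
    have e8 : √s ^ 8 = s ^ 4 := by rw [show √s ^ 8 = (√s ^ 2) ^ 4 by ring, e2]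
    rw [e2, e4, e6, e8] at h5
    have h6 : (1 - s / 2 + s ^ 2 / 24 - s ^ 3 / 720 + s ^ 4 / 40320) * (40320 * 2 ^ 160) ≤
        (pol t : ℝ) := by
      rw [← c82_pol t s hts]
      exact c82_sub_ge _ _
    have h7 := c82_div_gt (pol t) 53594472790047807995481500670503493304320 (by norm_num)
    rw [div_le_iff₀ (by norm_num)] at h7
    rw [Nat.succ_eq_add_one, Nat.cast_add, Nat.cast_one]
    generalize ((Nat.div (pol t) 53594472790047807995481500670503493304320 : ℕ) : ℝ) = q at h7 ⊢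
    push_cast at h7
    norm_num at h6 h7 ⊢
    linarith
  · rw [cond_true, c82_sh]
    have hx' : (x : ℝ) ≤ 43980465111 := by exact_mod_cast Nat.le_of_ble_eq_true hb
    have u1 : u ≤ 0.04 := by
      rw [hu, div_le_iff₀ (by positivity)]
      refine hx'.trans ?_
      norm_num
    refine le_trans ?_ (c82_sub_ge _ _)
    have h1 : ((Nat.div (Nat.mul 5418723155168 (Nat.mul x x)) (2 ^ 80) : ℕ) : ℝ) ≤
        5418723155168 * u ^ 2 := by
      refine (c82_div_le _ _).trans (le_of_eq ?_)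
      simp only [Nat.mul_eq]
      push_cast
      rw [hxu]
      ring
    have h2 := c82_c4 (y := π * u) (by positivity)
    obtain ⟨p1, p2⟩ := c82_pi
    have h3 : u ^ 2 ≤ 0.0016 := by nlinarith
    have h4 : (π * u) ^ 4 ≤ 0.15585455 * u ^ 2 := by
      have : (π ^ 2) ^ 2 ≤ 9.8696044011 ^ 2 := pow_le_pow_left₀ (by positivity) p2 2
      have e : (π * u) ^ 4 = (π ^ 2) ^ 2 * u ^ 2 * u ^ 2 := by ring
      have h5 : (π ^ 2) ^ 2 * u ^ 2 ≤ 0.15585455 :=
        (mul_le_mul this h3 (by positivity) (by positivity)).trans (by norm_num)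
      rw [e]
      exact mul_le_mul_of_nonneg_right h5 (by positivity)
    have h5 : 9.8696044010 * u ^ 2 ≤ (π * u) ^ 2 := by
      rw [mul_pow]
      exact mul_le_mul_of_nonneg_right p1 (by positivity)
    have h6 := sq_nonneg u
    push_cast
    norm_num at h1 h4 h5 ⊢
    linarith

lemma c82_L (x : ℕ) (hx : (x : ℝ) / 2 ^ 40 ≤ 0.6) :
    (cosL x : ℝ) / 2 ^ 40 ≤ max 0 (cos (π * (x / 2 ^ 40))) := by
  set u : ℝ := x / 2 ^ 40 with hu
  have u0 : 0 ≤ u := by positivity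
  have hxu : (x : ℝ) = u * 2 ^ 40 := by rw [hu]; field_simp
  rw [div_le_iff₀ (by positivity), cosL]
  have m0 := le_max_left 0 (cos (π * u))
  have m1 := le_max_right 0 (cos (π * u))
  cases hb : Nat.ble x 43980465111
  · rw [cond_false, c82_sh]
    set t := Nat.succ (Nat.div (Nat.mul 10851744800559 (Nat.mul x x)) (2 ^ 80)) with ht
    have e0 : ((Nat.mul 10851744800559 (Nat.mul x x) : ℕ) : ℝ) / ((2 ^ 80 : ℕ) : ℝ) =
        10851744800559 * u ^ 2 := by
      simp only [Nat.mul_eq]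
      push_cast
      rw [hxu]
      ring
    have h1 : 10851744800559 * u ^ 2 ≤ (t : ℝ) := by
      rw [ht, Nat.succ_eq_add_one, Nat.cast_add, Nat.cast_one, ← e0]
      exact c82_div_gt _ _ (by positivity)
    have h1' : (t : ℝ) ≤ 10851744800559 * u ^ 2 + 1 := by
      rw [ht, Nat.succ_eq_add_one, Nat.cast_add, Nat.cast_one, ← e0]
      exact add_le_add (c82_div_le _ _) le_rfl
    set s : ℝ := t / 2 ^ 40 with hs
    have s0 : 0 ≤ s := by positivity
    have hts : (t : ℝ) = s * 2 ^ 40 := by rw [hs]; field_simp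
    have h2 : (π * u) ^ 2 ≤ s := by
      rw [hs, le_div_iff₀ (by positivity), mul_pow]
      have := c82_pi'.2
      rw [le_div_iff₀ (by positivity)] at this
      nlinarith [sq_nonneg u]
    have h3 : π * u ≤ √s := le_sqrt_of_sq_le h2
    have h3' : √s ≤ π := by
      refine sqrt_le_iff.2 ⟨pi_pos.le, le_trans ?_ c82_pi.1⟩
      rw [hs, div_le_iff₀ (by positivity)]
      have : u ^ 2 ≤ 0.36 := by nlinarith
      norm_num at this ⊢
      linarith
    have h4 : cos √s ≤ cos (π * u) := cos_le_cos_of_nonneg_of_le_pi (by positivity) h3' h3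
    have h5 := c82_c10 (sqrt_nonneg s)
    have e2 : √s ^ 2 = s := sq_sqrt s0
    have e4 : √s ^ 4 = s ^ 2 := by rw [show √s ^ 4 = (√s ^ 2) ^ 2 by ring, e2]
    have e6 : √s ^ 6 = s ^ 3 := by rw [show √s ^ 6 = (√s ^ 2) ^ 3 by ring, e2]
    have e8 : √s ^ 8 = s ^ 4 := by rw [show √s ^ 8 = (√s ^ 2) ^ 4 by ring, e2]
    have e10 : √s ^ 10 = s ^ 5 := by rw [show √s ^ 10 = (√s ^ 2) ^ 5 by ring, e2]
    rw [e2, e4, e6, e8, e10] at h5
    have h6 : (pol t : ℝ) ≤ max 0
        ((1 - s / 2 + s ^ 2 / 24 - s ^ 3 / 720 + s ^ 4 / 40320) * (40320 * 2 ^ 160)) := by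
      rw [← c82_pol t s hts]
      exact c82_sub_le _ _
    have h7 := c82_div_gt (Nat.mul (Nat.mul (Nat.mul t t) (Nat.mul t t)) t) 98956046499840
      (by norm_num)
    have e1 : ((Nat.mul (Nat.mul (Nat.mul t t) (Nat.mul t t)) t : ℕ) : ℝ) /
        ((98956046499840 : ℕ) : ℝ) = s ^ 5 / 3628800 * (40320 * 2 ^ 160) := by
      simp only [Nat.mul_eq]
      push_cast
      rw [hts]
      ring
    rw [e1] at h7
    have h8 : (polL t : ℝ) ≤ max 0 (cos (π * u)) * (40320 * 2 ^ 160) := by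
      refine (c82_sub_le _ _).trans (max_le (by positivity) ?_)
      rw [Nat.succ_eq_add_one, Nat.cast_add, Nat.cast_one]
      have s5 : 0 ≤ s ^ 5 := by positivity
      generalize ((Nat.div (Nat.mul (Nat.mul (Nat.mul t t) (Nat.mul t t)) t) 98956046499840 : ℕ) :
        ℝ) = q at h7 ⊢
      generalize (pol t : ℝ) = p at h6 ⊢
      generalize max 0 (cos (π * u)) = c at m0 m1 ⊢
      have hN : (0 : ℝ) < 40320 * 2 ^ 160 := by positivity
      generalize (40320 * 2 ^ 160 : ℝ) = N at h6 h7 hN ⊢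
      rcases le_max_iff.1 h6 with h | h
      · nlinarith [mul_nonneg m0 hN.le, mul_nonneg s5 hN.le]
      · have := mul_le_mul_of_nonneg_right (h5.trans (h4.trans m1)) hN.le
        linarith
    refine (c82_div_le _ _).trans ?_
    rw [div_le_iff₀ (by norm_num)]
    push_cast
    norm_num at h8 ⊢
    linarith
  · rw [cond_true, c82_sh]
    refine (c82_sub_le _ _).trans (max_le (by positivity) ?_)
    have h1 := c82_div_gt (Nat.mul 5425880975866 (Nat.mul x x)) (2 ^ 80) (by positivity)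
    have e0 : ((Nat.mul 5425880975866 (Nat.mul x x) : ℕ) : ℝ) / ((2 ^ 80 : ℕ) : ℝ) =
        5425880975866 * u ^ 2 := by
      simp only [Nat.mul_eq]
      push_cast
      rw [hxu]
      ring
    rw [e0] at h1
    have h2 := one_sub_sq_div_two_le_cos (x := π * u)
    have h5 : (π * u) ^ 2 ≤ 9.8696044011 * u ^ 2 := by
      rw [mul_pow]
      exact mul_le_mul_of_nonneg_right c82_pi.2 (by positivity)
    have h6 := sq_nonneg u
    generalize ((Nat.div (Nat.mul 5425880975866 (Nat.mul x x)) (2 ^ 80) : ℕ) : ℝ) = q at h1 ⊢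
    push_cast
    norm_num at h5 ⊢
    linarith

lemma c82_red (x : ℕ) : (red x : ℝ) / 2 ^ 40 ≤ 1 / 2 ∧ ∃ m : ℤ,
    (x : ℝ) / 2 ^ 40 = m + (red x : ℝ) / 2 ^ 40 ∨ (x : ℝ) / 2 ^ 40 = m - (red x : ℝ) / 2 ^ 40 := by
  have h0 : x = 1099511627776 * (x / 1099511627776) + x % 1099511627776 :=
    (Nat.div_add_mod x _).symm
  have h1 : x % 1099511627776 < 1099511627776 := Nat.mod_lt _ (by norm_num)
  have e : Nat.mod x 1099511627776 = x % 1099511627776 := rfl
  rw [red, e]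
  generalize x / 1099511627776 = q at h0
  generalize x % 1099511627776 = r at h0 h1
  have h2 : (x : ℝ) = 1099511627776 * q + r := by exact_mod_cast h0
  cases hb : Nat.ble r 549755813888
  · have h3 : 549755813888 < r :=
      Nat.lt_of_not_le (Nat.not_le_of_not_ble_eq_true (by rw [hb]; exact Bool.false_ne_true))
    have h4 : (549755813888 : ℝ) ≤ r := by exact_mod_cast h3.le
    rw [cond_false, Nat.sub_eq, Nat.cast_sub h1.le]
    refine ⟨?_, q + 1, Or.inr ?_⟩
    · rw [div_le_iff₀ (by positivity)]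
      push_cast
      norm_num
      linarith
    · rw [h2]
      push_cast
      ring
  · have h4 : (r : ℝ) ≤ 549755813888 := by exact_mod_cast Nat.le_of_ble_eq_true hb
    rw [cond_true]
    refine ⟨?_, q, Or.inl ?_⟩
    · rw [div_le_iff₀ (by positivity)]
      exact h4.trans (by norm_num)
    · rw [h2]
      push_cast
      ring

lemma c82_per (v : ℝ) (m : ℤ) : |cos (π * (v + m))| = |cos (π * v)| := by
  rw [mul_add, mul_comm π (m : ℝ), cos_add_int_mul_pi, abs_mul]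
  rcases Int.even_or_odd m with h | h
  · simp [h.neg_one_zpow]
  · simp [h.neg_one_zpow]

theorem rowC82 : RowC := by
  intro x e n v he hv
  obtain ⟨r1, m, hm⟩ := c82_red x
  generalize red x = r at r1 hm ⊢
  have he' : (e : ℝ) / 2 ^ 40 ≤ 1 / 100 := by
    have : (e : ℝ) ≤ 1000 := by exact_mod_cast he
    rw [div_le_iff₀ (by positivity)]
    norm_num
    linarith
  have e0 : (0 : ℝ) ≤ (e : ℝ) / 2 ^ 40 := by positivity
  have r0 : (0 : ℝ) ≤ (r : ℝ) / 2 ^ 40 := by positivity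
  obtain ⟨w, hw, w0, hw'⟩ : ∃ w : ℝ, |cos (π * v)| = |cos (π * w)| ∧ 0 ≤ w ∧
      |w - (r : ℝ) / 2 ^ 40| ≤ (e : ℝ) / 2 ^ 40 := by
    refine ⟨|v + ((n - m : ℤ) : ℝ)|, ?_, abs_nonneg _, ?_⟩
    · rw [← c82_per v (n - m)]
      rcases abs_choice (v + ((n - m : ℤ) : ℝ)) with h | h <;> rw [h]
      rw [mul_neg, cos_neg]
    · rw [← abs_of_nonneg r0]
      push_cast
      rcases hm with h | h <;> rw [h] at hv
      · refine (abs_abs_sub_abs_le_abs_sub _ _).trans (le_of_eq_of_le ?_ hv)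
        congr 1
        ring
      · rw [← abs_neg ((r : ℝ) / 2 ^ 40)]
        refine (abs_abs_sub_abs_le_abs_sub _ _).trans (le_of_eq_of_le ?_ hv)
        congr 1
        ring
  rw [hw]
  obtain ⟨a1, a2⟩ := abs_le.1 hw'
  have hp := pi_pos
  constructor
  · have h1 : ((Nat.sub r e : ℕ) : ℝ) / 2 ^ 40 ≤ max 0 ((r : ℝ) / 2 ^ 40 - (e : ℝ) / 2 ^ 40) := by
      rw [div_le_iff₀ (by positivity), max_mul_of_nonneg _ _ (by positivity), zero_mul, ← sub_div,
        div_mul_cancel₀ _ (by positivity)]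
      exact c82_sub_le _ _
    set a : ℝ := ((Nat.sub r e : ℕ) : ℝ) / 2 ^ 40 with ha
    have a0 : 0 ≤ a := by positivity
    have h2 : a ≤ w := h1.trans (max_le w0 (by linarith))
    have h3 : a ≤ 1 - w := h1.trans (max_le (by linarith) (by linarith))
    refine le_trans (abs_le.2 ⟨?_, ?_⟩) (c82_U _ (by linarith))
    · have := cos_le_cos_of_nonneg_of_le_pi (x := π * w) (y := π - π * a) (by positivity)
        (by nlinarith) (by nlinarith)
      rwa [cos_pi_sub] at this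
    · exact cos_le_cos_of_nonneg_of_le_pi (by positivity) (by nlinarith) (by nlinarith)
  · have h1 : ((Nat.add r e : ℕ) : ℝ) / 2 ^ 40 = (r : ℝ) / 2 ^ 40 + (e : ℝ) / 2 ^ 40 := by
      rw [Nat.add_eq, Nat.cast_add, add_div]
    refine (c82_L _ (by rw [h1]; linarith)).trans (max_le (abs_nonneg _) ?_)
    rw [h1]
    exact (cos_le_cos_of_nonneg_of_le_pi (by positivity) (by nlinarith) (by nlinarith)).trans
      (le_abs_self _)

end Vale.Agent.Q105
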