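import Vale.Agent.Q105.Cert80

/-!
# Kernel checks, part CD0
-/

namespace Vale.Agent.Q105

theorem c80_upD_0 : okR upD UU 0 133 = true := by decide +kernel

theorem c80_upD_133 : okR upD UU 133 107 = true := by decide +kernel

theorem c80_upD_240 : okR upD UU 240 93 = true := by decide +kernel

theorem c80_upD_333 : okR upD UU 333 81 = true := by decide +kernel

theorem c80_upD_414 : okR upD UU 414 77 = true := by decide +kernel

end Vale.Agent.Q105
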