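import Vale.Agent.Q105.Cert80

/-!
# Kernel checks, part CD1
-/

namespace Vale.Agent.Q105

theorem c80_upD_491 : okR upD UU 491 69 = true := by decide +kernel

theorem c80_upD_560 : okR upD UU 560 65 = true := by decide +kernel

theorem c80_upD_625 : okR upD UU 625 62 = true := by decide +kernel

theorem c80_upD_687 : okR upD UU 687 60 = true := by decide +kernel

theorem c80_upD_747 : okR upD UU 747 56 = true := by decide +kernel

end Vale.Agent.Q105
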