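import Vale.Agent.Q105.Cert80

/-!
# Kernel checks, part CD2
-/

namespace Vale.Agent.Q105

theorem c80_upD_803 : okR upD UU 803 54 = true := by decide +kernel

theorem c80_upD_857 : okR upD UU 857 51 = true := by decide +kernel

theorem c80_upD_908 : okR upD UU 908 50 = true := by decide +kernel

theorem c80_upD_958 : okR upD UU 958 47 = true := by decide +kernel

theorem c80_upD_1005 : okR upD UU 1005 48 = true := by decide +kernel

end Vale.Agent.Q105
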