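import Vale.Agent.Q105.Cert80

/-!
# Kernel checks, part CD3
-/

namespace Vale.Agent.Q105

theorem c80_upD_1053 : okR upD UU 1053 44 = true := by decide +kernel

theorem c80_upD_1097 : okR upD UU 1097 45 = true := by decide +kernel

theorem c80_upD_1142 : okR upD UU 1142 44 = true := by decide +kernel

theorem c80_upD_1186 : okR upD UU 1186 40 = true := by decide +kernel

theorem c80_upD_1226 : okR upD UU 1226 75 = true := by decide +kernel

end Vale.Agent.Q105
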