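import Vale.Agent.Q105.Defs

/-!
# Row CF: the mean of a character is the product of the cosines
-/

open MeasureTheory Real Filter Topology Finset ProbabilityTheory
open scoped ENNReal

namespace Vale.Agent.Q105

open Vale.Agent.P105

theorem cf_coin : IsProbabilityMeasure coin := by
  constructor
  simp [coin, ENNReal.inv_two_add_inv_two]

theorem cf_PP : IsProbabilityMeasure PP := by
  have := cf_coin
  unfold PP
  infer_instance

theorem cf_abs_sgn (b : Bool) : |sgn b| = 1 := by
  cases b <;> simp [sgn]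

theorem cf_norm_ei (t : ℝ) : ‖ei t‖ = 1 := Complex.norm_exp_ofReal_mul_I t

theorem cf_ei_add (s t : ℝ) : ei (s + t) = ei s * ei t := by
  simp [ei, add_mul, Complex.exp_add]

theorem cf_ei_zero : ei 0 = 1 := by simp [ei]

theorem cf_ei_neg (t : ℝ) : ei (-t) = (starRingEnd ℂ) (ei t) := by
  simp [ei, ← Complex.exp_conj]

theorem cf_ei_re (t : ℝ) : (ei t).re = cos t := Complex.exp_ofReal_mul_I_re t

theorem cf_ei_cont : Continuous ei := by
  unfold ei
  fun_prop

theorem cf_ei_sum (s : Finset ℕ) (f : ℕ → ℝ) : ei (∑ i ∈ s, f i) = ∏ i ∈ s, ei (f i) := by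
  classical
  induction s using Finset.induction_on with
  | empty => simp [cf_ei_zero]
  | insert a s ha ih => rw [sum_insert ha, prod_insert ha, cf_ei_add, ih]

theorem cf_ph_neg (a : ℕ → ℝ) (ω : ℕ → Bool) : ph (-a) ω = -ph a ω := by
  simp [ph, tsum_neg]

theorem cf_summable {a : ℕ → ℝ} (ha : Summable a) (ω : ℕ → Bool) :
    Summable fun i => sgn (ω i) * a i := by
  refine Summable.of_norm_bounded (g := fun i => ‖a i‖) ha.norm fun i => ?_
  simp [cf_abs_sgn]

theorem cf_tendsto {a : ℕ → ℝ} (ha : Summable a) (ω : ℕ → Bool) :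
    Tendsto (fun M => ∑ i ∈ range M, sgn (ω i) * a i) atTop (𝓝 (ph a ω)) :=
  (cf_summable ha ω).hasSum.tendsto_sum_nat

theorem cf_meas_part (a : ℕ → ℝ) (M : ℕ) :
    Measurable fun ω : ℕ → Bool => ∑ i ∈ range M, sgn (ω i) * a i :=
  Finset.measurable_sum _ fun i _ =>
    ((measurable_of_countable sgn).comp (measurable_pi_apply i)).mul_const _

theorem cf_meas_ph {a : ℕ → ℝ} (ha : Summable a) : Measurable (ph a) :=
  measurable_of_tendsto_metrizable (cf_meas_part a) (tendsto_pi_nhds.2 (cf_tendsto ha))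

theorem cf_meas_chi {a : ℕ → ℝ} (ha : Summable a) : Measurable (chi a) :=
  cf_ei_cont.measurable.comp ((cf_meas_ph ha).const_mul π)

theorem cf_coin_int (t : ℝ) : ∫ b, ei (sgn b * t) ∂coin = (cos t : ℂ) := by
  have := cf_coin
  rw [integral_fintype Integrable.of_finite]
  have h1 : coin.real {true} = 1 / 2 := by simp [coin, Measure.real]
  have h2 : coin.real {false} = 1 / 2 := by simp [coin, Measure.real]
  rw [Fintype.sum_bool, h1, h2]
  simp only [sgn, ei, if_true, one_mul, Bool.false_eq_true, if_false, neg_mul,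
    Complex.ofReal_neg, Complex.real_smul, Complex.ofReal_cos, Complex.cos]
  push_cast
  ring

theorem cf_int_part (a : ℕ → ℝ) (M : ℕ) :
    ∫ ω, ei (π * ∑ i ∈ range M, sgn (ω i) * a i) ∂PP =
      ((∏ i ∈ range M, cos (π * a i) : ℝ) : ℂ) := by
  have := cf_coin
  have hi : iIndepFun (fun (i : ℕ) (ω : ℕ → Bool) => ω i) PP :=
    iIndepFun_infinitePi (P := fun _ : ℕ => coin) (X := fun _ b => b) fun _ => measurable_id
  have hj : iIndepFun (fun (i : Fin M) (ω : ℕ → Bool) => ω i) PP :=
    hi.precomp (g := fun i : Fin M => (i : ℕ)) Fin.val_injective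
  have h := hj.integral_fun_prod_comp (f := fun (i : Fin M) b => ei (sgn b * (π * a i)))
    (fun i => (measurable_pi_apply _).aemeasurable)
    (fun i => (measurable_of_countable _).aestronglyMeasurable)
  have e1 : ∀ ω : ℕ → Bool, ei (π * ∑ i ∈ range M, sgn (ω i) * a i) =
      ∏ i : Fin M, ei (sgn (ω i) * (π * a i)) := fun ω => by
    rw [mul_sum, cf_ei_sum, Finset.prod_range]
    exact prod_congr rfl fun i _ => by rw [mul_left_comm]
  simp only [e1]
  rw [h, Complex.ofReal_prod, Finset.prod_range]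
  refine prod_congr rfl fun i _ => ?_
  rw [← cf_coin_int, ← Measure.infinitePi_map_eval (fun _ : ℕ => coin) (i : ℕ),
    integral_map (measurable_pi_apply _).aemeasurable
      (measurable_of_countable _).aestronglyMeasurable]
  rfl

theorem cf_lim_chi {a : ℕ → ℝ} (ha : Summable a) :
    Tendsto (fun M => ((∏ i ∈ range M, cos (π * a i) : ℝ) : ℂ)) atTop (𝓝 (∫ ω, chi a ω ∂PP)) := by
  have := cf_PP
  simp only [← cf_int_part]
  refine tendsto_integral_of_dominated_convergence (fun _ => 1)
    (fun M => (cf_ei_cont.measurable.comp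
      ((cf_meas_part a M).const_mul π)).aestronglyMeasurable) (integrable_const _)
    (fun M => ae_of_all _ fun ω => (cf_norm_ei _).le) (ae_of_all _ fun ω => ?_)
  exact (cf_ei_cont.tendsto _).comp ((cf_tendsto ha ω).const_mul π)

theorem cf_integrable {a : ℕ → ℝ} (ha : Summable a) : Integrable (chi a) PP := by
  have := cf_PP
  exact Integrable.of_bound (cf_meas_chi ha).aestronglyMeasurable 1
    (ae_of_all _ fun ω => (cf_norm_ei _).le)

theorem cf_re {a : ℕ → ℝ} (ha : Summable a) : (∫ ω, chi a ω ∂PP).re = amp a := by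
  have h := integral_re (cf_integrable ha)
  simp only [RCLike.re_to_complex] at h
  rw [← h]
  simp only [chi, cf_ei_re, amp]

theorem cf_lim {a : ℕ → ℝ} (ha : Summable a) :
    Tendsto (fun M => ∏ i ∈ range M, cos (π * a i)) atTop (𝓝 (amp a)) := by
  have h := (Complex.continuous_re.tendsto _).comp (cf_lim_chi ha)
  rw [cf_re ha] at h
  exact h.congr fun M => Complex.ofReal_re _

theorem cf_int {a : ℕ → ℝ} (ha : Summable a) : ∫ ω, chi a ω ∂PP = (amp a : ℂ) :=
  tendsto_nhds_unique (cf_lim_chi ha) ((Complex.continuous_ofReal.tendsto _).comp (cf_lim ha))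

theorem cf_amp_le (a : ℕ → ℝ) : |amp a| ≤ 1 := by
  have := cf_PP
  have h := norm_integral_le_of_norm_le_const (μ := PP) (f := fun ω => cos (π * ph a ω)) (C := 1)
    (ae_of_all _ fun ω => abs_cos_le_one _)
  simpa [amp] using h

theorem cf_split {a : ℕ → ℝ} (ha : Summable a) (S : Finset ℕ) :
    amp a = (∏ i ∈ S, cos (π * a i)) * amp fun i => if i ∈ S then 0 else a i := by
  have hb : Summable fun i => if i ∈ S then 0 else a i := by
    refine Summable.of_norm_bounded (g := fun i => ‖a i‖) ha.norm fun i => ?_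
    split_ifs <;> simp
  refine tendsto_nhds_unique (cf_lim ha)
    (((cf_lim hb).const_mul (∏ i ∈ S, cos (π * a i))).congr' ?_)
  filter_upwards [eventually_ge_atTop (S.sup id + 1)] with M hM
  have hS : S ⊆ range M := fun i hi =>
    mem_range.2 (lt_of_lt_of_le (Nat.lt_succ_of_le (le_sup (f := id) hi)) hM)
  have e1 : ∏ i ∈ S, cos (π * a i) = ∏ i ∈ range M, if i ∈ S then cos (π * a i) else 1 := by
    rw [prod_ite_mem, inter_eq_right.2 hS]
  rw [e1, ← prod_mul_distrib]
  refine prod_congr rfl fun i _ => ?_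
  split_ifs <;> simp

theorem rowCF : RowCF := by
  refine ⟨cf_PP, fun a => ?_, fun a ω => ?_, fun a ha => ⟨cf_meas_ph ha, cf_meas_chi ha,
    cf_int ha, fun a' ha' ω => ?_, cf_split ha, fun S => ?_, fun A hA => ?_⟩⟩
  · simp only [amp, cf_ph_neg, mul_neg, cos_neg]
  · simp only [chi, cf_ph_neg, mul_neg, cf_ei_neg]
  · have : ph (a + a') ω = ph a ω + ph a' ω := by
      simp only [ph, Pi.add_apply, mul_add]
      exact (cf_summable ha ω).tsum_add (cf_summable ha' ω)
    simp only [chi, this, mul_add, cf_ei_add]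
  · rw [cf_split ha S, abs_mul, abs_prod]
    exact mul_le_of_le_one_right (prod_nonneg fun _ _ => abs_nonneg _) (cf_amp_le _)
  · refine ge_of_tendsto' (cf_lim ha).abs fun M => ?_
    rw [abs_prod]
    exact hA M

end Vale.Agent.Q105
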