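import Vale.Agent.Q105.Cert80

/-!
# Kernel checks: the Gram form and the windows
-/

namespace Vale.Agent.Q105

theorem c80_gram_0 : Nat.beq (gramD UU EE EE0) 322675283713807343 = true := by decide +kernel

theorem c80_gram_1 : Nat.beq (gramD UU EE EE1) 224288636441596117 = true := by decide +kernel

theorem c80_gram_2 : Nat.beq (gramD UU EE EE2) 169192011526043745 = true := by decide +kernel

theorem c80_gram_3 : Nat.beq (gramD UU EE EE3) 137338223598909325 = true := by decide +kernel

theorem c80_gram_4 : Nat.beq (gramD UU EE EE4) 106108005733724449 = true := by decide +kernel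

theorem c80_gram_5 : Nat.beq (gramD UU EE EE5) 84538915986494431 = true := by decide +kernel

theorem c80_gram_6 : Nat.beq (gramD UU EE EE6) 68082972166922518 = true := by decide +kernel

theorem c80_gram_7 : Nat.beq (gramD UU EE EE7) 55208829985271618 = true := by decide +kernel

theorem c80_gram_8 : Nat.beq (gramD UU EE EE8) 44976240813988546 = true := by decide +kernel

theorem c80_okN_0 : EE0.all okN = true := by decide +kernel

theorem c80_okN_1 : EE1.all okN = true := by decide +kernel

theorem c80_okN_2 : EE2.all okN = true := by decide +kernel

theorem c80_okN_3 : EE3.all okN = true := by decide +kernel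

theorem c80_okN_4 : EE4.all okN = true := by decide +kernel

theorem c80_okN_5 : EE5.all okN = true := by decide +kernel

theorem c80_okN_6 : EE6.all okN = true := by decide +kernel

theorem c80_okN_7 : EE7.all okN = true := by decide +kernel

theorem c80_okN_8 : EE8.all okN = true := by decide +kernel

theorem c80_S2 : Nat.beq (gramZ UZ EE) 281082807634 = true := by decide +kernel

theorem c80_lz : Nat.ble 7977299304 loZ = true := by decide +kernel

theorem c80_near : near 4 (TT.drop 1313) (ZZ.drop 1277) = true := by decide +kernel

theorem c80_sum : (EE.map fun x => x.2.2.1).sum = 387656 := by decide +kernel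

theorem c80_gain : (EE.map fun x => x.2.2.1 * x.2.2.2).sum = 405109413953957 := by
  decide +kernel

end Vale.Agent.Q105
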