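import Vale.Agent.Q105.Cert80

/-!
# Kernel checks, part CL0
-/

namespace Vale.Agent.Q105

theorem c80_okL_0 : EE0.all okL = true := by decide +kernel

theorem c80_okL_1 : EE1.all okL = true := by decide +kernel

theorem c80_okL_2a : (EE2.take 25).all okL = true := by decide +kernel

theorem c80_okL_2b : (EE2.drop 25).all okL = true := by decide +kernel

theorem c80_okL_3a : (EE3.take 25).all okL = true := by decide +kernel

end Vale.Agent.Q105
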