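import Vale.Agent.Q105.Cert80

/-!
# Kernel checks, part CL1
-/

namespace Vale.Agent.Q105

theorem c80_okL_3b : (EE3.drop 25).all okL = true := by decide +kernel

theorem c80_okL_4a : (EE4.take 25).all okL = true := by decide +kernel

theorem c80_okL_4b : (EE4.drop 25).all okL = true := by decide +kernel

theorem c80_okL_5a : (EE5.take 25).all okL = true := by decide +kernel

theorem c80_okL_5b : (EE5.drop 25).all okL = true := by decide +kernel

end Vale.Agent.Q105
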