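import Vale.Agent.Q105.Cert80

/-!
# Kernel checks, part CL3
-/

namespace Vale.Agent.Q105

theorem c80_okL_8b : (EE8.drop 25).all okL = true := by decide +kernel

end Vale.Agent.Q105
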