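import Vale.Agent.Q105.Cert80

/-!
# Kernel checks, part CZ0
-/

namespace Vale.Agent.Q105

theorem c80_upZ_0 : okR upZ UZ 0 248 = true := by decide +kernel

theorem c80_upZ_248 : okR upZ UZ 248 174 = true := by decide +kernel

theorem c80_upZ_422 : okR upZ UZ 422 145 = true := by decide +kernel

theorem c80_upZ_567 : okR upZ UZ 567 127 = true := by decide +kernel

theorem c80_upZ_694 : okR upZ UZ 694 109 = true := by decide +kernel

end Vale.Agent.Q105
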