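import Vale.Agent.Q105.Cert80

/-!
# Kernel checks, part CZ1
-/

namespace Vale.Agent.Q105

theorem c80_upZ_803 : okR upZ UZ 803 101 = true := by decide +kernel

theorem c80_upZ_904 : okR upZ UZ 904 98 = true := by decide +kernel

theorem c80_upZ_1002 : okR upZ UZ 1002 91 = true := by decide +kernel

theorem c80_upZ_1093 : okR upZ UZ 1093 83 = true := by decide +kernel

theorem c80_upZ_1176 : okR upZ UZ 1176 80 = true := by decide +kernel

end Vale.Agent.Q105
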