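import Vale.Agent.Q105.Cert80

/-!
# Kernel checks, part CZ2
-/

namespace Vale.Agent.Q105

theorem c80_upZ_1256 : okR upZ UZ 1256 45 = true := by decide +kernel

end Vale.Agent.Q105
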