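import Vale.Agent.Q105.Fin
import Vale.Agent.Q105.CD0
import Vale.Agent.Q105.CD1
import Vale.Agent.Q105.CD2
import Vale.Agent.Q105.CD3
import Vale.Agent.Q105.CZ0
import Vale.Agent.Q105.CZ1
import Vale.Agent.Q105.CZ2
import Vale.Agent.Q105.CL0
import Vale.Agent.Q105.CL1
import Vale.Agent.Q105.CL2
import Vale.Agent.Q105.CL3
import Vale.Agent.Q105.CG

/-!
# The certificate: the hypotheses of row G
-/

namespace Vale.Agent.Q105

theorem c80_okR {f : ℕ → Bool → ℕ} {U a n : ℕ} (h : okR f U a n = true) {e : ℕ} (h1 : a ≤ e)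
    (h2 : e < a + n) (s : Bool) : okU f U e s = true := by
  have := List.all_eq_true.1 h e (List.mem_range'_1.2 ⟨h1, h2⟩)
  rw [Bool.and_eq_true] at this
  cases s
  · exact this.2
  · exact this.1

theorem c80_all2 {p : Ent → Bool} {L : List Ent} {n : ℕ} (h1 : (L.take n).all p = true)
    (h2 : (L.drop n).all p = true) : L.all p = true := by
  rw [← List.take_append_drop n L, List.all_append, h1, h2]
  rfl

theorem c80_gram_append (U : ℕ) (E E1 E2 : List Ent) :
    gramD U E (E1 ++ E2) = gramD U E E1 + gramD U E E2 := by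
  induction E1 with
  | nil => simp [gramD]
  | cons x E1 ih =>
    simp only [gramD, List.cons_append, List.foldr_cons, Nat.add_eq] at ih ⊢
    rw [ih, Nat.add_assoc]

theorem cert_upD : ∀ e ≤ 1300, ∀ s, okU upD UU e s = true := by
  intro e he s
  by_cases h0 : e < 133
  · exact c80_okR c80_upD_0 (by omega) (by omega) s
  by_cases h133 : e < 240
  · exact c80_okR c80_upD_133 (by omega) (by omega) s
  by_cases h240 : e < 333
  · exact c80_okR c80_upD_240 (by omega) (by omega) s
  by_cases h333 : e < 414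
  · exact c80_okR c80_upD_333 (by omega) (by omega) s
  by_cases h414 : e < 491
  · exact c80_okR c80_upD_414 (by omega) (by omega) s
  by_cases h491 : e < 560
  · exact c80_okR c80_upD_491 (by omega) (by omega) s
  by_cases h560 : e < 625
  · exact c80_okR c80_upD_560 (by omega) (by omega) s
  by_cases h625 : e < 687
  · exact c80_okR c80_upD_625 (by omega) (by omega) s
  by_cases h687 : e < 747
  · exact c80_okR c80_upD_687 (by omega) (by omega) s
  by_cases h747 : e < 803
  · exact c80_okR c80_upD_747 (by omega) (by omega) s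
  by_cases h803 : e < 857
  · exact c80_okR c80_upD_803 (by omega) (by omega) s
  by_cases h857 : e < 908
  · exact c80_okR c80_upD_857 (by omega) (by omega) s
  by_cases h908 : e < 958
  · exact c80_okR c80_upD_908 (by omega) (by omega) s
  by_cases h958 : e < 1005
  · exact c80_okR c80_upD_958 (by omega) (by omega) s
  by_cases h1005 : e < 1053
  · exact c80_okR c80_upD_1005 (by omega) (by omega) s
  by_cases h1053 : e < 1097
  · exact c80_okR c80_upD_1053 (by omega) (by omega) s
  by_cases h1097 : e < 1142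
  · exact c80_okR c80_upD_1097 (by omega) (by omega) s
  by_cases h1142 : e < 1186
  · exact c80_okR c80_upD_1142 (by omega) (by omega) s
  by_cases h1186 : e < 1226
  · exact c80_okR c80_upD_1186 (by omega) (by omega) s
  exact c80_okR c80_upD_1226 (by omega) (by omega) s

theorem cert_upZ : ∀ e ≤ 1300, ∀ s, okU upZ UZ e s = true := by
  intro e he s
  by_cases h0 : e < 248
  · exact c80_okR c80_upZ_0 (by omega) (by omega) s
  by_cases h248 : e < 422
  · exact c80_okR c80_upZ_248 (by omega) (by omega) s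
  by_cases h422 : e < 567
  · exact c80_okR c80_upZ_422 (by omega) (by omega) s
  by_cases h567 : e < 694
  · exact c80_okR c80_upZ_567 (by omega) (by omega) s
  by_cases h694 : e < 803
  · exact c80_okR c80_upZ_694 (by omega) (by omega) s
  by_cases h803 : e < 904
  · exact c80_okR c80_upZ_803 (by omega) (by omega) s
  by_cases h904 : e < 1002
  · exact c80_okR c80_upZ_904 (by omega) (by omega) s
  by_cases h1002 : e < 1093
  · exact c80_okR c80_upZ_1002 (by omega) (by omega) s
  by_cases h1093 : e < 1176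
  · exact c80_okR c80_upZ_1093 (by omega) (by omega) s
  by_cases h1176 : e < 1256
  · exact c80_okR c80_upZ_1176 (by omega) (by omega) s
  exact c80_okR c80_upZ_1256 (by omega) (by omega) s

theorem cert_okL : ∀ x ∈ EE, okL x = true := by
  refine List.all_eq_true.1 ?_
  rw [EE]
  simp only [List.all_append, Bool.and_eq_true]
  exact ⟨c80_okL_0,
    c80_okL_1,
    c80_all2 c80_okL_2a c80_okL_2b,
    c80_all2 c80_okL_3a c80_okL_3b,
    c80_all2 c80_okL_4a c80_okL_4b,
    c80_all2 c80_okL_5a c80_okL_5b,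
    c80_all2 c80_okL_6a c80_okL_6b,
    c80_all2 c80_okL_7a c80_okL_7b,
    c80_all2 c80_okL_8a c80_okL_8b⟩

theorem cert_okN : ∀ x ∈ EE, okN x = true := by
  refine List.all_eq_true.1 ?_
  rw [EE]
  simp only [List.all_append, Bool.and_eq_true]
  exact ⟨c80_okN_0, c80_okN_1, c80_okN_2, c80_okN_3, c80_okN_4, c80_okN_5, c80_okN_6,
    c80_okN_7, c80_okN_8⟩

theorem cert_lz : 7977299304 ≤ loZ := by
  have h := c80_lz
  generalize loZ = t at h ⊢
  exact Nat.le_of_ble_eq_true h

theorem cert_near : near 4 (TT.drop 1313) (ZZ.drop 1277) = true := c80_near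

theorem c80_EE :
    EE = EE0 ++ (EE1 ++ (EE2 ++ (EE3 ++ (EE4 ++ (EE5 ++ (EE6 ++ (EE7 ++ EE8))))))) := by
  rw [EE]

theorem cert_S1 : gramD UU EE EE ≤ 1212409119966758092 := by
  rw [congrArg (gramD UU EE) c80_EE]
  simp only [c80_gram_append, Nat.eq_of_beq_eq_true c80_gram_0, Nat.eq_of_beq_eq_true c80_gram_1,
    Nat.eq_of_beq_eq_true c80_gram_2, Nat.eq_of_beq_eq_true c80_gram_3,
    Nat.eq_of_beq_eq_true c80_gram_4, Nat.eq_of_beq_eq_true c80_gram_5,
    Nat.eq_of_beq_eq_true c80_gram_6, Nat.eq_of_beq_eq_true c80_gram_7,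
    Nat.eq_of_beq_eq_true c80_gram_8]
  norm_num

theorem cert_S2 : gramZ UZ EE ≤ 281082807634 := (Nat.eq_of_beq_eq_true c80_S2).le

theorem cert_sum : (EE.map fun x => x.2.2.1).sum + 11504 ≤ 10 ^ 6 := by
  rw [c80_sum]
  norm_num

theorem cert_gain : (EE.map fun x => x.2.2.1 * x.2.2.2).sum = 405109413953957 := c80_gain

/-- The certificate. -/
theorem rowCert : RowCert :=
  ⟨EE, UU, UZ, 11504, 7977299304, 405109413953957, 1212409119966758092, 281082807634,
    cert_upD, cert_upZ, cert_okL, cert_okN, cert_lz, cert_near, cert_S1, cert_S2, cert_sum,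
    cert_gain.ge, by norm_num⟩

end Vale.Agent.Q105
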