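import Vale.Agent.Q105.Defs

/-!
# The checker for the products of cosines: definitions and statements of the rows
-/

open MeasureTheory Real Finset

namespace Vale.Agent.Q105

open Vale.Agent.P105

/-- evaluate `x` before continuing -/
def force {α : Type} (x : ℕ) (f : ℕ → α) : α :=
  Nat.rec (motive := fun _ => α) (f 0) (fun k _ => f (Nat.succ k)) x

/-- upper bound for a product of at most `n` cosines -/
def goU (n : ℕ) : List ℕ → List ℕ → ℕ → ℕ :=
  Nat.rec (motive := fun _ => List ℕ → List ℕ → ℕ → ℕ) (fun _ _ acc => acc)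
    (fun _ ih L L' acc => List.casesOn (motive := fun _ => ℕ) L acc fun a l =>
      List.casesOn (motive := fun _ => ℕ) L' acc fun b l' =>
        force (Nat.sub (red (Nat.add a b)) 4) fun x =>
          force (Nat.succ (Nat.shiftRight (Nat.mul acc (cosU x)) 40)) fun t => ih l l' t) n

/-- lower bound for a product of `n` cosines -/
def goL (n : ℕ) : List ℕ → List ℕ → ℕ → ℕ :=
  Nat.rec (motive := fun _ => List ℕ → List ℕ → ℕ → ℕ) (fun _ _ acc => acc)
    (fun _ ih L L' acc => List.casesOn (motive := fun _ => ℕ) L 0 fun a l =>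
      List.casesOn (motive := fun _ => ℕ) L' 0 fun b l' =>
        force (Nat.add (red (Nat.add a b)) 4) fun x =>
          force (Nat.shiftRight (Nat.mul acc (cosL x)) 40) fun t => ih l l' t) n

/-- `n` squarings in fixed point, rounded down -/
def sqD (n : ℕ) : ℕ → ℕ :=
  Nat.rec (motive := fun _ => ℕ → ℕ) (fun x => x)
    (fun _ ih x => force (Nat.shiftRight (Nat.mul x x) 40) ih) n

/-- upper bound for `2 ^ 40 * exp (-t / 2 ^ 40)` -/
def expU (t : ℕ) : ℕ :=
  Nat.succ (Nat.div 1208925819614629174706176 (sqD 10 (Nat.add 1099511627776 (Nat.div t 1024))))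

/-- lower bound for `2 ^ 40 * exp (-t / 2 ^ 40)` -/
def expL (t : ℕ) : ℕ := sqD 10 (Nat.sub 1099511627775 (Nat.div t 1024))

/-- `|p - q|` -/
def adf (p q : ℕ) : ℕ := Nat.add (Nat.sub p q) (Nat.sub q p)

/-- `10 ^ 10 * 2 ^ 40 * |v 0 + 0.6480873023 * v (-1)|`, from `s0 = 2 ^ 40 (v 0 + o)`,
`s1 = 2 ^ 40 (v (-1) + o)` -/
def qX (o s0 s1 : ℕ) : ℕ :=
  adf (Nat.add (Nat.mul s0 10000000000) (Nat.mul s1 6480873023))
    (Nat.mul (Nat.mul o 1099511627776) 16480873023)

/-- upper bound for the factor of the tail -/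
def tailU (o s0 s1 : ℕ) : ℕ :=
  force (Nat.sub (Nat.div (qX o s0 s1) 10000000000) 1099600) fun X =>
    force (Nat.sub (adf s1 (Nat.mul o 1099511627776)) 1099600) fun Y =>
      Nat.succ (Nat.div (Nat.mul 100002 (expU (Nat.div (Nat.mul 11785
        (Nat.add (Nat.mul 17235 (Nat.mul X X)) (Nat.mul 10000 (Nat.mul Y Y))))
          10995116277760000))) 100000)

/-- lower bound for the factor of the tail -/
def tailL (o s0 s1 : ℕ) : ℕ :=
  force (Nat.add (Nat.div (qX o s0 s1) 10000000000) 1099600) fun X =>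
    force (Nat.add (adf s1 (Nat.mul o 1099511627776)) 1099600) fun Y =>
      force (Nat.add (Nat.mul 17236 (Nat.mul X X)) (Nat.mul 10000 (Nat.mul Y Y))) fun E =>
        cond (Nat.ble E 2417851639229258349412352)
          (expL (Nat.add (Nat.div (Nat.mul 11815 E) 10995116277760000) 10995118)) 0

/-- upper bound for a word given as the sum of two lists that start at `m = -1` -/
def wordU (o n : ℕ) (L L' : List ℕ) : ℕ :=
  goU n L.tail L'.tail
    (tailU o (Nat.add (L.tail.headD 0) (L'.tail.headD 0)) (Nat.add (L.headD 0) (L'.headD 0)))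

/-- lower bound for a word given as the sum of two lists that start at `m = -1` -/
def wordL (o n : ℕ) (L L' : List ℕ) : ℕ :=
  goL n L.tail L'.tail
    (tailL o (Nat.add (L.tail.headD 0) (L'.tail.headD 0)) (Nat.add (L.headD 0) (L'.headD 0)))

/-- `L[i] / 2 ^ 40 - o` approximates `α (m + i)` within `e / 2 ^ 40`, for `i < n` -/
def Apx (α : ℤ → ℝ) (m : ℤ) (o e n : ℕ) (L : List ℕ) : Prop :=
  n ≤ L.length ∧ ∀ i < n, |α (m + i) + o - (L.getD i 0 : ℝ) / 2 ^ 40| ≤ (e : ℝ) / 2 ^ 40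

/-- Row K1: soundness of `wordU` and `wordL`. -/
def RowK1 : Prop :=
  ∀ D : Dat, D.Good → ∀ (α α' : ℤ → ℝ) (o o' e e' top k : ℕ) (L L' : List ℕ),
    Wd D (fun m => α m + α' m) → e + e' ≤ 4 → top ≤ k →
    Apx α (-1) o e (top + 2) L → Apx α' (-1) o' e' (top + 2) L' →
    |amp fun i => α ((k : ℤ) - i) + α' ((k : ℤ) - i)| ≤
      (wordU (o + o') (top + 1) L L' : ℝ) / 2 ^ 40 ∧
    ∀ τ : ℝ, 0 ≤ τ → τ ≤ 1 / 100 →
      (∀ F : Finset ℤ, (∀ m ∈ F, (top : ℤ) < m) → ∑ m ∈ F, (α m + α' m) ^ 2 ≤ τ) →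
      (wordL (o + o') (top + 1) L L' : ℝ) / 2 ^ 40 * (1 - 5 * τ) ≤
        |amp fun i => α ((k : ℤ) - i) + α' ((k : ℤ) - i)|

/-- the table of `1 - y` -/
def TN : List ℕ := TT.map fun t => Nat.sub 2199023255552 t

/-- the table of `1 ± y` -/
def TS (s : Bool) : List ℕ := cond s TT TN

/-- the table of `z + 3`, from `m = -1297` on -/
def ZZ : List ℕ :=
  List.zipWith Nat.add (TT.drop 4) (List.zipWith Nat.add (TN.drop 3) TT)

/-- upper bound for the word `y m ± y (m - e)` -/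
def upD (e : ℕ) (s : Bool) : ℕ := wordU 2 (e + 301) (TT.drop 1300) ((TS s).drop (1300 - e))

/-- upper bound for the word `z m ± y (m - e)` -/
def upZ (e : ℕ) (s : Bool) : ℕ := wordU 4 (e + 301) (ZZ.drop 1296) ((TS s).drop (1300 - e))

/-- lower bound for the word `y m ± y (m - g)`, up to the far tail -/
def loD (g : ℕ) (s : Bool) : ℕ := wordL 2 (g + 501) (TT.drop 1300) ((TS s).drop (1300 - g))

/-- lower bound for the word `y m + z (m - 32)`, up to the far tail -/
def loZ : ℕ := wordL 4 537 (TT.drop 1300) (ZZ.drop 1264)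

/-- Row K2: bounds for the four kinds of words. -/
def RowK2 : Prop :=
  ∀ D : Dat, D.Good → Tab D → ∀ k : ℕ,
    (∀ e s, e ≤ 1300 → e + 300 ≤ k →
      |amp fun i => D.dip e s ((k : ℤ) - i)| ≤ (upD e s : ℝ) / 2 ^ 40) ∧
    (∀ e s, e ≤ 1300 → e + 300 ≤ k →
      |amp fun i => D.z ((k : ℤ) - i) + sgn s * D.y ((k : ℤ) - i - e)| ≤ (upZ e s : ℝ) / 2 ^ 40) ∧
    (∀ g s, g ≤ 1300 → g + 500 ≤ k →
      (loD g s : ℝ) / 2 ^ 40 * 0.9985 ≤ |amp fun i => D.dip g s ((k : ℤ) - i)|) ∧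
    (536 ≤ k → (loZ : ℝ) / 2 ^ 40 * 0.994 ≤
      |amp fun i => D.y ((k : ℤ) - i) + D.z ((k : ℤ) - i - 32)|)

/-- the digit `i` of `T` in base `2 ^ 32` -/
def look (T i : ℕ) : ℕ := Nat.mod (Nat.shiftRight T (Nat.mul 32 i)) 4294967296

/-- the position of `(e, s)` in a packed table -/
def pos (e : ℕ) (s : Bool) : ℕ := Nat.add (Nat.mul 2 e) (cond s 1 0)

/-- the packed table `U` (unit `2 ^ (-31)`) bounds the function `f` (unit `2 ^ (-40)`) or is `1` -/
def okU (f : ℕ → Bool → ℕ) (U e : ℕ) (s : Bool) : Bool :=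
  cond (Nat.ble 2147483648 (look U (pos e s))) true
    (Nat.ble (f e s) (Nat.mul 512 (look U (pos e s))))

/-- `okU` on `[a, a + n)` -/
def okR (f : ℕ → Bool → ℕ) (U a n : ℕ) : Bool :=
  (List.range' a n).all fun e => okU f U e true && okU f U e false

/-- an entry `(g, s, h, l)`: offset, sign, weight (unit `10 ^ (-6)`), lower bound of the mean
(unit `2 ^ (-40)`) -/
abbrev Ent := ℕ × Bool × ℕ × ℕ

/-- the lower bound of an entry is correct -/
def okL (x : Ent) : Bool := Nat.ble x.2.2.2 (loD x.1 x.2.1)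

/-- the bound for a pair of entries -/
def pairU (U : ℕ) (x x' : Ent) : ℕ :=
  cond (Nat.beq x.1 x'.1) 2147483648 (look U (pos (adf x.1 x'.1) (xor x.2.1 x'.2.1)))

/-- one row of the Gram form -/
def rowG (U : ℕ) (E : List Ent) (x : Ent) : ℕ :=
  E.foldr (fun x' acc => Nat.add (Nat.mul x'.2.2.1 (pairU U x x')) acc) 0

/-- the Gram form of the entries `E'` against `E` -/
def gramD (U : ℕ) (E E' : List Ent) : ℕ :=
  E'.foldr (fun x acc => Nat.add (Nat.mul x.2.2.1 (rowG U E x)) acc) 0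

/-- the pairing of the entries with the special word -/
def gramZ (UZ : ℕ) (E : List Ent) : ℕ :=
  E.foldr (fun x acc => Nat.add (Nat.mul x.2.2.1 (look UZ (pos (x.1 - 32) (!x.2.1)))) acc) 0

/-- the two lists add up to the centres `yh` within `0.0087` -/
def near (o : ℕ) (L L' : List ℕ) : Bool :=
  (List.range 37).all fun i =>
    decide ((100000 * ((L.getD i 0 : ℤ) + L'.getD i 0 - o * 1099511627776) -
      yh.getD i 0 * 1099511627776).natAbs + 400000 ≤ 870 * 1099511627776)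

/-- range of the offset and closeness to the centres -/
def okN (x : Ent) : Bool :=
  Nat.ble 33 x.1 && Nat.ble x.1 1300 && near 2 (TT.drop 1313) ((TS x.2.1).drop (1313 - x.1))

/-- Row G: the family given by a list of entries and the special word. -/
def RowG : Prop :=
  ∀ D : Dat, D.Good → Tab D → ∀ (E : List Ent) (U UZ hz lz S1 S2 : ℕ),
    (∀ e ≤ 1300, ∀ s, okU upD U e s = true) → (∀ e ≤ 1300, ∀ s, okU upZ UZ e s = true) →
    (∀ x ∈ E, okL x = true) → (∀ x ∈ E, okN x = true) → lz ≤ loZ →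
    near 4 (TT.drop 1313) (ZZ.drop 1277) = true →
    gramD U E E ≤ S1 → gramZ UZ E ≤ S2 → (E.map fun x => x.2.2.1).sum + hz ≤ 10 ^ 6 →
    ∃ Φ : Fam D (Option (Fin E.length)), Φ.k0 = 1800 ∧
      Φ.Gain ((0.9985 * ((E.map fun x => x.2.2.1 * x.2.2.2).sum : ℕ) + 0.994 * (hz * lz : ℕ)) /
        (10 ^ 6 * 2 ^ 40)) ∧
      Φ.Gram ((S1 + 2 * hz * S2 + hz ^ 2 * 2 ^ 31 : ℕ) / (10 ^ 12 * 2 ^ 31)) ∧
      ∀ j, ∀ i < 37, |Φ.v j ((12 + i : ℕ) : ℤ) - (yh.getD i 0 : ℝ) / 10 ^ 5| ≤ 0.0087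

end Vale.Agent.Q105
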