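import Vale.Agent.Q105.A2
import Vale.Agent.P105.H892.DimDef

/-!
# Dimension drop, measure theoretic part
-/

open MeasureTheory Real Filter Topology
open scoped ENNReal NNReal

namespace Vale.Agent.Q105

open Vale.Agent.P105

/-- a cell of the grid of mesh `r` -/
def cell (r : ℝ) (k : ℤ) : Set ℝ := Set.Ico (k * r) ((k + 1) * r)

theorem d_cell_meas (r : ℝ) (k : ℤ) : MeasurableSet (cell r k) := measurableSet_Ico

theorem d_cell_sum {r : ℝ} (hr : 0 < r) {E : Set ℝ} (hE : MeasurableSet E) :
    ∑' k : ℤ, volume (E ∩ cell r k) ≤ volume E := by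
  have hd : Pairwise (Function.onFun Disjoint fun k : ℤ => E ∩ cell r k) := by
    intro k l hkl
    refine Set.disjoint_left.2 fun x hx hx' => hkl ?_
    have h1 : (k : ℝ) * r < (l + 1) * r := hx.2.1.trans_lt hx'.2.2
    have h2 : (l : ℝ) * r < (k + 1) * r := hx'.2.1.trans_lt hx.2.2
    have h3 : (k : ℝ) < l + 1 := lt_of_mul_lt_mul_right h1 hr.le
    have h4 : (l : ℝ) < k + 1 := lt_of_mul_lt_mul_right h2 hr.le
    have h5 : k < l + 1 := by exact_mod_cast h3
    have h6 : l < k + 1 := by exact_mod_cast h4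
    omega
  rw [← measure_iUnion hd fun k => hE.inter (d_cell_meas r k)]
  exact measure_mono (Set.iUnion_subset fun k => Set.inter_subset_left)

theorem d_mem_cell {r : ℝ} (hr : 0 < r) (x : ℝ) : x ∈ cell r ⌊x / r⌋ := by
  constructor
  · exact (le_div_iff₀ hr).1 (Int.floor_le _)
  · exact (div_lt_iff₀ hr).1 (Int.lt_floor_add_one _)

/-- from a small set to a small union of cells -/
theorem d_cells {Ω : Type} [MeasurableSpace Ω] (μ : Measure Ω) [IsProbabilityMeasure μ]
    (Y : Ω → ℝ) (hY : Measurable Y) (E : Set ℝ) (hE : MeasurableSet E) (r : ℝ) (hr : 0 < r)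
    (q : ℝ≥0∞) (hq : q ≠ ∞) (hP : ∀ s, 0 ≤ s → s < r → q + q ≤ μ {ω | Y ω + s ∈ E}) :
    ∃ K : Set ℤ, ∑' k : ℤ, K.indicator (fun _ => q * ENNReal.ofReal r) k ≤ 2 * volume E ∧
      q ≤ μ (Y ⁻¹' ⋃ k ∈ K, cell r k) := by
  set a : ℝ≥0∞ := q * ENNReal.ofReal r with ha
  have a1 : a ≠ ∞ := ENNReal.mul_ne_top hq ENNReal.ofReal_ne_top
  set K : Set ℤ := {k | a ≤ volume (E ∩ cell r k) + volume (E ∩ cell r (k + 1))} with hK
  refine ⟨K, ?_, ?_⟩
  · calc _ ≤ ∑' k : ℤ, (volume (E ∩ cell r k) + volume (E ∩ cell r (k + 1))) := by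
          refine ENNReal.tsum_le_tsum fun k => ?_
          by_cases hk : k ∈ K
          · rw [Set.indicator_of_mem hk]
            exact hk
          · rw [Set.indicator_of_notMem hk]
            exact zero_le
      _ = ∑' k : ℤ, volume (E ∩ cell r k) + ∑' k : ℤ, volume (E ∩ cell r k) := by
          rw [ENNReal.tsum_add]
          congr 1
          exact (Equiv.addRight (1 : ℤ)).tsum_eq fun k => volume (E ∩ cell r k)
      _ ≤ volume E + volume E := add_le_add (d_cell_sum hr hE) (d_cell_sum hr hE)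
      _ = _ := (two_mul _).symm
  · set A : Set ℝ := ⋃ k ∈ K, cell r k with hA
    have mA : MeasurableSet A :=
      MeasurableSet.biUnion (Set.to_countable _) fun k _ => d_cell_meas r k
    set b : Set ℝ := Set.Ico 0 r with hb
    have mb : MeasurableSet b := measurableSet_Ico
    have vb : volume b = ENNReal.ofReal r := by rw [hb, Real.volume_Ico, sub_zero]
    set H : Set (Ω × ℝ) := (fun p => Y p.1 + p.2) ⁻¹' E ∩ Prod.snd ⁻¹' b with hH
    have mH : MeasurableSet H :=
      (((hY.comp measurable_fst).add measurable_snd) hE).inter (measurable_snd mb)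
    have h1 : (q + q) * volume b ≤ (μ.prod volume) H := by
      rw [Measure.prod_apply_symm mH, ← lintegral_indicator_const mb]
      refine lintegral_mono fun s => ?_
      by_cases hs : s ∈ b
      · rw [Set.indicator_of_mem hs]
        exact (hP s hs.1 hs.2).trans (measure_mono fun ω hω => ⟨hω, hs⟩)
      · rw [Set.indicator_of_notMem hs]
        exact zero_le
    have h2 : (μ.prod volume) H ≤ volume b * μ (Y ⁻¹' A) + a := by
      have h4 : ∫⁻ ω, ((Y ⁻¹' A).indicator (fun _ => volume b) ω + a) ∂μ =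
          volume b * μ (Y ⁻¹' A) + a := by
        rw [lintegral_add_right _ measurable_const, lintegral_indicator_const (hY mA)]
        simp
      rw [Measure.prod_apply mH, ← h4]
      refine lintegral_mono fun ω => ?_
      by_cases hω : ω ∈ Y ⁻¹' A
      · rw [Set.indicator_of_mem hω]
        exact (measure_mono fun s hs => hs.2).trans le_self_add
      · rw [Set.indicator_of_notMem hω, zero_add]
        have hc := d_mem_cell hr (Y ω)
        set k : ℤ := ⌊Y ω / r⌋
        have hk : k ∉ K := fun hk => hω (Set.mem_biUnion hk hc)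
        refine le_trans ?_ (not_le.1 hk).le
        refine le_trans ?_ (measure_union_le _ _)
        rw [← measure_preimage_add volume (Y ω) (E ∩ cell r k ∪ E ∩ cell r (k + 1))]
        refine measure_mono fun s hs => ?_
        have h5 : Y ω + s ∈ E := hs.1
        have h6 : 0 ≤ s := hs.2.1
        have h7 : s < r := hs.2.2
        have h8 := hc.1
        have h9 := hc.2
        rcases lt_or_ge (Y ω + s) ((k + 1) * r) with h | h
        · exact Or.inl ⟨h5, by linarith, h⟩
        · refine Or.inr ⟨h5, ?_, ?_⟩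
          · push_cast
            exact h
          · push_cast
            linarith
    have h7 := h1.trans h2
    rw [add_mul, vb, ← ha, ENNReal.add_le_add_iff_right a1, ha, mul_comm] at h7
    exact (ENNReal.mul_le_mul_iff_right (ENNReal.ofReal_pos.2 hr).ne' ENNReal.ofReal_ne_top).1 h7

/-- a Borel-Cantelli lemma for Hausdorff measures -/
theorem d_cantelli (s : ℝ) (I : ℕ → ℤ → Set ℝ) (r : ℕ → ℝ≥0∞) (hr : Antitone r)
    (hr0 : Tendsto r atTop (𝓝 0)) (hI : ∀ n k, Metric.ediam (I n k) ≤ r n)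
    (hs : ∑' n, ∑' k, Metric.ediam (I n k) ^ s ≠ ∞) :
    Measure.hausdorffMeasure s (limsup (fun n => ⋃ k, I n k) atTop) = 0 := by
  have key := Measure.hausdorffMeasure_le_liminf_tsum (β := ℕ) (X := ℝ) (ι := fun _ => ℕ × ℤ) s
    (limsup (fun n => ⋃ k, I n k) atTop) (l := atTop) r hr0 (fun N p => I (p.1 + N) p.2)
    (Eventually.of_forall fun N p => (hI _ _).trans (hr (Nat.le_add_left _ _)))
    (Eventually.of_forall fun N x hx => by
      rw [mem_limsup_iff_frequently_mem, frequently_atTop] at hx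
      obtain ⟨n, hn, hx⟩ := hx N
      obtain ⟨k, hk⟩ := Set.mem_iUnion.1 hx
      refine Set.mem_iUnion.2 ⟨(n - N, k), ?_⟩
      rwa [Nat.sub_add_cancel hn])
  refine le_antisymm (key.trans (le_of_eq ?_)) zero_le
  have h := ENNReal.tendsto_sum_nat_add _ hs
  refine Tendsto.liminf_eq (h.congr fun N => ?_)
  rw [ENNReal.tsum_prod']

/-- saturation of a null set of a Hausdorff measure -/
theorem d_sat {lam : ℝ} (h0 : 0 < lam) (h1 : lam < 1) (s : ℝ≥0) {N : Set ℝ}
    (hNm : MeasurableSet N) (hNv : Measure.hausdorffMeasure (s : ℝ) N = 0)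
    (hNb : bernConv lam N ≠ 0) : hdim (bernConv lam) ≤ s := by
  set φ : (ℕ →₀ ℤ) →+ ℝ := Finsupp.liftAddHom fun n => zmultiplesHom ℝ (lam ^ n) with hφ
  set G : AddSubgroup ℝ := φ.range with hG
  have hGc : (G : Set ℝ).Countable := by
    rw [hG, AddMonoidHom.coe_range]
    exact Set.countable_range _
  set N' : Set ℝ := ⋃ g ∈ (G : Set ℝ), (fun x => x + g) ⁻¹' N with hN'
  have hN'm : MeasurableSet N' :=
    MeasurableSet.biUnion hGc fun g _ => (measurable_add_const g) hNm
  have hN'v : Measure.hausdorffMeasure (s : ℝ) N' = 0 := by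
    rw [hN', measure_biUnion_null_iff hGc]
    intro g _
    rw [measure_preimage_add_right]
    exact hNv
  have hN'b : bernConv lam N' ≠ 0 := by
    have hsub : N ⊆ N' := by
      intro x hx
      refine Set.mem_biUnion (G.zero_mem) ?_
      simpa using hx
    exact fun h => hNb (measure_mono_null hsub h)
  have hGinv : ∀ (n : ℕ) (x : ℝ), x ∈ N' ↔ x + lam ^ n ∈ N' := by
    intro n x
    have hn : lam ^ n ∈ G := ⟨Finsupp.single n 1, by simp [hφ]⟩
    simp only [hN', Set.mem_iUnion, Set.mem_preimage, SetLike.mem_coe, exists_prop]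
    constructor
    · rintro ⟨g, hg, hx⟩
      exact ⟨g - lam ^ n, G.sub_mem hg hn, by convert hx using 1; ring⟩
    · rintro ⟨g, hg, hx⟩
      exact ⟨g + lam ^ n, G.add_mem hg hn, by convert hx using 1; ring⟩
  have h1' : bernConv lam N' = 1 := (Salem.zero_one h0 h1 hN'm hGinv).resolve_left hN'b
  refine le_trans (iInf_le_of_le N' (iInf_le_of_le hN'm (iInf_le_of_le h1' le_rfl))) ?_
  apply dimH_le_of_hausdorffMeasure_ne_top
  rw [hN'v]
  exact ENNReal.zero_ne_top

/-- the criterion for the dimension drop -/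
theorem d_dim {lam : ℝ} (h0 : 0 < lam) (h1 : lam < 1) {q C c r₀ : ℝ} (hq : 0 < q) (hC : 0 ≤ C)
    (hc : 0 < c) (hc1 : c < 1) (hr₀ : 0 < r₀)
    (h : ∀ n : ℕ, ∃ E : Set ℝ, MeasurableSet E ∧
      volume E ≤ ENNReal.ofReal (C * exp (-(n * (2 * c)))) ∧
      ∀ s, 0 ≤ s → s < r₀ * exp (-n) →
        ENNReal.ofReal q + ENNReal.ofReal q ≤ PP {ω | Salem.YY lam ω + s ∈ E}) :
    hdim (bernConv lam) < 1 := by
  classical
  have := Salem.coin_prob
  have hPP : IsProbabilityMeasure PP := by unfold PP; infer_instance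
  have := Salem.bernConv_prob h0 h1
  have hY := Salem.YY_meas h0 h1
  set r : ℕ → ℝ := fun n => r₀ * exp (-n) with hr
  have hr0 : ∀ n, 0 < r n := fun n => mul_pos hr₀ (exp_pos _)
  choose E hEm hEv hEp using h
  choose K hK1 hK2 using fun n => d_cells PP _ hY (E n) (hEm n) (r n) (hr0 n) _
    ENNReal.ofReal_ne_top (hEp n)
  set I : ℕ → ℤ → Set ℝ := fun n k => if k ∈ K n then cell (r n) k else ∅ with hI
  have hIU : ∀ n, ⋃ k, I n k = ⋃ k ∈ K n, cell (r n) k := by
    intro n
    refine Set.iUnion_congr fun k => ?_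
    by_cases hk : k ∈ K n <;> simp [hI, hk]
  have hd : ∀ n k, Metric.ediam (cell (r n) k) = ENNReal.ofReal (r n) := by
    intro n k
    rw [cell, Real.ediam_Ico]
    congr 1
    ring
  have hs0 : 0 < 1 - c := by linarith
  have hmeas : ∀ n, MeasurableSet (⋃ k, I n k) := fun n => by
    rw [hIU]
    exact MeasurableSet.biUnion (Set.to_countable _) fun k _ => d_cell_meas _ k
  have hlim : Tendsto (fun n => ENNReal.ofReal (r n)) atTop (𝓝 0) := by
    have h2 : Tendsto (fun n : ℕ => r₀ * exp (-(n : ℝ))) atTop (𝓝 (r₀ * 0)) :=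
      (Real.tendsto_exp_neg_atTop_nhds_zero.comp tendsto_natCast_atTop_atTop).const_mul r₀
    have h3 := ENNReal.tendsto_ofReal h2
    rwa [mul_zero, ENNReal.ofReal_zero] at h3
  have hsum : ∀ n, ∑' k, Metric.ediam (I n k) ^ (1 - c) ≤
      ENNReal.ofReal (2 * C * r₀ ^ (-c) / q * exp (-c) ^ n) := by
    intro n
    have e1 : ∀ k, Metric.ediam (I n k) ^ (1 - c) = ENNReal.ofReal (r n ^ (-c) / q) *
        (K n).indicator (fun _ => ENNReal.ofReal q * ENNReal.ofReal (r n)) k := by
      intro k
      by_cases hk : k ∈ K n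
      · simp only [hI, if_pos hk, Set.indicator_of_mem hk]
        rw [hd, ENNReal.ofReal_rpow_of_pos (hr0 n), ← ENNReal.ofReal_mul hq.le,
          ← ENNReal.ofReal_mul (div_nonneg (rpow_nonneg (hr0 n).le _) hq.le)]
        congr 1
        rw [sub_eq_add_neg, rpow_add (hr0 n), rpow_one]
        field_simp
      · simp only [hI, if_neg hk, Set.indicator_of_notMem hk, Metric.ediam_empty, mul_zero]
        exact ENNReal.zero_rpow_of_pos hs0
    rw [tsum_congr e1, ENNReal.tsum_mul_left]
    calc _ ≤ ENNReal.ofReal (r n ^ (-c) / q) *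
          (2 * ENNReal.ofReal (C * exp (-(n * (2 * c))))) :=
          mul_le_mul_right ((hK1 n).trans (mul_le_mul_right (hEv n) _)) _
      _ = _ := by
          rw [← ENNReal.ofReal_ofNat 2, ← ENNReal.ofReal_mul (by norm_num),
            ← ENNReal.ofReal_mul (div_nonneg (rpow_nonneg (hr0 n).le _) hq.le)]
          congr 1
          simp only [hr]
          rw [mul_rpow hr₀.le (exp_pos _).le, ← exp_mul, ← exp_nat_mul]
          have e3 : exp (-(n : ℝ) * -c) * exp (-(n * (2 * c))) = exp (n * -c) := by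
            rw [← exp_add]
            congr 1
            ring
          rw [← e3]
          ring
  have hfin : ∑' n, ∑' k, Metric.ediam (I n k) ^ (1 - c) ≠ ∞ := by
    refine ne_top_of_le_ne_top ?_ (ENNReal.tsum_le_tsum hsum)
    have hA : 0 ≤ 2 * C * r₀ ^ (-c) / q := by
      have := rpow_nonneg hr₀.le (-c)
      positivity
    rw [← ENNReal.ofReal_tsum_of_nonneg (fun n => by positivity)
      ((summable_geometric_of_lt_one (exp_pos _).le
        (Real.exp_lt_one_iff.2 (by linarith))).mul_left _)]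
    exact ENNReal.ofReal_ne_top
  have hH := d_cantelli (1 - c) I (fun n => ENNReal.ofReal (r n))
    (fun m n hmn => ENNReal.ofReal_le_ofReal (mul_le_mul_of_nonneg_left
      (exp_le_exp.2 (neg_le_neg (Nat.cast_le.2 hmn))) hr₀.le)) hlim
    (fun n k => by
      by_cases hk : k ∈ K n
      · simp only [hI, if_pos hk]
        exact (hd n k).le
      · simp only [hI, if_neg hk, Metric.ediam_empty]
        exact zero_le) hfin
  set A : ℕ → Set ℝ := fun n => ⋃ k, I n k with hA
  have hNb : ENNReal.ofReal q ≤ bernConv lam (limsup A atTop) := by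
    have hN2 : limsup A atTop = ⋂ n, ⋃ i ≥ n, A i := by
      rw [Filter.limsup_eq_iInf_iSup_of_nat]
      rfl
    set B : ℕ → Set ℝ := fun n => ⋃ i ≥ n, A i with hB
    have hanti : Antitone B := by
      intro a b hab
      refine Set.iUnion₂_subset fun i hi => ?_
      exact Set.subset_iUnion₂_of_subset i (le_trans hab hi) le_rfl
    have hBm : ∀ n, MeasurableSet (B n) := fun n =>
      MeasurableSet.iUnion fun i => MeasurableSet.iUnion fun _ => hmeas i
    have ht := tendsto_measure_iInter_atTop (μ := bernConv lam)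
      (fun n => (hBm n).nullMeasurableSet) hanti ⟨0, measure_ne_top _ _⟩
    rw [hN2]
    refine ge_of_tendsto' ht fun n => le_trans ?_ (measure_mono
      (Set.subset_iUnion₂_of_subset n le_rfl le_rfl))
    rw [Salem.bernConv_eq, Measure.map_apply hY (hmeas n), hIU]
    exact hK2 n
  obtain ⟨s, hs⟩ : ∃ s : ℝ≥0, (s : ℝ) = 1 - c := ⟨⟨1 - c, hs0.le⟩, rfl⟩
  have hle := d_sat h0 h1 s (MeasurableSet.measurableSet_limsup hmeas) (hs ▸ hH)
    (lt_of_lt_of_le (ENNReal.ofReal_pos.2 hq) hNb).ne'
  refine hle.trans_lt ?_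
  rw [← ENNReal.coe_one, ENNReal.coe_lt_coe, ← NNReal.coe_lt_coe, hs, NNReal.coe_one]
  linarith

end Vale.Agent.Q105
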