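import Mathlib

/-!
# The real root of `x ^ 33 - x ^ 32 - x ^ 31 - x ^ 30 - 1`

Existence, uniqueness and enclosures, in terms of `b` and of `lam = 1 / b`.
-/

namespace Vale.Agent.Q105

/-- The equation in terms of the inverse. -/
theorem root_inv_iff {b : ℝ} (h0 : b ≠ 0) :
    b ^ 33 - b ^ 32 - b ^ 31 - b ^ 30 - 1 = 0 ↔ b⁻¹ + b⁻¹ ^ 2 + b⁻¹ ^ 3 + b⁻¹ ^ 33 = 1 := by
  have h : b ^ 33 - b ^ 32 - b ^ 31 - b ^ 30 - 1 =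
      b ^ 33 * (1 - (b⁻¹ + b⁻¹ ^ 2 + b⁻¹ ^ 3 + b⁻¹ ^ 33)) := by
    field_simp
    ring
  rw [h, mul_eq_zero, sub_eq_zero, eq_comm (a := (1 : ℝ))]
  exact or_iff_right (pow_ne_zero _ h0)

theorem lam_iff {l : ℝ} (h0 : l ≠ 0) :
    l + l ^ 2 + l ^ 3 + l ^ 33 = 1 ↔ l⁻¹ ^ 33 - l⁻¹ ^ 32 - l⁻¹ ^ 31 - l⁻¹ ^ 30 - 1 = 0 := by
  rw [root_inv_iff (inv_ne_zero h0), inv_inv]

theorem lam_mono {x y : ℝ} (h0 : 0 ≤ x) (h : x ≤ y) :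
    x + x ^ 2 + x ^ 3 + x ^ 33 ≤ y + y ^ 2 + y ^ 3 + y ^ 33 := by
  gcongr

/-- Lower enclosure of `lam`. -/
theorem lt_lam {l x : ℝ} (h0 : 0 ≤ l) (hl : l + l ^ 2 + l ^ 3 + l ^ 33 = 1)
    (hx : x + x ^ 2 + x ^ 3 + x ^ 33 < 1) : x < l := by
  by_contra h
  have := lam_mono h0 (not_lt.1 h)
  linarith

/-- Upper enclosure of `lam`. -/
theorem lam_lt {l y : ℝ} (h0 : 0 ≤ y) (hl : l + l ^ 2 + l ^ 3 + l ^ 33 = 1)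
    (hy : 1 < y + y ^ 2 + y ^ 3 + y ^ 33) : l < y := by
  by_contra h
  have := lam_mono h0 (not_lt.1 h)
  linarith

/-- Uniqueness of the nonnegative solution. -/
theorem lam_unique {l m : ℝ} (h0 : 0 ≤ l) (hl : l + l ^ 2 + l ^ 3 + l ^ 33 = 1) (h1 : 0 ≤ m)
    (hm : m + m ^ 2 + m ^ 3 + m ^ 33 = 1) : l = m := by
  rcases lt_trichotomy l m with h | h | h
  · have : l ^ 2 + l ^ 3 + l ^ 33 ≤ m ^ 2 + m ^ 3 + m ^ 33 := by gcongr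
    linarith
  · exact h
  · have : m ^ 2 + m ^ 3 + m ^ 33 ≤ l ^ 2 + l ^ 3 + l ^ 33 := by gcongr
    linarith

/-- Lower enclosure of `b`. -/
theorem lt_root {b x : ℝ} (h0 : 0 < b) (hb : b ^ 33 - b ^ 32 - b ^ 31 - b ^ 30 - 1 = 0)
    (hx0 : 0 < x) (hx : x ^ 33 - x ^ 32 - x ^ 31 - x ^ 30 - 1 < 0) : x < b := by
  have h : x ^ 33 - x ^ 32 - x ^ 31 - x ^ 30 - 1 =
      x ^ 33 * (1 - (x⁻¹ + x⁻¹ ^ 2 + x⁻¹ ^ 3 + x⁻¹ ^ 33)) := by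
    field_simp
    ring
  rw [h] at hx
  have h2 : 1 - (x⁻¹ + x⁻¹ ^ 2 + x⁻¹ ^ 3 + x⁻¹ ^ 33) < 0 := by
    by_contra h3
    exact absurd hx (not_lt.2 (mul_nonneg (by positivity) (not_lt.1 h3)))
  have := lam_lt (l := b⁻¹) (y := x⁻¹) (by positivity) ((root_inv_iff h0.ne').1 hb) (by linarith)
  exact (inv_lt_inv₀ h0 hx0).1 this

/-- Upper enclosure of `b`. -/
theorem root_lt {b y : ℝ} (h0 : 0 < b) (hb : b ^ 33 - b ^ 32 - b ^ 31 - b ^ 30 - 1 = 0)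
    (hy0 : 0 < y) (hy : 0 < y ^ 33 - y ^ 32 - y ^ 31 - y ^ 30 - 1) : b < y := by
  have h : y ^ 33 - y ^ 32 - y ^ 31 - y ^ 30 - 1 =
      y ^ 33 * (1 - (y⁻¹ + y⁻¹ ^ 2 + y⁻¹ ^ 3 + y⁻¹ ^ 33)) := by
    field_simp
    ring
  rw [h] at hy
  have h2 : 0 < 1 - (y⁻¹ + y⁻¹ ^ 2 + y⁻¹ ^ 3 + y⁻¹ ^ 33) :=
    (pos_iff_pos_of_mul_pos hy).1 (by positivity)
  have := lt_lam (l := b⁻¹) (x := y⁻¹) (by positivity) ((root_inv_iff h0.ne').1 hb) (by linarith)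
  exact (inv_lt_inv₀ hy0 h0).1 this

theorem root_unique {b c : ℝ} (h0 : 0 < b) (hb : b ^ 33 - b ^ 32 - b ^ 31 - b ^ 30 - 1 = 0)
    (h1 : 0 < c) (hc : c ^ 33 - c ^ 32 - c ^ 31 - c ^ 30 - 1 = 0) : b = c :=
  inv_injective (lam_unique (by positivity) ((root_inv_iff h0.ne').1 hb) (by positivity)
    ((root_inv_iff h1.ne').1 hc))

/-- Existence. -/
theorem exists_lam : ∃ l : ℝ, 0 < l ∧ l + l ^ 2 + l ^ 3 + l ^ 33 = 1 := by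
  have hc : ContinuousOn (fun x : ℝ => x + x ^ 2 + x ^ 3 + x ^ 33) (Set.Icc 0 1) := by fun_prop
  obtain ⟨l, ⟨h0, -⟩, hl⟩ := intermediate_value_Ioo (zero_le_one' ℝ) hc
    (show (1 : ℝ) ∈ _ by constructor <;> norm_num)
  exact ⟨l, h0, hl⟩

theorem exists_root : ∃ b : ℝ, 0 < b ∧ b ^ 33 - b ^ 32 - b ^ 31 - b ^ 30 - 1 = 0 := by
  obtain ⟨l, h0, hl⟩ := exists_lam
  exact ⟨l⁻¹, by positivity, (lam_iff h0.ne').1 hl⟩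

/-- Thirty digits of `lam`. -/
theorem lam_enc {l : ℝ} (h0 : 0 ≤ l) (hl : l + l ^ 2 + l ^ 3 + l ^ 33 = 1) :
    0.543689012070917940598607626180 < l ∧ l < 0.543689012070917940598607626181 :=
  ⟨lt_lam h0 hl (by norm_num), lam_lt (by norm_num) hl (by norm_num)⟩

/-- Thirty digits of `b`. -/
theorem root_enc {b : ℝ} (h0 : 0 < b) (hb : b ^ 33 - b ^ 32 - b ^ 31 - b ^ 30 - 1 = 0) :
    1.839286757315525021132654334057 < b ∧ b < 1.839286757315525021132654334058 :=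
  ⟨lt_root h0 hb (by norm_num) (by norm_num), root_lt h0 hb (by norm_num) (by norm_num)⟩

theorem lam_half {l : ℝ} (h0 : 0 ≤ l) (hl : l + l ^ 2 + l ^ 3 + l ^ 33 = 1) :
    1 / 2 < l ∧ l < 1 := by
  obtain ⟨h1, h2⟩ := lam_enc h0 hl
  constructor <;> linarith

theorem root_one_two {b : ℝ} (h0 : 0 < b) (hb : b ^ 33 - b ^ 32 - b ^ 31 - b ^ 30 - 1 = 0) :
    1 < b ∧ b < 2 := by
  obtain ⟨h1, h2⟩ := root_enc h0 hb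
  constructor <;> linarith

end Vale.Agent.Q105
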