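import Vale.Agent.Q105.Chk
import Vale.Agent.Q105.Root

/-!
# The rows and the certificate give the singularity
-/

open MeasureTheory Real Finset

namespace Vale.Agent.Q105

open Vale.Agent.P105

/-- the finite certificate -/
def RowCert : Prop :=
  ∃ (E : List Ent) (U UZ hz lz S0 S1 S2 : ℕ),
    (∀ e ≤ 1300, ∀ s, okU upD U e s = true) ∧ (∀ e ≤ 1300, ∀ s, okU upZ UZ e s = true) ∧
    (∀ x ∈ E, okL x = true) ∧ (∀ x ∈ E, okN x = true) ∧ lz ≤ loZ ∧
    near 4 (TT.drop 1313) (ZZ.drop 1277) = true ∧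
    gramD U E E ≤ S1 ∧ gramZ UZ E ≤ S2 ∧ (E.map fun x => x.2.2.1).sum + hz ≤ 10 ^ 6 ∧
    S0 ≤ (E.map fun x => x.2.2.1 * x.2.2.2).sum ∧
    20925 * 10 ^ 11 * 2 ^ 40 + 3091787 * 512 * (S1 + 2 * hz * S2 + hz ^ 2 * 2 ^ 31) ≤
      9999 * 10 ^ 5 * (9985 * S0 + 9940 * (hz * lz))

/-- a range check gives the single checks -/
theorem fin_okR {f : ℕ → Bool → ℕ} {U a n : ℕ} (h : okR f U a n = true) {e : ℕ} (h1 : a ≤ e)
    (h2 : e < a + n) (s : Bool) : okU f U e s = true := by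
  unfold okR at h
  have h3 := List.all_eq_true.1 h e (List.mem_range'_1.2 ⟨h1, h2⟩)
  rw [Bool.and_eq_true] at h3
  cases s
  · exact h3.2
  · exact h3.1

/-- two adjacent range checks -/
theorem fin_okR_add {f : ℕ → Bool → ℕ} {U a n m : ℕ} (h : okR f U a n = true)
    (h' : okR f U (a + n) m = true) : okR f U a (n + m) = true := by
  unfold okR
  refine List.all_eq_true.2 fun e he => ?_
  obtain ⟨h1, h2⟩ := List.mem_range'_1.1 he
  rw [Bool.and_eq_true]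
  rcases lt_or_ge e (a + n) with h3 | h3
  · exact ⟨fin_okR h h1 h3 _, fin_okR h h1 h3 _⟩
  · exact ⟨fin_okR h' h3 (by omega) _, fin_okR h' h3 (by omega) _⟩

/-- the Gram form is additive in the rows -/
theorem fin_gramD_append (U : ℕ) (E E₁ E₂ : List Ent) :
    gramD U E (E₁ ++ E₂) = gramD U E E₁ + gramD U E E₂ := by
  induction E₁ with
  | nil => simp [gramD]
  | cons x l ih =>
    simp only [gramD, List.cons_append, List.foldr_cons, Nat.add_eq, Nat.mul_eq] at ih ⊢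
    omega

/-- a slice of a list and the rest -/
theorem fin_gramD_drop (U : ℕ) (E : List Ent) (a n : ℕ) :
    gramD U E (E.drop a) = gramD U E ((E.drop a).take n) + gramD U E (E.drop (a + n)) := by
  rw [← fin_gramD_append, ← List.drop_drop, List.take_append_drop]

/-- a check on a slice of a list and on the rest -/
theorem fin_all_drop {p : Ent → Bool} {E : List Ent} {a n : ℕ}
    (h : ((E.drop a).take n).all p = true) (h' : (E.drop (a + n)).all p = true) :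
    (E.drop a).all p = true := by
  rw [← List.take_append_drop n (E.drop a), List.all_append, h, List.drop_drop, h']
  rfl

theorem sing_of_rows (hT3 : RowT3) (hT4 : RowT4) (hN : RowN) (hA : RowA) (hW : RowW) (hG : RowG)
    (hC : RowCert) {b : ℝ} {γ : ℂ} (hR : Roots b γ) : bernConv b⁻¹ ⟂ₘ volume := by
  obtain ⟨N, hD, h30, h31, h32⟩ := hT3 b γ hR
  have hTab := hT4 b γ hR N hD h30 h31 h32
  obtain ⟨E, U, UZ, hz, lz, S0, S1, S2, c1, c2, c3, c4, c5, c6, c7, c8, c9, c10, c11⟩ := hC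
  obtain ⟨Φ, hk, hGain, hGram, hwin⟩ :=
    hG _ hD hTab E U UZ hz lz S1 S2 c1 c2 c3 c4 c5 c6 c7 c8 c9
  obtain ⟨bb, hB, hb0, hQ⟩ := hW _ _ Φ _ (hN _ hD _ Φ).1 hGram (by rw [hk]; norm_num) hwin
  refine hA _ hD _ Φ _ _ bb hGain hB hb0 hQ ?_
  generalize (E.map fun x => x.2.2.1 * x.2.2.2).sum = A at c10
  generalize S1 + 2 * hz * S2 + hz ^ 2 * 2 ^ 31 = L at c11
  generalize hz * lz = B at c11
  have d10 : (S0 : ℝ) ≤ A := by exact_mod_cast c10
  have d11 : (20925 * 10 ^ 11 * 2 ^ 40 + 3091787 * 512 * L : ℝ) ≤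
      9999 * 10 ^ 5 * (9985 * S0 + 9940 * B) := by exact_mod_cast c11
  have e1 : (0.9999 : ℝ) * ((0.9985 * A + 0.994 * B) / (10 ^ 6 * 2 ^ 40)) -
      0.5011 * (0.617 * (L / (10 ^ 12 * 2 ^ 31))) - 0.00020925 =
      (9999 * 10 ^ 5 * (9985 * A + 9940 * B) -
        (20925 * 10 ^ 11 * 2 ^ 40 + 3091787 * 512 * L)) / (10 ^ 19 * 2 ^ 40) := by
    ring
  rw [← sub_nonneg, e1]
  exact div_nonneg (by linarith) (by positivity)

/-- every positive real root is the root of row T1 -/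
theorem roots_of_root (hT1 : RowT1) {b : ℝ} (h0 : 0 < b)
    (hb : b ^ 33 - b ^ 32 - b ^ 31 - b ^ 30 - 1 = 0) : ∃ γ, Roots b γ := by
  obtain ⟨b', γ, hR⟩ := hT1
  have h1 : b' ^ 33 - b' ^ 32 - b' ^ 31 - b' ^ 30 - 1 = 0 := by
    have h := hR.Fb
    unfold FF at h
    exact_mod_cast h
  have h2 : b = b' := root_unique h0 hb (by linarith [hR.out.b1]) h1
  exact ⟨γ, h2 ▸ hR⟩

theorem sing31_of_rows (hT1 : RowT1) (hT2 : RowT2) (hT3 : RowT3) (hT4 : RowT4) (hN : RowN)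
    (hA : RowA) (hW : RowW) (hG : RowG) (hC : RowCert) {b : ℝ} (h0 : 0 < b)
    (hb : b ^ 33 - b ^ 32 - b ^ 31 - b ^ 30 - 1 = 0) :
    IsIntegral ℤ b ∧ (minpoly ℚ b).natDegree = 31 ∧ ¬ Salem.IsPisot b ∧ ¬ Salem.IsSalem b ∧
      bernConv b⁻¹ ⟂ₘ volume := by
  obtain ⟨γ, hR⟩ := roots_of_root hT1 h0 hb
  obtain ⟨h1, h2, h3, h4⟩ := hT2 b γ hR
  exact ⟨h1, h2, h3, h4, sing_of_rows hT3 hT4 hN hA hW hG hC hR⟩

end Vale.Agent.Q105
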