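import Vale.Agent.Q105.S
import Vale.Agent.Q105.D1
import Vale.Agent.Q105.D2
import Vale.Agent.Q105.Fin

/-!
# Dimension drop: the criterion
-/

open MeasureTheory Real Filter Topology Finset
open scoped ENNReal

namespace Vale.Agent.Q105

open Vale.Agent.P105

/-- row S with a set that does not depend on the random variables -/
theorem d_rowS (hPP : IsProbabilityMeasure PP) (G : Set (ℝ × ℂ)) (R ρ α p : ℝ)
    (hG : MeasurableSet G) (hR0 : 0 ≤ R) (hρ : 0 < ρ) (hρ1 : ρ ≤ 1) (hα : 0 ≤ α) (hp : 0 < p)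
    (hv : ∀ z, volume {x | (x, z) ∈ G} ≤ ENNReal.ofReal α) :
    ∃ E : Set ℝ, MeasurableSet E ∧ volume E ≤ ENNReal.ofReal (2 * α * (R + 1) ^ 2 / (p * ρ ^ 2)) ∧
      ∀ (Y : (ℕ → Bool) → ℝ) (Z : (ℕ → Bool) → ℂ), Measurable Y → Measurable Z →
        (∀ ω, ‖Z ω‖ ≤ R) →
        (∀ η : ℂ, ‖η‖ < ρ → ENNReal.ofReal p ≤ PP {ω | (Y ω, Z ω + η) ∈ G}) →
        ENNReal.ofReal (p / 2) ≤ PP (Y ⁻¹' E) := by
  set B : Set ℂ := Metric.ball 0 (R + 1) with hB
  set b : Set ℂ := Metric.ball 0 ρ with hb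
  have mB : MeasurableSet B := Metric.isOpen_ball.measurableSet
  have mb : MeasurableSet b := Metric.isOpen_ball.measurableSet
  set G' : Set (ℝ × ℂ) := G ∩ Prod.snd ⁻¹' B with hG'
  have mG' : MeasurableSet G' := hG.inter (measurable_snd mB)
  set l : ℝ → ℝ≥0∞ := fun x => volume (Prod.mk x ⁻¹' G') with hl
  have ml : Measurable l := measurable_measure_prodMk_left mG'
  have vb : volume b = ENNReal.ofReal (π * ρ ^ 2) := s_vol ρ hρ.le
  have vB : volume B = ENNReal.ofReal (π * (R + 1) ^ 2) := s_vol _ (by linarith)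
  have hpos : 0 < π * ρ ^ 2 := by positivity
  set a : ℝ≥0∞ := ENNReal.ofReal (p / 2) * volume b with ha
  have a0 : a ≠ 0 := by
    rw [ha, vb]
    exact mul_ne_zero (ENNReal.ofReal_pos.2 (by linarith)).ne' (ENNReal.ofReal_pos.2 hpos).ne'
  have a1 : a ≠ ∞ := by
    rw [ha, vb]
    exact ENNReal.mul_ne_top ENNReal.ofReal_ne_top ENNReal.ofReal_ne_top
  have mE : MeasurableSet {x | a ≤ l x} := measurableSet_le measurable_const ml
  refine ⟨{x | a ≤ l x}, mE, ?_, ?_⟩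
  · have h1 : ∫⁻ x, l x ≤ ENNReal.ofReal α * volume B := by
      rw [hl, ← Measure.prod_apply mG', Measure.prod_apply_symm mG', ← lintegral_indicator_const mB]
      refine lintegral_mono fun z => ?_
      by_cases hz : z ∈ B
      · rw [Set.indicator_of_mem hz]
        exact (measure_mono fun x hx => hx.1).trans (hv z)
      · rw [Set.indicator_of_notMem hz]
        have : (fun x : ℝ => (x, z)) ⁻¹' G' = ∅ :=
          Set.eq_empty_of_forall_notMem fun x hx => hz hx.2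
        simp [this]
    have h2 := (mul_meas_ge_le_lintegral₀ (μ := volume) ml.aemeasurable a).trans h1
    have h3 : ENNReal.ofReal α * volume B =
        a * ENNReal.ofReal (2 * α * (R + 1) ^ 2 / (p * ρ ^ 2)) := by
      rw [ha, vb, vB, ← ENNReal.ofReal_mul hα, ← ENNReal.ofReal_mul (by linarith),
        ← ENNReal.ofReal_mul (by positivity)]
      congr 1
      field_simp
    rw [h3] at h2
    exact (ENNReal.mul_le_mul_iff_right a0 a1).1 h2
  · intro Y Z hY hZ hR hP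
    set H : Set ((ℕ → Bool) × ℂ) :=
      (fun q => (Y q.1, Z q.1 + q.2)) ⁻¹' G ∩ Prod.snd ⁻¹' b with hH
    have mH : MeasurableSet H :=
      (((hY.comp measurable_fst).prodMk
        ((hZ.comp measurable_fst).add measurable_snd)) hG).inter (measurable_snd mb)
    have h1 : ENNReal.ofReal p * volume b ≤ (PP.prod volume) H := by
      rw [Measure.prod_apply_symm mH, ← lintegral_indicator_const mb]
      refine lintegral_mono fun η => ?_
      by_cases hη : η ∈ b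
      · rw [Set.indicator_of_mem hη]
        exact (hP η (mem_ball_zero_iff.1 hη)).trans (measure_mono fun ω hω => ⟨hω, hη⟩)
      · rw [Set.indicator_of_notMem hη]
        exact zero_le
    have h2 : (PP.prod volume) H ≤ volume b * PP (Y ⁻¹' {x | a ≤ l x}) + a := by
      have h4 : ∫⁻ ω, ((Y ⁻¹' {x | a ≤ l x}).indicator (fun _ => volume b) ω + a) ∂PP =
          volume b * PP (Y ⁻¹' {x | a ≤ l x}) + a := by
        rw [lintegral_add_right _ measurable_const, lintegral_indicator_const (hY mE)]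
        simp
      rw [Measure.prod_apply mH, ← h4]
      refine lintegral_mono fun ω => ?_
      by_cases hω : ω ∈ Y ⁻¹' {x | a ≤ l x}
      · rw [Set.indicator_of_mem hω]
        exact (measure_mono fun η hη => hη.2).trans le_self_add
      · rw [Set.indicator_of_notMem hω, zero_add]
        have h5 : l (Y ω) ≤ a := (not_le.1 hω).le
        refine le_trans ?_ h5
        rw [hl]
        dsimp only
        rw [← measure_preimage_add volume (Z ω) (Prod.mk (Y ω) ⁻¹' G')]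
        refine measure_mono fun η hη => ⟨hη.1, ?_⟩
        have h6 : ‖η‖ < ρ := mem_ball_zero_iff.1 hη.2
        refine mem_ball_zero_iff.2 ?_
        exact (norm_add_le _ _).trans_lt (by linarith [hR ω])
    have h3 : ENNReal.ofReal p * volume b = a + a := by
      rw [ha, ← add_mul, ← ENNReal.ofReal_add (by linarith) (by linarith), add_halves]
    have h7 := h1.trans h2
    rw [h3, ENNReal.add_le_add_iff_right a1] at h7
    have h8 : volume b * ENNReal.ofReal (p / 2) ≤ volume b * PP (Y ⁻¹' {x | a ≤ l x}) := by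
      rw [mul_comm]
      exact h7
    refine (ENNReal.mul_le_mul_iff_right ?_ ?_).1 h8
    · rw [vb]
      exact (ENNReal.ofReal_pos.2 hpos).ne'
    · rw [vb]
      exact ENNReal.ofReal_ne_top

/-- one level: a small set which all small translates of the first coordinate visit often -/
lemma d_level (hP : IsProbabilityMeasure PP) (hH : RowH)
    (Y : (ℕ → Bool) → ℝ) (Z : (ℕ → Bool) → ℂ) (hY : Measurable Y) (hZ : Measurable Z)
    (hYb : ∀ ω, |Y ω| ≤ 2.5) (hZb : ∀ ω, ‖Z ω‖ ≤ 10000) (ρ r : ℝ) (hρ : 0 < ρ) (hρ1 : ρ ≤ 1)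
    (hr : r ≤ 0.5) (n : ℕ) (hn : 1 ≤ n) (δ : ℝ) (N : ℕ) (T : ℂ → ℝ → ℝ)
    (hN : (N : ℝ) * δ ^ 2 ≤ 10 ^ 25 + 1)
    (hT : Continuous fun p : ℝ × ℂ => T p.2 p.1) (hTb : ∀ z x, |T z x| ≤ n)
    (hI : ∀ s : ℝ, |s| ≤ r → ∀ η : ℂ, ‖η‖ < ρ →
      Integrable (fun ω => T (Z ω + η) (Y ω + s) -
        Rm δ ((1 + 1 / 1000) / 2) N (T (Z ω + η)) (Y ω + s)) PP ∧
      (n : ℝ) * 0.00020924 ≤ ∫ ω, (T (Z ω + η) (Y ω + s) -
        Rm δ ((1 + 1 / 1000) / 2) N (T (Z ω + η)) (Y ω + s)) ∂PP) :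
    ∃ E : Set ℝ, MeasurableSet E ∧
      volume E ≤ ENNReal.ofReal (2 * (10 * exp (3 - n * 0.00020922 + (10 ^ 25 + 1) * 1001 / 2)) *
        ((10000 : ℝ) + 1) ^ 2 / (1 / 10 ^ 8 * ρ ^ 2)) ∧
      ∀ s : ℝ, |s| ≤ r → ENNReal.ofReal (1 / 10 ^ 8 / 2) ≤ PP {ω | Y ω + s ∈ E} := by
  obtain ⟨hH1, hH2, hH3⟩ := hH
  have hn0 : (0 : ℝ) < n := by exact_mod_cast hn
  have hRc := hH3 δ ((1 + 1 / 1000) / 2) N T hT
  have hG : MeasurableSet {p : ℝ × ℂ | |p.1| ≤ 3 ∧ (n : ℝ) * 0.00020922 ≤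
      T p.2 p.1 - Rm δ ((1 + 1 / 1000) / 2) N (T p.2) p.1} := by
    refine IsClosed.measurableSet ?_
    refine IsClosed.inter (s₁ := {p : ℝ × ℂ | |p.1| ≤ 3}) ?_ ?_
    · exact isClosed_le (continuous_fst.abs) continuous_const
    · exact isClosed_le continuous_const (hT.sub hRc)
  obtain ⟨E, hE1, hE2, hE3⟩ := d_rowS hP _ 10000 ρ
    (10 * exp (3 - n * 0.00020922 + (10 ^ 25 + 1) * 1001 / 2)) (1 / 10 ^ 8) hG (by norm_num) hρ hρ1
    (by positivity) (by norm_num) (fun z => by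
      have hc : Continuous (T z) := hT.comp (continuous_id.prodMk continuous_const)
      refine (hH1 δ (1 / 1000) 3 (n * 0.00020922) N (T z) (by norm_num) hc).trans ?_
      refine ENNReal.ofReal_le_ofReal ?_
      refine mul_le_mul_of_nonneg_left (Real.exp_le_exp.2 ?_) (by norm_num)
      have e : (N : ℝ) * (1 + 1 / (1 / 1000)) * δ ^ 2 / 2 = (N * δ ^ 2) * 1001 / 2 := by ring
      rw [e]
      linarith)
  refine ⟨E, hE1, hE2, fun s hs => hE3 (fun ω => Y ω + s) Z (hY.add_const s) hZ hZb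
    fun η hη => ?_⟩
  obtain ⟨hI1, hI2⟩ := hI s hs η hη
  have hm : Measurable fun ω => (Y ω + s, Z ω + η) := (hY.add_const s).prodMk (hZ.add_const η)
  have hSm := hm hG
  have key := a_revMarkov PP _ hI1 _ hSm (n * 0.00020922) (2 * n) _ (by positivity)
    (fun ω => by
      have h1 := (abs_le.1 (hTb (Z ω + η) (Y ω + s))).2
      have h2 := hH2 δ ((1 + 1 / 1000) / 2) n N (T (Z ω + η)) (by norm_num)
        (hTb (Z ω + η)) (Y ω + s)
      linarith)
    (fun ω hω => by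
      by_contra hlt
      exact hω ⟨(abs_add_le _ _).trans (by linarith [hYb ω]), (not_le.1 hlt).le⟩) hI2
  rw [ENNReal.ofReal_le_iff_le_toReal (measure_ne_top _ _)]
  have key2 : (n : ℝ) * (2 * (1 / 10 ^ 8)) ≤ n * (2 * PP.real
      ((fun ω => (Y ω + s, Z ω + η)) ⁻¹'
      {p : ℝ × ℂ | |p.1| ≤ 3 ∧ (n : ℝ) * 0.00020922 ≤
        T p.2 p.1 - Rm δ ((1 + 1 / 1000) / 2) N (T p.2) p.1})) := by
    linarith
  have key3 := le_of_mul_le_mul_left key2 hn0
  have key4 := le_of_mul_le_mul_left key3 (by norm_num : (0 : ℝ) < 2)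
  exact key4

lemma d_Y_le {l : ℝ} (h0 : 0 ≤ l) (h1 : l ≤ 0.6) (ω : ℕ → Bool) :
    |∑' i, sgn (ω i) * l ^ i| ≤ 2.5 := by
  have hl : l < 1 := by linarith
  have hs := hasSum_geometric_of_lt_one h0 hl
  have hb : ∀ i, ‖sgn (ω i) * l ^ i‖ ≤ l ^ i := by
    intro i
    rw [Real.norm_eq_abs, abs_mul, a_abs_sgn, one_mul, abs_of_nonneg (pow_nonneg h0 i)]
  have h2 := tsum_of_norm_bounded hs hb
  rw [Real.norm_eq_abs] at h2
  refine h2.trans ?_
  rw [inv_le_comm₀ (by linarith) (by norm_num)]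
  linarith

/-- the criterion of row A gives the dimension drop -/
theorem d_crit (hCF : RowCF) (hH : RowH) (hE : RowE) (hK : RowK) (hN : RowN) (D : Dat)
    (hD : D.Good) (J : Type) [Fintype J] (Φ : Fam D J) (G Q : ℝ) (bb : ℕ → ℝ) (hG : Φ.Gain G)
    (hB : Φ.Bil bb) (hbb : ∀ d, 0 ≤ bb d)
    (hQ : ∀ n, bb 0 + 2 * ∑ d ∈ range n, bb (d + 1) * Kr (0.54369 ^ (d + 1)) ≤ Q)
    (hc : 0.00020925 ≤ 0.9999 * G - 0.5011 * Q) : hdim (bernConv D.b⁻¹) < 1 := by
  obtain ⟨-, hZ, hZb, -⟩ := hN D hD J Φ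
  have hb1 := hD.out.b1
  have hb2 := hD.out.b2
  have hb0 : 0 < D.b := by linarith
  have hl0 : 0 < D.b⁻¹ := inv_pos.2 hb0
  have hl6 : D.b⁻¹ ≤ 0.6 := by
    rw [inv_le_comm₀ hb0 (by norm_num)]
    linarith
  have hl1 : D.b⁻¹ < 1 := by linarith
  have hY := Salem.YY_meas hl0 hl1
  have hg1 : 1 ≤ ‖D.γ‖ := by
    have := hD.out.n1
    nlinarith [norm_nonneg D.γ]
  have hg2 : ‖D.γ‖ ^ 2 ≤ exp 0.00020921 := a_gamma_sq hD.out.n2
  refine d_dim hl0 hl1 (q := 1 / 10 ^ 8 / 4) (c := 1 / 10 ^ 8 / 2)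
    (C := 20 * exp (3 + (10 ^ 25 + 1) * 1001 / 2) * 10001 ^ 2 * 10 ^ 12 *
      exp (Φ.k0 * 0.00020921)) (r₀ := 0.005 / D.b ^ (Φ.k0 + 1)) (by norm_num) (by positivity)
    (by norm_num) (by norm_num) (by positivity) fun n => ?_
  obtain ⟨δ, N, T, hN', hT, hTb, hI⟩ :=
    d1_main hCF hE hK hN D hD J Φ G Q bb hG hB hbb hQ hc (n + 1)
  have hp1 : 1 ≤ ‖D.γ‖ ^ (Φ.k0 + (n + 1)) := one_le_pow₀ hg1
  have hq1 : 1 ≤ D.b ^ (Φ.k0 + (n + 1)) := one_le_pow₀ (by linarith)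
  have hρ : (0 : ℝ) < 0.01 / ‖D.γ‖ ^ (Φ.k0 + (n + 1)) := by positivity
  have hρ1 : (0.01 : ℝ) / ‖D.γ‖ ^ (Φ.k0 + (n + 1)) ≤ 1 := by
    rw [div_le_one (by linarith)]
    linarith
  have hr1 : (0.005 : ℝ) / D.b ^ (Φ.k0 + (n + 1)) ≤ 0.5 := by
    rw [div_le_iff₀ (by linarith)]
    linarith
  obtain ⟨E, hEm, hEv, hEp⟩ := d_level hCF.1 hH _ _ hY hZ (d_Y_le hl0.le hl6) hZb _ _ hρ hρ1 hr1
    (n + 1) (by omega) δ N T hN' hT hTb hI
  refine ⟨E, hEm, hEv.trans (ENNReal.ofReal_le_ofReal ?_), fun s hs0 hs => ?_⟩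
  · refine (a_vol _ _ Φ.k0 (n + 1) hg1 hg2).trans (mul_le_mul_of_nonneg_left ?_ (by positivity))
    refine exp_le_exp.2 ?_
    push_cast
    linarith
  · rw [← ENNReal.ofReal_add (by norm_num) (by norm_num)]
    refine le_trans (ENNReal.ofReal_le_ofReal (by norm_num)) (hEp s ?_)
    rw [abs_of_nonneg hs0]
    refine hs.le.trans ?_
    have h1 : D.b ^ n ≤ exp n := by
      rw [← exp_one_pow]
      exact pow_le_pow_left₀ hb0.le (by linarith [add_one_le_exp (1 : ℝ)]) n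
    have h2 : 0 < D.b ^ n := pow_pos hb0 n
    rw [exp_neg, show Φ.k0 + (n + 1) = Φ.k0 + 1 + n by omega, pow_add _ _ n, ← div_div,
      div_eq_mul_inv _ (D.b ^ n)]
    exact mul_le_mul_of_nonneg_left (inv_anti₀ h2 h1) (by positivity)

theorem dim_of_rows (hCF : RowCF) (hH : RowH) (hE : RowE) (hK : RowK) (hT1 : RowT1)
    (hT3 : RowT3) (hT4 : RowT4) (hN : RowN) (hW : RowW) (hG : RowG) (hC : RowCert) {b : ℝ}
    (h0 : 0 < b) (hb : b ^ 33 - b ^ 32 - b ^ 31 - b ^ 30 - 1 = 0) : hdim (bernConv b⁻¹) < 1 := by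
  obtain ⟨γ, hR⟩ := roots_of_root hT1 h0 hb
  obtain ⟨N, hD, h30, h31, h32⟩ := hT3 b γ hR
  have hTab := hT4 b γ hR N hD h30 h31 h32
  obtain ⟨E, U, UZ, hz, lz, S0, S1, S2, c1, c2, c3, c4, c5, c6, c7, c8, c9, c10, c11⟩ := hC
  obtain ⟨Φ, hk, hGain, hGram, hwin⟩ :=
    hG _ hD hTab E U UZ hz lz S1 S2 c1 c2 c3 c4 c5 c6 c7 c8 c9
  obtain ⟨bb, hB, hb0, hQ⟩ := hW _ _ Φ _ (hN _ hD _ Φ).1 hGram (by rw [hk]; norm_num) hwin
  have key := d_crit hCF hH hE hK hN _ hD _ Φ _ _ bb hGain hB hb0 hQ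
  refine key ?_
  generalize (E.map fun x => x.2.2.1 * x.2.2.2).sum = A at c10
  generalize S1 + 2 * hz * S2 + hz ^ 2 * 2 ^ 31 = L at c11
  generalize hz * lz = B at c11
  have d10 : (S0 : ℝ) ≤ A := by exact_mod_cast c10
  have d11 : (20925 * 10 ^ 11 * 2 ^ 40 + 3091787 * 512 * L : ℝ) ≤
      9999 * 10 ^ 5 * (9985 * S0 + 9940 * B) := by exact_mod_cast c11
  have e1 : (0.9999 : ℝ) * ((0.9985 * A + 0.994 * B) / (10 ^ 6 * 2 ^ 40)) -
      0.5011 * (0.617 * (L / (10 ^ 12 * 2 ^ 31))) - 0.00020925 =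
      (9999 * 10 ^ 5 * (9985 * A + 9940 * B) -
        (20925 * 10 ^ 11 * 2 ^ 40 + 3091787 * 512 * L)) / (10 ^ 19 * 2 ^ 40) := by
    ring
  rw [← sub_nonneg, e1]
  exact div_nonneg (by linarith) (by positivity)

end Vale.Agent.Q105
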