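import Vale.Agent.P105.SalemDefs
import Vale.Agent.Q105.Data

/-!
# A singular Bernoulli convolution of degree 31: definitions and statements of the rows
-/

open MeasureTheory Real Filter Topology Finset
open scoped ENNReal

namespace Vale.Agent.Q105

open Vale.Agent.P105

/-- independent fair coins -/
noncomputable def PP : Measure (ℕ → Bool) := Measure.infinitePi fun _ : ℕ => coin

/-- the random sum `∑ ± a i` -/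
noncomputable def ph (a : ℕ → ℝ) (ω : ℕ → Bool) : ℝ := ∑' i, sgn (ω i) * a i

/-- `exp (i t)` -/
noncomputable def ei (t : ℝ) : ℂ := Complex.exp (t * Complex.I)

/-- the character `exp (i π ∑ ± a i)` -/
noncomputable def chi (a : ℕ → ℝ) (ω : ℕ → Bool) : ℂ := ei (π * ph a ω)

/-- its mean -/
noncomputable def amp (a : ℕ → ℝ) : ℝ := ∫ ω, cos (π * ph a ω) ∂PP

/-- Row CF: the mean of a character is the product of the cosines. -/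
def RowCF : Prop :=
  IsProbabilityMeasure PP ∧ (∀ a, amp (-a) = amp a) ∧ (∀ a ω, chi (-a) ω = (starRingEnd ℂ) (chi a ω)) ∧
  ∀ a : ℕ → ℝ, Summable a →
    Measurable (ph a) ∧ Measurable (chi a) ∧ (∫ ω, chi a ω ∂PP = (amp a : ℂ)) ∧
    (∀ a', Summable a' → ∀ ω, chi (a + a') ω = chi a ω * chi a' ω) ∧
    (∀ S : Finset ℕ, amp a = (∏ i ∈ S, cos (π * a i)) * amp fun i => if i ∈ S then 0 else a i) ∧
    (∀ S : Finset ℕ, |amp a| ≤ ∏ i ∈ S, |cos (π * a i)|) ∧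
    ∀ A : ℝ, (∀ M, A ≤ ∏ i ∈ range M, |cos (π * a i)|) → A ≤ |amp a|

/-- the window factor -/
noncomputable def wf (β : ℝ) (S : Finset ℕ) (C : ℕ → ℝ) : ℝ :=
  ∏ i ∈ S, (|cos (π * C i)| * (1 + (π * β) ^ 2) + 2 * (π * β) * |sin (π * C i)|) / cos (2 * π * β)

/-- Row B: the bilinear bound with windows. -/
def RowB : Prop :=
  ∀ (J : Type) [Fintype J] (h : J → ℝ) (a a' : J → ℕ → ℝ) (S S' : Finset ℕ) (A A' : ℕ → ℝ)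
    (β Λ p p' : ℝ) (u u' : J → ℂ),
    (∀ j, 0 ≤ h j) → (∀ j, Summable (a j)) → (∀ j, Summable (a' j)) → 0 ≤ β → β ≤ 1 / 8 →
    0 ≤ p → 0 ≤ p' →
    (∀ j, ∀ i ∈ S ∪ S', |a j i - A i| ≤ β) → (∀ j, ∀ i ∈ S ∪ S', |a' j i - A' i| ≤ β) →
    ∑ j, ∑ j', h j * h j' * |amp (a j - a j')| ≤ Λ →
    ∑ j, ∑ j', h j * h j' * |amp (a' j - a' j')| ≤ Λ →
    (∀ j, ‖u j‖ ≤ p * h j) → (∀ j, ‖u' j‖ ≤ p' * h j) →
    |∫ ω, (∑ j, u j * chi (a j) ω).re * (∑ j, u' j * chi (a' j) ω).re ∂PP| ≤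
      p * p' * (Λ / 2 * (wf β S (A + A') + wf β S' (A - A')))

/-- mean of the two translates -/
noncomputable def Pw (δ : ℝ) (f : ℝ → ℝ) (x : ℝ) : ℝ := (f (x + δ) + f (x - δ)) / 2

/-- half difference of the two translates -/
noncomputable def Qw (δ : ℝ) (f : ℝ → ℝ) (x : ℝ) : ℝ := (f (x + δ) - f (x - δ)) / 2

/-- the compensator along `N` steps of the walk -/
noncomputable def Rm (δ c : ℝ) : ℕ → (ℝ → ℝ) → ℝ → ℝ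
  | 0, f => f
  | N + 1, f => Pw δ fun x => Rm δ c N (Pw δ f) x + c * Qw δ f x ^ 2

/-- Row H: the exponential inequality for Lebesgue measure. -/
def RowH : Prop :=
  (∀ (δ κ R t : ℝ) (N : ℕ) (f : ℝ → ℝ), 0 < κ → Continuous f →
    volume {x : ℝ | |x| ≤ R ∧ t ≤ f x - Rm δ ((1 + κ) / 2) N f x} ≤
      ENNReal.ofReal (10 * exp (R - t + N * (1 + 1 / κ) * δ ^ 2 / 2))) ∧
  (∀ (δ c M : ℝ) (N : ℕ) (f : ℝ → ℝ), 0 ≤ c → (∀ x, |f x| ≤ M) → ∀ x, -M ≤ Rm δ c N f x) ∧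
  ∀ (δ c : ℝ) (N : ℕ) (f : ℂ → ℝ → ℝ), (Continuous fun p : ℝ × ℂ => f p.2 p.1) →
    Continuous fun p : ℝ × ℂ => Rm δ c N (f p.2) p.1

/-- a trigonometric sum -/
noncomputable def trig {K J : Type} [Fintype K] [Fintype J] (w : K → J → ℝ) (u : K → J → ℂ)
    (x : ℝ) : ℝ := ∑ k, ∑ j, (u k j * ei (w k j * x)).re

/-- the kernel of a pair of levels -/
noncomputable def ker (N : ℕ) (c s c' s' : ℝ) : ℝ :=
  ∑ i ∈ range N, (c * c') ^ i * (s * s') * (c * c' + s * s') ^ (i + 1)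

/-- Row E: the mean of the compensator of a random trigonometric sum. -/
def RowE : Prop :=
  ∀ (K J : Type) [Fintype K] [Fintype J] (δ c : ℝ) (N : ℕ) (w : K → J → ℝ) (h : J → ℝ)
    (U Ψ : K → J → (ℕ → Bool) → ℂ) (Y : (ℕ → Bool) → ℝ) (cb sb : K → ℝ) (bb : K → K → ℝ)
    (u₀ : K → J → ℂ),
    0 ≤ c → (∀ j, 0 ≤ h j) → (∀ k j ω, Ψ k j ω = U k j ω * ei (w k j * Y ω)) →
    (∀ k j, Measurable (Ψ k j)) → (∀ k j ω, ‖Ψ k j ω‖ ≤ 1) →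
    (∀ k j, |cos (w k j * δ)| ≤ cb k) → (∀ k j, |sin (w k j * δ)| ≤ sb k) →
    (∀ k, 0 ≤ cb k) → (∀ k, 0 ≤ sb k) → (∀ k j, ‖u₀ k j‖ ≤ h j) →
    (∀ (k k' : K) (u u' : J → ℂ) (p p' : ℝ), 0 ≤ p → 0 ≤ p' → (∀ j, ‖u j‖ ≤ p * h j) →
      (∀ j, ‖u' j‖ ≤ p' * h j) →
      |∫ ω, (∑ j, u j * Ψ k j ω).re * (∑ j, u' j * Ψ k' j ω).re ∂PP| ≤ p * p' * bb k k') →
    Integrable (fun ω => Rm δ c N (trig w fun k j => u₀ k j * U k j ω) (Y ω)) PP ∧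
    ∫ ω, Rm δ c N (trig w fun k j => u₀ k j * U k j ω) (Y ω) ∂PP ≤
      ∑ k, cb k ^ (2 * N) * ∑ j, h j +
        c * ∑ k, ∑ k', bb k k' * ker N (cb k) (sb k) (cb k') (sb k')

/-- the limit kernel -/
noncomputable def Kr (r : ℝ) : ℝ := r / (1 - r + r ^ 2)

/-- upper bound for the cosine multipliers of a level -/
noncomputable def cbar (x : ℝ) : ℝ := cos (x * (1 - 1 / 10 ^ 6))

/-- upper bound for the sine multipliers of a level -/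
noncomputable def sbar (x : ℝ) : ℝ := x * (1 + 1 / 10 ^ 6)

/-- Row K: bounds for the kernel. -/
def RowK : Prop :=
  (∀ x W : ℝ, 0 < x → x ≤ 1 / 1000 → |W - 1| ≤ 1 / 10 ^ 6 →
    |cos (x * W)| ≤ cbar x ∧ |sin (x * W)| ≤ sbar x) ∧
  (∀ x : ℝ, 0 < x → x ≤ 1 / 1000 → 0 ≤ cbar x ∧ 0 ≤ sbar x ∧
    ∀ N : ℕ, 0 < N → cbar x ^ (2 * N) ≤ 2 / (N * x ^ 2)) ∧
  ∀ (x x' r : ℝ) (N : ℕ), 0 < x' → x ≤ 1 / 1000 → x' ≤ r * x → 0 < r → r ≤ 1 →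
    ker N (cbar x) (sbar x) (cbar x') (sbar x') ≤ 1.001 * Kr r ∧
    ker N (cbar x') (sbar x') (cbar x) (sbar x) ≤ 1.001 * Kr r

/-- Row S: elimination of the hidden coordinate. -/
def RowS : Prop :=
  ∀ (Y : (ℕ → Bool) → ℝ) (Z : (ℕ → Bool) → ℂ) (G : Set (ℝ × ℂ)) (R ρ α p : ℝ),
    Measurable Y → Measurable Z → MeasurableSet G → (∀ ω, ‖Z ω‖ ≤ R) → 0 < ρ → ρ ≤ 1 →
    0 ≤ α → 0 < p → (∀ z, volume {x | (x, z) ∈ G} ≤ ENNReal.ofReal α) →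
    (∀ η : ℂ, ‖η‖ < ρ → ENNReal.ofReal p ≤ PP {ω | (Y ω, Z ω + η) ∈ G}) →
    ∃ E : Set ℝ, MeasurableSet E ∧ volume E ≤ ENNReal.ofReal (2 * α * (R + 1) ^ 2 / (p * ρ ^ 2)) ∧
      ENNReal.ofReal (p / 2) ≤ PP (Y ⁻¹' E)

/-- the algebraic data: the real root, the outer complex root, the residues, the integers -/
structure Dat where
  b : ℝ
  c : ℝ
  γ : ℂ
  r : ℂ
  N : ℤ → ℤ

/-- the reduced sequence -/
noncomputable def Dat.y (D : Dat) (m : ℤ) : ℝ :=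
  D.c * D.b ^ m + 2 * (D.r * D.γ ^ m).re - D.N m

/-- low precision facts on the two outer roots -/
structure Outer (b : ℝ) (γ : ℂ) : Prop where
  b1 : 1.8392867 ≤ b
  b2 : b ≤ 1.8392868
  re : |γ.re + 0.6480873023| ≤ 1 / 10 ^ 9
  im : |γ.im - 0.7617033928| ≤ 1 / 10 ^ 9
  n1 : 1.00020920 ≤ ‖γ‖ ^ 2
  n2 : ‖γ‖ ^ 2 ≤ 1.00020922

/-- the facts on the data that the analysis uses -/
structure Dat.Good (D : Dat) : Prop where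
  out : Outer D.b D.γ
  c1 : 1 / 10 ^ 8 ≤ D.c
  c2 : D.c ≤ 2 / 10 ^ 8
  r2 : ‖D.r‖ ≤ 0.013
  N0 : ∀ m ≤ 29, D.N m = 0
  dec : ∀ m : ℕ, 1 ≤ m → |D.y m| ≤ 5 * 0.9936 ^ m
  step : ∀ m : ℤ, D.y (m + 33) = D.y (m + 32) + D.y (m + 31) + D.y (m + 30) + D.y m -
    if -3 ≤ m ∧ m ≤ -1 then 1 else 0

/-- `F = X ^ 33 - X ^ 32 - X ^ 31 - X ^ 30 - 1` -/
def FF (z : ℂ) : ℂ := z ^ 33 - z ^ 32 - z ^ 31 - z ^ 30 - 1

/-- the residue of `(X ^ 2 + X + 1) / F` -/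
noncomputable def res (z : ℂ) : ℂ :=
  (z ^ 2 + z + 1) / (33 * z ^ 32 - 32 * z ^ 31 - 31 * z ^ 30 - 30 * z ^ 29)

/-- the location of the roots of `F` -/
structure Roots (b : ℝ) (γ : ℂ) : Prop where
  out : Outer b γ
  Fb : FF b = 0
  Fγ : FF γ = 0
  all : ∀ z, FF z = 0 → z = b ∨ z = γ ∨ z = (starRingEnd ℂ) γ ∨ z ^ 2 + z + 1 = 0 ∨ ‖z‖ ≤ 0.9936

/-- Row T1: the roots exist. -/
def RowT1 : Prop := ∃ b γ, Roots b γ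

/-- Row T2: degree 31, neither Pisot nor Salem. -/
def RowT2 : Prop :=
  ∀ b γ, Roots b γ → IsIntegral ℤ b ∧ (minpoly ℚ b).natDegree = 31 ∧ ¬ Salem.IsPisot b ∧
    ¬ Salem.IsSalem b

/-- Row T3: partial fractions. -/
def RowT3 : Prop :=
  ∀ b γ, Roots b γ → ∃ N : ℤ → ℤ, Dat.Good ⟨b, (res b).re, γ, res γ, N⟩ ∧
    N 30 = 1 ∧ N 31 = 2 ∧ N 32 = 4

/-- Row I: the slowly decaying tail. -/
def RowI : Prop :=
  ∀ (b : ℝ) (γ : ℂ), Outer b γ → ∀ (β : ℝ) (ζ : ℂ) (v : ℕ → ℝ), |β| ≤ 1 / 10 ^ 7 → ‖ζ‖ ≤ 0.06 →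
    (∀ t, v t = β * b⁻¹ ^ t + 2 * (ζ * γ⁻¹ ^ t).re) →
    (∀ X Y : ℝ, |v 0 + 0.6480873023 * v 1| + 1 / 10 ^ 6 ≤ X → |v 1| + 1 / 10 ^ 6 ≤ Y →
      1.7236 * X ^ 2 + Y ^ 2 ≤ 2 / 10 ^ 4 → ∀ M,
      exp (-(11815 * (1.7236 * X ^ 2 + Y ^ 2) + 1 / 10 ^ 5)) ≤
        ∏ t ∈ range M, |cos (π * v (t + 1))|) ∧
    ∀ X Y : ℝ, 0 ≤ X → 0 ≤ Y → (X ≤ max 0 (|v 0 + 0.6480873023 * v 1| - 1 / 10 ^ 6)) →
      (Y ≤ max 0 (|v 1| - 1 / 10 ^ 6)) →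
      ∏ t ∈ range 60000, |cos (π * v (t + 1))| ≤
        exp (-(11785 * (1.7235 * X ^ 2 + Y ^ 2)) + 1 / 10 ^ 5)

/-- a finite family of characters with its certified bounds -/
structure Fam (D : Dat) (J : Type) [Fintype J] where
  h : J → ℝ
  Wb : J → ℝ
  Wg : J → ℂ
  n : J → ℤ → ℤ
  v : J → ℤ → ℝ
  k0 : ℕ
  h0 : ∀ j, 0 ≤ h j
  h1 : ∑ j, h j ≤ 1
  hv : ∀ j m, v j m = D.c * Wb j * D.b ^ m + 2 * (D.r * Wg j * D.γ ^ m).re - n j m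
  hn : ∀ j, ∀ m ≤ 0, n j m = 0
  hb : ∀ j, |Wb j - 1| ≤ 1 / 10 ^ 6
  hg : ∀ j, ‖Wg j‖ ≤ 4

/-- the phases of the character `j` at level `k` -/
def Fam.a {D : Dat} {J : Type} [Fintype J] (Φ : Fam D J) (k : ℕ) (j : J) (i : ℕ) : ℝ :=
  Φ.v j ((k : ℤ) - i)

/-- lower bound for the gain -/
def Fam.Gain {D : Dat} {J : Type} [Fintype J] (Φ : Fam D J) (G : ℝ) : Prop :=
  ∀ k, Φ.k0 ≤ k → G ≤ ∑ j, Φ.h j * |amp (Φ.a k j)|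

/-- upper bound for the Gram form -/
def Fam.Gram {D : Dat} {J : Type} [Fintype J] (Φ : Fam D J) (Λ : ℝ) : Prop :=
  ∀ k, Φ.k0 ≤ k → ∑ j, ∑ j', Φ.h j * Φ.h j' * |amp (Φ.a k j - Φ.a k j')| ≤ Λ

/-- bilinear bounds between the levels `k` and `k + d` -/
def Fam.Bil {D : Dat} {J : Type} [Fintype J] (Φ : Fam D J) (bb : ℕ → ℝ) : Prop :=
  ∀ k d, Φ.k0 ≤ k → ∀ (u u' : J → ℂ) (p p' : ℝ), 0 ≤ p → 0 ≤ p' → (∀ j, ‖u j‖ ≤ p * Φ.h j) →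
    (∀ j, ‖u' j‖ ≤ p' * Φ.h j) →
    |∫ ω, (∑ j, u j * chi (Φ.a (k + d) j) ω).re * (∑ j, u' j * chi (Φ.a k j) ω).re ∂PP| ≤
      p * p' * bb d

/-- Row N: the characters of a family as functions of the two coordinates. -/
def RowN : Prop :=
  ∀ (D : Dat), D.Good → ∀ (J : Type) [Fintype J] (Φ : Fam D J),
    (∀ k j, Summable (Φ.a k j)) ∧
    (Measurable fun ω : ℕ → Bool => ∑' i, (sgn (ω i) : ℂ) * D.γ⁻¹ ^ i) ∧
    (∀ ω : ℕ → Bool, ‖∑' i, (sgn (ω i) : ℂ) * D.γ⁻¹ ^ i‖ ≤ 10000) ∧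
    ∀ k j, ∃ φ : ℝ, ∀ ω : ℕ → Bool, chi (Φ.a k j) ω =
      ei ((2 * π * D.r * Φ.Wg j * D.γ ^ k * ∑' i, (sgn (ω i) : ℂ) * D.γ⁻¹ ^ i).re - φ) *
        ei (π * D.c * Φ.Wb j * D.b ^ k * ∑' i, sgn (ω i) * D.b⁻¹ ^ i)

/-- Row A: the criterion. -/
def RowA : Prop :=
  ∀ (D : Dat), D.Good → ∀ (J : Type) [Fintype J] (Φ : Fam D J) (G Q : ℝ) (bb : ℕ → ℝ),
    Φ.Gain G → Φ.Bil bb → (∀ d, 0 ≤ bb d) →
    (∀ n, bb 0 + 2 * ∑ d ∈ range n, bb (d + 1) * Kr (0.54369 ^ (d + 1)) ≤ Q) →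
    0.00020925 ≤ 0.9999 * G - 0.5011 * Q → bernConv D.b⁻¹ ⟂ₘ volume

/-- the centres of the window: `yh[m - 12] / 10 ^ 5`, `m = 12, …, 48` -/
def yh : List ℤ := [-121, 131, -35, -61, 159, -62, 74, 246, 121, 542, 914, 1469, 3059, 5375, 9854,
  18418, 33529, 61826, 13860, 9077, -15145, 7810, 1626, -5577, 3805, -207, -1846, 1641, -400, -508,
  595, -231, -111, 132, -79, -92, -100]

/-- Row W: the bilinear bounds follow from the Gram bound. -/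
def RowW : Prop :=
  ∀ (D : Dat) (J : Type) [Fintype J] (Φ : Fam D J) (Λ : ℝ), (∀ k j, Summable (Φ.a k j)) →
    Φ.Gram Λ → 48 ≤ Φ.k0 →
    (∀ j, ∀ i < 37, |Φ.v j ((12 + i : ℕ) : ℤ) - (yh.getD i 0 : ℝ) / 10 ^ 5| ≤ 0.0087) →
    ∃ bb : ℕ → ℝ, Φ.Bil bb ∧ (∀ d, 0 ≤ bb d) ∧
      ∀ n, bb 0 + 2 * ∑ d ∈ range n, bb (d + 1) * Kr (0.54369 ^ (d + 1)) ≤ 0.617 * Λ

/-- the table is correct -/
def Tab (D : Dat) : Prop :=
  ∀ i < 3102, |D.y ((i : ℕ) - 1301) + 1 - (TT.getD i 0 : ℝ) / 2 ^ 40| ≤ 1 / 2 ^ 40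

/-- Row T4: verification of the table. -/
def RowT4 : Prop :=
  ∀ b γ, Roots b γ → ∀ N : ℤ → ℤ, Dat.Good ⟨b, (res b).re, γ, res γ, N⟩ →
    N 30 = 1 → N 31 = 2 → N 32 = 4 → Tab ⟨b, (res b).re, γ, res γ, N⟩

/-- Row TAU: the far tail. -/
def RowTau : Prop :=
  ∀ D : Dat, D.Good → Tab D → ∀ F : Finset ℤ, (∀ m ∈ F, 500 < m) →
    ∑ m ∈ F, D.y m ^ 2 ≤ 7.3 / 10 ^ 5

/-- `v` is the sequence of a short integer combination of translates of `y` -/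
def Wd (D : Dat) (v : ℤ → ℝ) : Prop :=
  ∃ (x : ℝ) (w : ℂ) (n : ℤ → ℤ), |x| ≤ 4 ∧ ‖w‖ ≤ 4 ∧ (∀ m ≤ 0, n m = 0) ∧
    ∀ m, v m = D.c * x * D.b ^ m + 2 * (D.r * w * D.γ ^ m).re - n m

/-- Row L: bounds for the mean of the character of a word. -/
def RowL : Prop :=
  ∀ D : Dat, D.Good → ∀ v, Wd D v → ∀ top k : ℕ, top ≤ k →
    (∀ X Y : ℝ, 0 ≤ X → 0 ≤ Y → X ≤ max 0 (|v 0 + 0.6480873023 * v (-1)| - 1 / 10 ^ 6) →
      Y ≤ max 0 (|v (-1)| - 1 / 10 ^ 6) →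
      |amp fun i => v ((k : ℤ) - i)| ≤ (∏ m ∈ range (top + 1), |cos (π * v m)|) *
        exp (-(11785 * (1.7235 * X ^ 2 + Y ^ 2)) + 1 / 10 ^ 5)) ∧
    ∀ X Y τ : ℝ, |v 0 + 0.6480873023 * v (-1)| + 1 / 10 ^ 6 ≤ X → |v (-1)| + 1 / 10 ^ 6 ≤ Y →
      1.7236 * X ^ 2 + Y ^ 2 ≤ 2 / 10 ^ 4 → τ ≤ 1 / 100 →
      (∀ F : Finset ℤ, (∀ m ∈ F, (top : ℤ) < m) → ∑ m ∈ F, v m ^ 2 ≤ τ) →
      (∏ m ∈ range (top + 1), |cos (π * v m)|) *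
        exp (-(11815 * (1.7236 * X ^ 2 + Y ^ 2) + 1 / 10 ^ 5)) * (1 - 5 * τ) ≤
        |amp fun i => v ((k : ℤ) - i)|

/-- distance to the nearest multiple of `2 ^ 40` -/
def red (x : ℕ) : ℕ :=
  cond (Nat.ble (Nat.mod x 1099511627776) 549755813888) (Nat.mod x 1099511627776)
    (Nat.sub 1099511627776 (Nat.mod x 1099511627776))

/-- `2 ^ 160 * 40320 * (1 - s / 2 + s ^ 2 / 24 - s ^ 3 / 720 + s ^ 4 / 40320)`, `s = t / 2 ^ 40` -/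
def pol (t : ℕ) : ℕ :=
  Nat.sub
    (Nat.add (Nat.mul (Nat.add (Nat.mul t t) 2030995376952577013506375680) (Nat.mul t t))
      58927746017182005661972572455120531352527200132792320)
    (Nat.mul (Nat.add (Nat.mul 61572651155456 (Nat.mul t t))
      26797236395023903997740750335251746652160) t)

/-- upper bound for `2 ^ 40 * cos (π x / 2 ^ 40)`, `x ≤ 2 ^ 39` -/
def cosU (x : ℕ) : ℕ :=
  cond (Nat.ble x 43980465111)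
    (Nat.sub 1099511627776 (Nat.shiftRight (Nat.mul 5418723155168 (Nat.mul x x)) 80))
    (Nat.succ (Nat.div (pol (Nat.shiftRight (Nat.mul 10851744800448 (Nat.mul x x)) 80))
      53594472790047807995481500670503493304320))

/-- `pol` minus the next term of the series -/
def polL (t : ℕ) : ℕ :=
  Nat.sub (pol t) (Nat.succ (Nat.div (Nat.mul (Nat.mul (Nat.mul t t) (Nat.mul t t)) t)
    98956046499840))

/-- lower bound for `2 ^ 40 * cos (π x / 2 ^ 40)`, if this is positive -/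
def cosL (x : ℕ) : ℕ :=
  cond (Nat.ble x 43980465111)
    (Nat.sub 1099511627775 (Nat.shiftRight (Nat.mul 5425880975866 (Nat.mul x x)) 80))
    (Nat.div (polL (Nat.succ (Nat.shiftRight (Nat.mul 10851744800559 (Nat.mul x x)) 80)))
      53594472790047807995481500670503493304320)

/-- Row C: soundness of the bounds for the cosine. -/
def RowC : Prop :=
  ∀ (x e : ℕ) (n : ℤ) (v : ℝ), e ≤ 1000 → |v + n - (x : ℝ) / 2 ^ 40| ≤ (e : ℝ) / 2 ^ 40 →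
    |cos (π * v)| ≤ (cosU (Nat.sub (red x) e) : ℝ) / 2 ^ 40 ∧
    (cosL (Nat.add (red x) e) : ℝ) / 2 ^ 40 ≤ |cos (π * v)|

/-- the word `y m ± y (m - g)` -/
noncomputable def Dat.dip (D : Dat) (g : ℕ) (s : Bool) (m : ℤ) : ℝ :=
  D.y m + sgn s * D.y (m - g)

/-- the word `y m - y (m - 1) + y (m - 4)` -/
noncomputable def Dat.z (D : Dat) (m : ℤ) : ℝ := D.y m - D.y (m - 1) + D.y (m - 4)

end Vale.Agent.Q105
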