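import Vale.Agent.Q105.Defs

/-!
# Row E: the mean of the compensator of a random trigonometric sum
-/

open MeasureTheory Real Filter Topology Finset

namespace Vale.Agent.Q105

open Vale.Agent.P105

/-- the averaging operator as a linear map -/
noncomputable def e_L (δ : ℝ) : (ℝ → ℝ) →ₗ[ℝ] (ℝ → ℝ) where
  toFun f := Pw δ f
  map_add' f g := by
    funext x
    simp only [Pw, Pi.add_apply]
    ring
  map_smul' a f := by
    funext x
    simp only [Pw, Pi.smul_apply, smul_eq_mul, RingHom.id_apply]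
    ring

lemma e_L_apply (δ : ℝ) (f : ℝ → ℝ) : e_L δ f = Pw δ f := rfl

lemma e_pow_succ (δ : ℝ) (n : ℕ) (f : ℝ → ℝ) :
    (e_L δ ^ (n + 1)) f = (e_L δ ^ n) (Pw δ f) := by
  rw [pow_succ, Module.End.mul_apply, e_L_apply]

/-- one level of a trigonometric sum -/
noncomputable def e_T {J : Type} [Fintype J] (w : J → ℝ) (u : J → ℂ) (x : ℝ) : ℝ :=
  ∑ j, (u j * ei (w j * x)).re

lemma e_trig {K J : Type} [Fintype K] [Fintype J] (w : K → J → ℝ) (u : K → J → ℂ) :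
    trig w u = ∑ k, e_T (w k) (u k) := by
  funext x
  simp only [trig, e_T, Finset.sum_apply]

lemma e_ei_re (u : ℂ) (t : ℝ) : (u * ei t).re = u.re * cos t - u.im * sin t := by
  simp only [ei, Complex.mul_re, Complex.exp_ofReal_mul_I_re, Complex.exp_ofReal_mul_I_im]

lemma e_P_T {J : Type} [Fintype J] (δ : ℝ) (w : J → ℝ) (u v : J → ℂ) :
    Pw δ (e_T w fun j => u j * v j) =
      e_T w fun j => (((cos (w j * δ) : ℝ) : ℂ) * u j) * v j := by
  funext x
  simp only [Pw, e_T]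
  rw [← Finset.sum_add_distrib, Finset.sum_div]
  refine Finset.sum_congr rfl fun j _ => ?_
  rw [mul_assoc ((cos (w j * δ) : ℝ) : ℂ), mul_assoc ((cos (w j * δ) : ℝ) : ℂ),
    Complex.re_ofReal_mul, e_ei_re, e_ei_re, e_ei_re, mul_add (w j), mul_sub (w j), cos_add,
    sin_add, cos_sub, sin_sub]
  ring

lemma e_Q_T {J : Type} [Fintype J] (δ : ℝ) (w : J → ℝ) (u v : J → ℂ) :
    Qw δ (e_T w fun j => u j * v j) =
      e_T w fun j => (((sin (w j * δ) : ℝ) : ℂ) * (Complex.I * u j)) * v j := by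
  funext x
  simp only [Qw, e_T]
  rw [← Finset.sum_sub_distrib, Finset.sum_div]
  refine Finset.sum_congr rfl fun j _ => ?_
  rw [mul_assoc ((sin (w j * δ) : ℝ) : ℂ), mul_assoc ((sin (w j * δ) : ℝ) : ℂ),
    Complex.re_ofReal_mul, mul_assoc Complex.I, e_ei_re, e_ei_re, e_ei_re, mul_add (w j),
    mul_sub (w j), cos_add, sin_add, cos_sub, sin_sub, Complex.I_mul_re, Complex.I_mul_im]
  ring

lemma e_P_trig {K J : Type} [Fintype K] [Fintype J] (δ : ℝ) (w : K → J → ℝ) (u v : K → J → ℂ) :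
    Pw δ (trig w fun k j => u k j * v k j) =
      trig w fun k j => (((cos (w k j * δ) : ℝ) : ℂ) * u k j) * v k j := by
  rw [e_trig, e_trig, ← e_L_apply, map_sum]
  refine Finset.sum_congr rfl fun k _ => ?_
  rw [e_L_apply, e_P_T]

lemma e_Q_trig {K J : Type} [Fintype K] [Fintype J] (δ : ℝ) (w : K → J → ℝ) (u v : K → J → ℂ) :
    Qw δ (trig w fun k j => u k j * v k j) =
      ∑ k, e_T (w k) fun j => (((sin (w k j * δ) : ℝ) : ℂ) * (Complex.I * u k j)) * v k j := by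
  funext x
  rw [Finset.sum_apply]
  simp only [← e_Q_T]
  simp only [Qw, e_trig, Finset.sum_apply]
  rw [← Finset.sum_sub_distrib, Finset.sum_div]

lemma e_P_mul (δ : ℝ) (f g : ℝ → ℝ) :
    Pw δ (f * g) = Pw δ f * Pw δ g + Qw δ f * Qw δ g := by
  funext x
  simp only [Pw, Qw, Pi.mul_apply, Pi.add_apply]
  ring

lemma e_norm_cos (t c p h : ℝ) (u : ℂ) (hc : |t| ≤ c) (hu : ‖u‖ ≤ p * h) :
    ‖(t : ℂ) * u‖ ≤ c * p * h := by
  rw [norm_mul, Complex.norm_real, Real.norm_eq_abs, mul_assoc]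
  exact mul_le_mul hc hu (norm_nonneg _) ((abs_nonneg _).trans hc)

lemma e_norm_sin (t c p h : ℝ) (u : ℂ) (hc : |t| ≤ c) (hu : ‖u‖ ≤ p * h) :
    ‖(t : ℂ) * (Complex.I * u)‖ ≤ c * p * h :=
  e_norm_cos t c p h _ hc (by rw [norm_mul, Complex.norm_I, one_mul]; exact hu)

lemma e_T_val {J : Type} [Fintype J] (w : J → ℝ) (u U Ψ : J → ℂ) (y : ℝ)
    (hΨ : ∀ j, Ψ j = U j * ei (w j * y)) :
    e_T w (fun j => u j * U j) y = (∑ j, u j * Ψ j).re := by
  simp only [e_T, Complex.re_sum, hΨ, mul_assoc]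

lemma e_abs_re {J : Type} [Fintype J] (u Ψ : J → ℂ) (h : J → ℝ) (p : ℝ)
    (hΨ : ∀ j, ‖Ψ j‖ ≤ 1) (hu : ∀ j, ‖u j‖ ≤ p * h j) :
    |(∑ j, u j * Ψ j).re| ≤ p * ∑ j, h j := by
  refine (Complex.abs_re_le_norm _).trans ((norm_sum_le _ _).trans ?_)
  rw [Finset.mul_sum]
  refine Finset.sum_le_sum fun j _ => ?_
  rw [norm_mul]
  calc ‖u j‖ * ‖Ψ j‖ ≤ ‖u j‖ * 1 := mul_le_mul_of_nonneg_left (hΨ j) (norm_nonneg _)
    _ ≤ p * h j := by rw [mul_one]; exact hu j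

lemma e_meas {J : Type} [Fintype J] (u : J → ℂ) (Ψ : J → (ℕ → Bool) → ℂ)
    (hm : ∀ j, Measurable (Ψ j)) : Measurable fun ω => (∑ j, u j * Ψ j ω).re :=
  Complex.measurable_re.comp (Finset.measurable_sum _ fun j _ => (hm j).const_mul _)

/-- the linear part -/
lemma e_lin [IsProbabilityMeasure PP] {J : Type} [Fintype J] (δ : ℝ) (w h : J → ℝ)
    (U Ψ : J → (ℕ → Bool) → ℂ) (Y : (ℕ → Bool) → ℝ) (c : ℝ)
    (hΨ : ∀ j ω, Ψ j ω = U j ω * ei (w j * Y ω)) (hm : ∀ j, Measurable (Ψ j))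
    (h1 : ∀ j ω, ‖Ψ j ω‖ ≤ 1) (hc : ∀ j, |cos (w j * δ)| ≤ c) (n : ℕ) :
    ∀ (u : J → ℂ) (p : ℝ), (∀ j, ‖u j‖ ≤ p * h j) →
      Integrable (fun ω => (e_L δ ^ n) (e_T w fun j => u j * U j ω) (Y ω)) PP ∧
      ∫ ω, (e_L δ ^ n) (e_T w fun j => u j * U j ω) (Y ω) ∂PP ≤ p * c ^ n * ∑ j, h j := by
  induction n with
  | zero =>
    intro u p hu
    have e : (fun ω => (e_L δ ^ 0) (e_T w fun j => u j * U j ω) (Y ω)) =
        fun ω => (∑ j, u j * Ψ j ω).re := by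
      funext ω
      rw [pow_zero, Module.End.one_apply]
      exact e_T_val w u (fun j => U j ω) (fun j => Ψ j ω) (Y ω) fun j => hΨ j ω
    rw [e]
    have hb : ∀ ω, |(∑ j, u j * Ψ j ω).re| ≤ p * ∑ j, h j := fun ω =>
      e_abs_re u (fun j => Ψ j ω) h p (fun j => h1 j ω) hu
    have hi : Integrable (fun ω => (∑ j, u j * Ψ j ω).re) PP :=
      Integrable.of_bound (e_meas u Ψ hm).aestronglyMeasurable (p * ∑ j, h j)
        (Eventually.of_forall hb)
    refine ⟨hi, ?_⟩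
    calc ∫ ω, (∑ j, u j * Ψ j ω).re ∂PP ≤ ∫ _ω, p * ∑ j, h j ∂PP :=
          integral_mono hi (integrable_const _) fun ω => (le_abs_self _).trans (hb ω)
      _ = p * c ^ 0 * ∑ j, h j := by simp
  | succ n ih =>
    intro u p hu
    simp only [e_pow_succ, e_P_T]
    obtain ⟨a, b⟩ := ih (fun j => ((cos (w j * δ) : ℝ) : ℂ) * u j) (c * p)
      fun j => e_norm_cos _ _ _ _ _ (hc j) (hu j)
    refine ⟨a, b.trans (le_of_eq ?_)⟩
    ring

/-- the bilinear part -/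
lemma e_bil [IsProbabilityMeasure PP] {J : Type} [Fintype J] (δ : ℝ) (w w' h : J → ℝ)
    (U Ψ U' Ψ' : J → (ℕ → Bool) → ℂ) (Y : (ℕ → Bool) → ℝ) (c s c' s' b : ℝ)
    (hΨ : ∀ j ω, Ψ j ω = U j ω * ei (w j * Y ω)) (hm : ∀ j, Measurable (Ψ j))
    (h1 : ∀ j ω, ‖Ψ j ω‖ ≤ 1) (hc : ∀ j, |cos (w j * δ)| ≤ c) (hs : ∀ j, |sin (w j * δ)| ≤ s)
    (hΨ' : ∀ j ω, Ψ' j ω = U' j ω * ei (w' j * Y ω)) (hm' : ∀ j, Measurable (Ψ' j))
    (h1' : ∀ j ω, ‖Ψ' j ω‖ ≤ 1) (hc' : ∀ j, |cos (w' j * δ)| ≤ c')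
    (hs' : ∀ j, |sin (w' j * δ)| ≤ s') (c0 : 0 ≤ c) (s0 : 0 ≤ s) (c0' : 0 ≤ c') (s0' : 0 ≤ s')
    (hb : ∀ (u u' : J → ℂ) (p p' : ℝ), 0 ≤ p → 0 ≤ p' → (∀ j, ‖u j‖ ≤ p * h j) →
      (∀ j, ‖u' j‖ ≤ p' * h j) →
      |∫ ω, (∑ j, u j * Ψ j ω).re * (∑ j, u' j * Ψ' j ω).re ∂PP| ≤ p * p' * b) (n : ℕ) :
    ∀ (u u' : J → ℂ) (p p' : ℝ), 0 ≤ p → 0 ≤ p' → (∀ j, ‖u j‖ ≤ p * h j) →
      (∀ j, ‖u' j‖ ≤ p' * h j) →
      Integrable (fun ω => (e_L δ ^ n)
        ((e_T w fun j => u j * U j ω) * e_T w' fun j => u' j * U' j ω) (Y ω)) PP ∧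
      ∫ ω, (e_L δ ^ n) ((e_T w fun j => u j * U j ω) * e_T w' fun j => u' j * U' j ω) (Y ω) ∂PP ≤
        p * p' * b * (c * c' + s * s') ^ n := by
  induction n with
  | zero =>
    intro u u' p p' hp hp' hu hu'
    have e : (fun ω => (e_L δ ^ 0)
        ((e_T w fun j => u j * U j ω) * e_T w' fun j => u' j * U' j ω) (Y ω)) =
        fun ω => (∑ j, u j * Ψ j ω).re * (∑ j, u' j * Ψ' j ω).re := by
      funext ω
      rw [pow_zero, Module.End.one_apply, Pi.mul_apply,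
        e_T_val w u (fun j => U j ω) (fun j => Ψ j ω) (Y ω) fun j => hΨ j ω,
        e_T_val w' u' (fun j => U' j ω) (fun j => Ψ' j ω) (Y ω) fun j => hΨ' j ω]
    rw [e, pow_zero, mul_one]
    refine ⟨Integrable.of_bound ((e_meas u Ψ hm).mul (e_meas u' Ψ' hm')).aestronglyMeasurable
      ((p * ∑ j, h j) * (p' * ∑ j, h j)) (Eventually.of_forall fun ω => ?_),
      (le_abs_self _).trans (hb u u' p p' hp hp' hu hu')⟩
    rw [norm_mul]
    have a1 := e_abs_re u (fun j => Ψ j ω) h p (fun j => h1 j ω) hu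
    have a2 := e_abs_re u' (fun j => Ψ' j ω) h p' (fun j => h1' j ω) hu'
    exact mul_le_mul a1 a2 (norm_nonneg _) ((abs_nonneg _).trans a1)
  | succ n ih =>
    intro u u' p p' hp hp' hu hu'
    simp only [e_pow_succ, e_P_mul, map_add, Pi.add_apply, e_P_T, e_Q_T]
    obtain ⟨a1, b1⟩ := ih (fun j => ((cos (w j * δ) : ℝ) : ℂ) * u j)
      (fun j => ((cos (w' j * δ) : ℝ) : ℂ) * u' j) (c * p) (c' * p') (mul_nonneg c0 hp)
      (mul_nonneg c0' hp') (fun j => e_norm_cos _ _ _ _ _ (hc j) (hu j))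
      fun j => e_norm_cos _ _ _ _ _ (hc' j) (hu' j)
    obtain ⟨a2, b2⟩ := ih (fun j => ((sin (w j * δ) : ℝ) : ℂ) * (Complex.I * u j))
      (fun j => ((sin (w' j * δ) : ℝ) : ℂ) * (Complex.I * u' j)) (s * p) (s' * p')
      (mul_nonneg s0 hp) (mul_nonneg s0' hp') (fun j => e_norm_sin _ _ _ _ _ (hs j) (hu j))
      fun j => e_norm_sin _ _ _ _ _ (hs' j) (hu' j)
    refine ⟨a1.add a2, ?_⟩
    rw [integral_add a1 a2]
    refine (add_le_add b1 b2).trans (le_of_eq ?_)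
    ring

lemma e_Rm_succ (δ c : ℝ) (N n : ℕ) (f : ℝ → ℝ) :
    (e_L δ ^ n) (Rm δ c (N + 1) f) =
      (e_L δ ^ (n + 1)) (Rm δ c N (Pw δ f)) + c • (e_L δ ^ (n + 1)) (Qw δ f * Qw δ f) := by
  rw [← map_smul, ← map_add, e_pow_succ]
  congr 1
  simp only [Rm]
  congr 1
  funext x
  simp only [Pi.add_apply, Pi.smul_apply, Pi.mul_apply, smul_eq_mul, sq]

theorem rowE (hCF : RowCF) : RowE := by
  have : IsProbabilityMeasure PP := hCF.1
  intro K J _ _ δ c N w h U Ψ Y cb sb bb u₀ hc0 hh hΨ hm h1 hc hs c0 s0 hu₀ hb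
  have key : ∀ (N n : ℕ) (u : K → J → ℂ) (q : K → ℝ), (∀ k, 0 ≤ q k) →
      (∀ k j, ‖u k j‖ ≤ q k * h j) →
      Integrable (fun ω => (e_L δ ^ n) (Rm δ c N (trig w fun k j => u k j * U k j ω)) (Y ω)) PP ∧
      ∫ ω, (e_L δ ^ n) (Rm δ c N (trig w fun k j => u k j * U k j ω)) (Y ω) ∂PP ≤
        ∑ k, q k * cb k ^ (n + 2 * N) * ∑ j, h j +
          c * ∑ k, ∑ k', q k * q k' * bb k k' * ∑ i ∈ range N,
            (cb k * cb k') ^ i * (sb k * sb k') * (cb k * cb k' + sb k * sb k') ^ (n + i + 1) := by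
    intro N
    induction N with
    | zero =>
      intro n u q hq hu
      have l := fun k => e_lin δ (w k) h (U k) (Ψ k) Y (cb k) (hΨ k) (hm k) (h1 k) (hc k) n
        (u k) (q k) (hu k)
      simp only [Rm, e_trig, map_sum, Finset.sum_apply, range_zero, sum_empty, mul_zero,
        sum_const_zero, add_zero]
      refine ⟨integrable_finsetSum _ fun k _ => (l k).1, ?_⟩
      rw [integral_finsetSum _ fun k _ => (l k).1]
      exact Finset.sum_le_sum fun k _ => (l k).2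
    | succ N ih =>
      intro n u q hq hu
      obtain ⟨a1, b1⟩ := ih (n + 1) (fun k j => ((cos (w k j * δ) : ℝ) : ℂ) * u k j)
        (fun k => cb k * q k) (fun k => mul_nonneg (c0 k) (hq k))
        fun k j => e_norm_cos _ _ _ _ _ (hc k j) (hu k j)
      have l := fun k k' => e_bil δ (w k) (w k') h (U k) (Ψ k) (U k') (Ψ k') Y (cb k) (sb k)
        (cb k') (sb k') (bb k k') (hΨ k) (hm k) (h1 k) (hc k) (hs k) (hΨ k') (hm k') (h1 k')
        (hc k') (hs k') (c0 k) (s0 k) (c0 k') (s0 k') (hb k k') (n + 1)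
        (fun j => ((sin (w k j * δ) : ℝ) : ℂ) * (Complex.I * u k j))
        (fun j => ((sin (w k' j * δ) : ℝ) : ℂ) * (Complex.I * u k' j)) (sb k * q k) (sb k' * q k')
        (mul_nonneg (s0 k) (hq k)) (mul_nonneg (s0 k') (hq k'))
        (fun j => e_norm_sin _ _ _ _ _ (hs k j) (hu k j))
        fun j => e_norm_sin _ _ _ _ _ (hs k' j) (hu k' j)
      simp only [e_Rm_succ, e_P_trig, e_Q_trig, Finset.sum_mul_sum, map_sum, Pi.add_apply,
        Pi.smul_apply, Finset.sum_apply, smul_eq_mul]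
      have a2 := integrable_finsetSum (μ := PP) univ fun k _ =>
        integrable_finsetSum univ fun k' _ => (l k k').1
      refine ⟨a1.add (a2.const_mul c), ?_⟩
      rw [integral_add a1 (a2.const_mul c), integral_const_mul,
        integral_finsetSum _ fun k _ => integrable_finsetSum univ fun k' _ => (l k k').1]
      have b2 : ∑ k, ∫ ω, ∑ k', (e_L δ ^ (n + 1))
          ((e_T (w k) fun j => ((sin (w k j * δ) : ℝ) : ℂ) * (Complex.I * u k j) * U k j ω) *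
            e_T (w k') fun j => ((sin (w k' j * δ) : ℝ) : ℂ) * (Complex.I * u k' j) * U k' j ω)
            (Y ω) ∂PP ≤
          ∑ k, ∑ k', sb k * q k * (sb k' * q k') * bb k k' *
            (cb k * cb k' + sb k * sb k') ^ (n + 1) := by
        refine Finset.sum_le_sum fun k _ => ?_
        rw [integral_finsetSum _ fun k' _ => (l k k').1]
        exact Finset.sum_le_sum fun k' _ => (l k k').2
      refine (add_le_add b1 (mul_le_mul_of_nonneg_left b2 hc0)).trans (le_of_eq ?_)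
      rw [add_assoc, ← mul_add, ← Finset.sum_add_distrib]
      congr 1
      · refine Finset.sum_congr rfl fun k _ => ?_
        ring
      · congr 1
        refine Finset.sum_congr rfl fun k _ => ?_
        rw [← Finset.sum_add_distrib]
        refine Finset.sum_congr rfl fun k' _ => ?_
        rw [Finset.sum_range_succ', mul_add (q k * q k' * bb k k'), Finset.mul_sum,
          Finset.mul_sum]
        congr 1
        · refine Finset.sum_congr rfl fun i _ => ?_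
          ring
        · ring
  obtain ⟨a, b⟩ := key N 0 u₀ (fun _ => 1) (fun _ => zero_le_one)
    fun k j => by rw [one_mul]; exact hu₀ k j
  simp only [pow_zero, Module.End.one_apply, one_mul, zero_add] at a b
  exact ⟨a, b⟩

end Vale.Agent.Q105
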