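import Vale.Agent.Q105.Defs

/-!
# The mean of the compensator of a random trigonometric sum
-/

open MeasureTheory Real Filter Topology Finset

namespace Vale.Agent.Q105

open Vale.Agent.P105

/-- `Pw` as a linear map -/
noncomputable def e0_PL (δ : ℝ) : Module.End ℝ (ℝ → ℝ) where
  toFun := Pw δ
  map_add' f g := by funext x; simp only [Pw, Pi.add_apply]; ring
  map_smul' a f := by funext x; simp only [Pw, Pi.smul_apply, smul_eq_mul, RingHom.id_apply]; ring

theorem e0_PL_apply (δ : ℝ) (f : ℝ → ℝ) : e0_PL δ f = Pw δ f := rfl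

theorem e0_ei_add (s t : ℝ) : ei (s + t) = ei s * ei t := by
  simp only [ei, Complex.ofReal_add, add_mul, Complex.exp_add]

theorem e0_ei_eq (t : ℝ) : ei t = (cos t : ℂ) + (sin t : ℂ) * Complex.I := by
  simp only [ei, Complex.exp_mul_I, Complex.ofReal_cos, Complex.ofReal_sin]

/-- one level of a trigonometric sum -/
noncomputable def e0_T {J : Type} [Fintype J] (w : J → ℝ) (u : J → ℂ) (x : ℝ) : ℝ :=
  ∑ j, (u j * ei (w j * x)).re

theorem e0_P1 (w δ x : ℝ) (u : ℂ) :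
    ((u * ei (w * (x + δ))).re + (u * ei (w * (x - δ))).re) / 2 =
      ((cos (w * δ) : ℂ) * u * ei (w * x)).re := by
  have h1 : w * (x + δ) = w * x + w * δ := by ring
  have h2 : w * (x - δ) = w * x + -(w * δ) := by ring
  rw [h1, h2, e0_ei_add, e0_ei_add, e0_ei_eq (w * δ), e0_ei_eq (-(w * δ)), cos_neg, sin_neg]
  generalize cos (w * δ) = C
  generalize sin (w * δ) = S
  generalize ei (w * x) = z
  simp only [Complex.mul_re, Complex.add_re, Complex.add_im, Complex.mul_im, Complex.ofReal_re,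
    Complex.ofReal_im, Complex.I_re, Complex.I_im]
  ring

theorem e0_Q1 (w δ x : ℝ) (u : ℂ) :
    ((u * ei (w * (x + δ))).re - (u * ei (w * (x - δ))).re) / 2 =
      ((sin (w * δ) : ℂ) * Complex.I * u * ei (w * x)).re := by
  have h1 : w * (x + δ) = w * x + w * δ := by ring
  have h2 : w * (x - δ) = w * x + -(w * δ) := by ring
  rw [h1, h2, e0_ei_add, e0_ei_add, e0_ei_eq (w * δ), e0_ei_eq (-(w * δ)), cos_neg, sin_neg]
  generalize cos (w * δ) = C
  generalize sin (w * δ) = S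
  generalize ei (w * x) = z
  simp only [Complex.mul_re, Complex.add_re, Complex.add_im, Complex.mul_im, Complex.ofReal_re,
    Complex.ofReal_im, Complex.I_re, Complex.I_im]
  ring

theorem e0_PT {J : Type} [Fintype J] (δ : ℝ) (w : J → ℝ) (u : J → ℂ) :
    Pw δ (e0_T w u) = e0_T w fun j => (cos (w j * δ) : ℂ) * u j := by
  funext x
  simp only [Pw, e0_T, ← e0_P1, ← Finset.sum_add_distrib, Finset.sum_div]

theorem e0_QT {J : Type} [Fintype J] (δ : ℝ) (w : J → ℝ) (u : J → ℂ) :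
    Qw δ (e0_T w u) = e0_T w fun j => (sin (w j * δ) : ℂ) * Complex.I * u j := by
  funext x
  simp only [Qw, e0_T, ← e0_Q1, ← Finset.sum_sub_distrib, Finset.sum_div]

theorem e0_Pmul (δ : ℝ) (f g : ℝ → ℝ) :
    Pw δ (f * g) = Pw δ f * Pw δ g + Qw δ f * Qw δ g := by
  funext x
  simp only [Pw, Qw, Pi.mul_apply, Pi.add_apply]
  ring

theorem e0_trig {K J : Type} [Fintype K] [Fintype J] (w : K → J → ℝ) (u : K → J → ℂ) :
    trig w u = ∑ k, e0_T (w k) (u k) := by
  funext x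
  simp only [trig, e0_T, Finset.sum_apply]

theorem e0_Ptrig {K J : Type} [Fintype K] [Fintype J] (δ : ℝ) (w : K → J → ℝ) (u : K → J → ℂ) :
    Pw δ (trig w u) = trig w fun k j => (cos (w k j * δ) : ℂ) * u k j := by
  funext x
  simp only [Pw, trig, ← e0_P1, ← Finset.sum_add_distrib, Finset.sum_div]

theorem e0_Qtrig {K J : Type} [Fintype K] [Fintype J] (δ : ℝ) (w : K → J → ℝ) (u : K → J → ℂ) :
    Qw δ (trig w u) = trig w fun k j => (sin (w k j * δ) : ℂ) * Complex.I * u k j := by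
  funext x
  simp only [Qw, trig, ← e0_Q1, ← Finset.sum_sub_distrib, Finset.sum_div]

theorem e0_nc {t cb p h : ℝ} {u : ℂ} (hc : |cos t| ≤ cb) (hcb : 0 ≤ cb) (hu : ‖u‖ ≤ p * h) :
    ‖(cos t : ℂ) * u‖ ≤ cb * p * h := by
  rw [norm_mul, Complex.norm_real, Real.norm_eq_abs, mul_assoc]
  exact mul_le_mul hc hu (norm_nonneg _) hcb

theorem e0_ns {t sb p h : ℝ} {u : ℂ} (hs : |sin t| ≤ sb) (hsb : 0 ≤ sb) (hu : ‖u‖ ≤ p * h) :
    ‖(sin t : ℂ) * Complex.I * u‖ ≤ sb * p * h := by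
  rw [norm_mul, norm_mul, Complex.norm_real, Real.norm_eq_abs, Complex.norm_I, mul_one, mul_assoc]
  exact mul_le_mul hs hu (norm_nonneg _) hsb

section

variable {K J : Type} [Fintype K] [Fintype J] {δ c : ℝ} {w : K → J → ℝ} {h : J → ℝ}
  {U Ψ : K → J → (ℕ → Bool) → ℂ} {Y : (ℕ → Bool) → ℝ} {cb sb : K → ℝ} {bb : K → K → ℝ}

omit [Fintype K] in
theorem e0_val (hΨ : ∀ k j ω, Ψ k j ω = U k j ω * ei (w k j * Y ω)) (k : K) (u : J → ℂ)
    (ω : ℕ → Bool) :
    e0_T (w k) (fun j => u j * U k j ω) (Y ω) = (∑ j, u j * Ψ k j ω).re := by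
  simp only [e0_T, Complex.re_sum, hΨ, mul_assoc]

omit [Fintype K] in
theorem e0_bd (hb : ∀ k j ω, ‖Ψ k j ω‖ ≤ 1) (k : K) (u : J → ℂ) (ω : ℕ → Bool) :
    |(∑ j, u j * Ψ k j ω).re| ≤ ∑ j, ‖u j‖ := by
  refine (Complex.abs_re_le_norm _).trans ((norm_sum_le _ _).trans (Finset.sum_le_sum fun j _ => ?_))
  rw [norm_mul]
  exact mul_le_of_le_one_right (norm_nonneg _) (hb k j ω)

omit [Fintype K] in
theorem e0_meas (hm : ∀ k j, Measurable (Ψ k j)) (k : K) (u : J → ℂ) :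
    Measurable fun ω => (∑ j, u j * Ψ k j ω).re :=
  Complex.measurable_re.comp (Finset.measurable_sum _ fun j _ => (hm k j).const_mul _)

omit [Fintype K] in
theorem e0_L1 [IsProbabilityMeasure PP] (hΨ : ∀ k j ω, Ψ k j ω = U k j ω * ei (w k j * Y ω))
    (hm : ∀ k j, Measurable (Ψ k j)) (hb : ∀ k j ω, ‖Ψ k j ω‖ ≤ 1)
    (hc : ∀ k j, |cos (w k j * δ)| ≤ cb k) (hs : ∀ k j, |sin (w k j * δ)| ≤ sb k)
    (hc0 : ∀ k, 0 ≤ cb k) (hs0 : ∀ k, 0 ≤ sb k)
    (hB : ∀ (k k' : K) (u u' : J → ℂ) (p p' : ℝ), 0 ≤ p → 0 ≤ p' → (∀ j, ‖u j‖ ≤ p * h j) →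
      (∀ j, ‖u' j‖ ≤ p' * h j) →
      |∫ ω, (∑ j, u j * Ψ k j ω).re * (∑ j, u' j * Ψ k' j ω).re ∂PP| ≤ p * p' * bb k k')
    (k k' : K) (n : ℕ) : ∀ (u u' : J → ℂ) (p p' : ℝ), 0 ≤ p → 0 ≤ p' → (∀ j, ‖u j‖ ≤ p * h j) →
      (∀ j, ‖u' j‖ ≤ p' * h j) →
      Integrable (fun ω => (e0_PL δ ^ n) (e0_T (w k) (fun j => u j * U k j ω) *
        e0_T (w k') (fun j => u' j * U k' j ω)) (Y ω)) PP ∧
      |∫ ω, (e0_PL δ ^ n) (e0_T (w k) (fun j => u j * U k j ω) *
        e0_T (w k') (fun j => u' j * U k' j ω)) (Y ω) ∂PP| ≤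
        p * p' * bb k k' * (cb k * cb k' + sb k * sb k') ^ n := by
  induction n with
  | zero =>
    intro u u' p p' hp hp' hu hu'
    simp only [pow_zero, Module.End.one_apply, Pi.mul_apply, e0_val hΨ, mul_one]
    refine ⟨?_, hB k k' u u' p p' hp hp' hu hu'⟩
    refine Integrable.of_bound ((e0_meas hm k u).mul (e0_meas hm k' u')).aestronglyMeasurable
      ((∑ j, ‖u j‖) * ∑ j, ‖u' j‖) (Eventually.of_forall fun ω => ?_)
    rw [Real.norm_eq_abs, abs_mul]
    exact mul_le_mul (e0_bd hb k u ω) (e0_bd hb k' u' ω) (abs_nonneg _)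
      (Finset.sum_nonneg fun j _ => norm_nonneg _)
  | succ n ih =>
    intro u u' p p' hp hp' hu hu'
    obtain ⟨i1, b1⟩ := ih (fun j => (cos (w k j * δ) : ℂ) * u j)
      (fun j => (cos (w k' j * δ) : ℂ) * u' j) (cb k * p) (cb k' * p') (mul_nonneg (hc0 k) hp)
      (mul_nonneg (hc0 k') hp') (fun j => e0_nc (hc k j) (hc0 k) (hu j))
      (fun j => e0_nc (hc k' j) (hc0 k') (hu' j))
    obtain ⟨i2, b2⟩ := ih (fun j => (sin (w k j * δ) : ℂ) * Complex.I * u j)
      (fun j => (sin (w k' j * δ) : ℂ) * Complex.I * u' j) (sb k * p) (sb k' * p')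
      (mul_nonneg (hs0 k) hp) (mul_nonneg (hs0 k') hp') (fun j => e0_ns (hs k j) (hs0 k) (hu j))
      (fun j => e0_ns (hs k' j) (hs0 k') (hu' j))
    simp only [mul_assoc] at i1 i2 b1 b2
    simp only [pow_succ, Module.End.mul_apply, e0_PL_apply, e0_Pmul, e0_PT, e0_QT, map_add,
      Pi.add_apply, mul_assoc]
    refine ⟨i1.add i2, ?_⟩
    rw [integral_add i1 i2]
    refine (abs_add_le _ _).trans ((add_le_add b1 b2).trans (le_of_eq ?_))
    ring

theorem e0_Pn (n : ℕ) : ∀ u : K → J → ℂ, (e0_PL δ ^ n) (trig w u) =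
    trig w fun k j => (cos (w k j * δ) : ℂ) ^ n * u k j := by
  induction n with
  | zero => intro u; simp
  | succ n ih =>
    intro u
    simp only [pow_succ, Module.End.mul_apply, e0_PL_apply, e0_Ptrig, ih, mul_assoc]

theorem e0_L2 [IsProbabilityMeasure PP] (h0 : 0 ≤ c)
    (hΨ : ∀ k j ω, Ψ k j ω = U k j ω * ei (w k j * Y ω))
    (hm : ∀ k j, Measurable (Ψ k j)) (hb : ∀ k j ω, ‖Ψ k j ω‖ ≤ 1)
    (hc : ∀ k j, |cos (w k j * δ)| ≤ cb k) (hs : ∀ k j, |sin (w k j * δ)| ≤ sb k)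
    (hc0 : ∀ k, 0 ≤ cb k) (hs0 : ∀ k, 0 ≤ sb k)
    (hB : ∀ (k k' : K) (u u' : J → ℂ) (p p' : ℝ), 0 ≤ p → 0 ≤ p' → (∀ j, ‖u j‖ ≤ p * h j) →
      (∀ j, ‖u' j‖ ≤ p' * h j) →
      |∫ ω, (∑ j, u j * Ψ k j ω).re * (∑ j, u' j * Ψ k' j ω).re ∂PP| ≤ p * p' * bb k k')
    (N : ℕ) : ∀ (n : ℕ) (u : K → J → ℂ) (q : K → ℝ), (∀ k, 0 ≤ q k) →
      (∀ k j, ‖u k j‖ ≤ q k * h j) →
      Integrable (fun ω => (e0_PL δ ^ n) (Rm δ c N (trig w fun k j => u k j * U k j ω)) (Y ω)) PP ∧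
      ∫ ω, (e0_PL δ ^ n) (Rm δ c N (trig w fun k j => u k j * U k j ω)) (Y ω) ∂PP ≤
        ∑ k, q k * cb k ^ (n + 2 * N) * ∑ j, h j + c * ∑ k, ∑ k', q k * q k' * bb k k' *
          ∑ i ∈ range N, (cb k * cb k') ^ i * (sb k * sb k') *
            (cb k * cb k' + sb k * sb k') ^ (n + i + 1) := by
  induction N with
  | zero =>
    intro n u q hq hu
    have key : ∀ ω, (e0_PL δ ^ n) (Rm δ c 0 (trig w fun k j => u k j * U k j ω)) (Y ω) =
        ∑ k, (∑ j, ((cos (w k j * δ) : ℂ) ^ n * u k j) * Ψ k j ω).re := by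
      intro ω
      simp only [Rm, e0_Pn, trig, Complex.re_sum, hΨ, mul_assoc]
    have hbd : ∀ ω, |∑ k, (∑ j, ((cos (w k j * δ) : ℂ) ^ n * u k j) * Ψ k j ω).re| ≤
        ∑ k, q k * cb k ^ n * ∑ j, h j := by
      intro ω
      refine (Finset.abs_sum_le_sum_abs _ _).trans (Finset.sum_le_sum fun k _ => ?_)
      refine (e0_bd hb k _ ω).trans ?_
      rw [Finset.mul_sum]
      refine Finset.sum_le_sum fun j _ => ?_
      rw [norm_mul, norm_pow, Complex.norm_real, Real.norm_eq_abs]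
      calc |cos (w k j * δ)| ^ n * ‖u k j‖ ≤ cb k ^ n * (q k * h j) :=
            mul_le_mul (pow_le_pow_left₀ (abs_nonneg _) (hc k j) n) (hu k j) (norm_nonneg _)
              (pow_nonneg (hc0 k) n)
        _ = _ := by ring
    simp only [key, mul_zero, add_zero, range_zero, sum_empty, sum_const_zero]
    have hi : Integrable (fun ω => ∑ k, (∑ j, ((cos (w k j * δ) : ℂ) ^ n * u k j) * Ψ k j ω).re)
        PP :=
      Integrable.of_bound (Finset.measurable_sum _ fun k _ => e0_meas hm k _).aestronglyMeasurable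
        _ (Eventually.of_forall fun ω => hbd ω)
    refine ⟨hi, ?_⟩
    refine (integral_mono hi (integrable_const _) fun ω => (le_abs_self _).trans (hbd ω)).trans ?_
    simp
  | succ N ih =>
    intro n u q hq hu
    obtain ⟨i1, b1⟩ := ih (n + 1) (fun k j => (cos (w k j * δ) : ℂ) * u k j) (fun k => cb k * q k)
      (fun k => mul_nonneg (hc0 k) (hq k)) (fun k j => e0_nc (hc k j) (hc0 k) (hu k j))
    have L1 := fun k k' => e0_L1 hΨ hm hb hc hs hc0 hs0 hB k k' (n + 1)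
      (fun j => (sin (w k j * δ) : ℂ) * Complex.I * u k j)
      (fun j => (sin (w k' j * δ) : ℂ) * Complex.I * u k' j) (sb k * q k) (sb k' * q k')
      (mul_nonneg (hs0 k) (hq k)) (mul_nonneg (hs0 k') (hq k'))
      (fun j => e0_ns (hs k j) (hs0 k) (hu k j)) (fun j => e0_ns (hs k' j) (hs0 k') (hu k' j))
    have key : ∀ ω, (e0_PL δ ^ n) (Rm δ c (N + 1) (trig w fun k j => u k j * U k j ω)) (Y ω) =
        (e0_PL δ ^ (n + 1)) (Rm δ c N
          (trig w fun k j => (cos (w k j * δ) : ℂ) * u k j * U k j ω)) (Y ω) +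
        c * ∑ k, ∑ k', (e0_PL δ ^ (n + 1))
          (e0_T (w k) (fun j => (sin (w k j * δ) : ℂ) * Complex.I * u k j * U k j ω) *
            e0_T (w k') (fun j => (sin (w k' j * δ) : ℂ) * Complex.I * u k' j * U k' j ω))
          (Y ω) := by
      intro ω
      have e1 : Rm δ c (N + 1) (trig w fun k j => u k j * U k j ω) =
          e0_PL δ (Rm δ c N (trig w fun k j => (cos (w k j * δ) : ℂ) * u k j * U k j ω) +
            c • ∑ k, ∑ k',
              (e0_T (w k) (fun j => (sin (w k j * δ) : ℂ) * Complex.I * u k j * U k j ω) *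
              e0_T (w k') (fun j => (sin (w k' j * δ) : ℂ) * Complex.I * u k' j * U k' j ω))) := by
        rw [Rm, e0_PL_apply, e0_Ptrig, e0_Qtrig, ← Finset.sum_mul_sum, ← e0_trig]
        congr 1
        funext x
        simp only [Pi.add_apply, Pi.smul_apply, smul_eq_mul, Pi.mul_apply, mul_assoc, sq]
      rw [e1, ← Module.End.mul_apply, ← pow_succ]
      simp only [map_add, map_smul, map_sum, Pi.add_apply, Pi.smul_apply, Finset.sum_apply,
        smul_eq_mul]
    have i2 : Integrable (fun ω => ∑ k, ∑ k', (e0_PL δ ^ (n + 1))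
          (e0_T (w k) (fun j => (sin (w k j * δ) : ℂ) * Complex.I * u k j * U k j ω) *
            e0_T (w k') (fun j => (sin (w k' j * δ) : ℂ) * Complex.I * u k' j * U k' j ω))
          (Y ω)) PP :=
      integrable_finsetSum _ fun k _ => integrable_finsetSum _ fun k' _ => (L1 k k').1
    simp only [key]
    refine ⟨i1.add (i2.const_mul c), ?_⟩
    rw [integral_add i1 (i2.const_mul c), integral_const_mul,
      integral_finsetSum _ fun k _ => integrable_finsetSum _ fun k' _ => (L1 k k').1]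
    have b2 : ∑ k, ∫ ω, ∑ k', (e0_PL δ ^ (n + 1))
          (e0_T (w k) (fun j => (sin (w k j * δ) : ℂ) * Complex.I * u k j * U k j ω) *
            e0_T (w k') (fun j => (sin (w k' j * δ) : ℂ) * Complex.I * u k' j * U k' j ω))
          (Y ω) ∂PP ≤ ∑ k, ∑ k', sb k * q k * (sb k' * q k') * bb k k' *
            (cb k * cb k' + sb k * sb k') ^ (n + 1) := by
      refine Finset.sum_le_sum fun k _ => ?_
      rw [integral_finsetSum _ fun k' _ => (L1 k k').1]
      exact Finset.sum_le_sum fun k' _ => (le_abs_self _).trans (L1 k k').2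
    refine (add_le_add b1 (mul_le_mul_of_nonneg_left b2 h0)).trans (le_of_eq ?_)
    rw [add_assoc, ← mul_add, ← Finset.sum_add_distrib]
    congr 1
    · refine Finset.sum_congr rfl fun k _ => ?_
      ring
    · congr 1
      refine Finset.sum_congr rfl fun k _ => ?_
      rw [← Finset.sum_add_distrib]
      refine Finset.sum_congr rfl fun k' _ => ?_
      rw [Finset.sum_range_succ', mul_add, Finset.mul_sum, Finset.mul_sum]
      congr 1
      · refine Finset.sum_congr rfl fun i _ => ?_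
        ring
      · ring

end

theorem rowE0 (hCF : RowCF) : RowE := by
  intro K J _ _ δ c N w h U Ψ Y cb sb bb u₀ h0 _ hΨ hm hb hc hs hc0 hs0 hu hB
  have := hCF.1
  have := e0_L2 h0 hΨ hm hb hc hs hc0 hs0 hB N 0 u₀ (fun _ => 1) (fun _ => zero_le_one)
    (fun k j => by simpa using hu k j)
  simpa only [pow_zero, Module.End.one_apply, one_mul, zero_add, ker] using this

end Vale.Agent.Q105
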