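import Vale.Agent.Q105.Chk

/-!
# Row G: the family given by a list of entries and the special word
-/

open MeasureTheory Real Finset

namespace Vale.Agent.Q105

open Vale.Agent.P105

theorem g_sq (s : Bool) : sgn s * sgn s = 1 := by cases s <;> simp [sgn]

theorem g_abs (s : Bool) : |sgn s| = 1 := by cases s <;> simp [sgn]

theorem g_xor (s s' : Bool) : sgn (xor s s') = -(sgn s * sgn s') := by
  cases s <;> cases s' <;> simp [sgn]

theorem g_not (s : Bool) : sgn (!s) = -sgn s := by cases s <;> simp [sgn]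

theorem g_cast (s : Bool) : (((if s then 1 else -1 : ℤ) : ℤ) : ℝ) = sgn s := by
  cases s <;> simp [sgn]

theorem g_one (hCF : RowCF) (a : ℕ → ℝ) : |amp a| ≤ 1 := by
  have := hCF.1
  have h := norm_integral_le_of_norm_le_const (μ := PP) (f := fun ω => cos (π * ph a ω)) (C := 1)
    (Filter.Eventually.of_forall fun ω => abs_cos_le_one _)
  simpa [amp] using h

theorem g_sgn (hCF : RowCF) (s : Bool) (a : ℕ → ℝ) : amp (fun i => sgn s * a i) = amp a := by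
  cases s
  · have : (fun i => sgn false * a i) = -a := by
      ext i
      simp [sgn]
    rw [this, hCF.2.1]
  · simp [sgn]

theorem g_swap (hCF : RowCF) (a a' : ℕ → ℝ) : amp (a - a') = amp (a' - a) := by
  rw [← hCF.2.1, neg_sub]

theorem g_ok (hCF : RowCF) {f : ℕ → Bool → ℕ} {U e : ℕ} {s : Bool} {a : ℕ → ℝ}
    (h : okU f U e s = true) (ha : |amp a| ≤ (f e s : ℝ) / 2 ^ 40) :
    |amp a| ≤ (look U (pos e s) : ℝ) / 2 ^ 31 := by
  unfold okU at h
  generalize look U (pos e s) = t at h ⊢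
  by_cases ht : 2147483648 ≤ t
  · have h1 : ((2147483648 : ℕ) : ℝ) ≤ t := Nat.cast_le.2 ht
    refine (g_one hCF a).trans ?_
    rw [le_div_iff₀ (by positivity)]
    push_cast at h1
    linarith
  · have h0 : Nat.ble 2147483648 t = false := by
      rw [Bool.eq_false_iff]
      intro h'
      exact ht (Nat.le_of_ble_eq_true h')
    rw [h0, cond_false] at h
    have h1 : f e s ≤ 512 * t := Nat.le_of_ble_eq_true h
    have h2 : (f e s : ℝ) ≤ ((512 * t : ℕ) : ℝ) := Nat.cast_le.2 h1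
    push_cast at h2
    refine ha.trans ?_
    rw [div_le_div_iff₀ (by positivity) (by positivity)]
    linarith

theorem g_lt (hCF : RowCF) (D : Dat) (k g g' : ℕ) (s s' : Bool) (hg : g ≤ g') (hk : g ≤ k) :
    amp ((fun i : ℕ => D.dip g s ((k : ℤ) - i)) - fun i : ℕ => D.dip g' s' ((k : ℤ) - i)) =
      amp fun i : ℕ => D.dip (g' - g) (xor s s') (((k - g : ℕ) : ℤ) - i) := by
  rw [← g_sgn hCF s fun i : ℕ => D.dip (g' - g) (xor s s') (((k - g : ℕ) : ℤ) - i)]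
  congr 1
  ext i
  have e1 : ((k - g : ℕ) : ℤ) - i = (k : ℤ) - i - g := by
    rw [Nat.cast_sub hk]
    ring
  have e2 : (k : ℤ) - i - g - ((g' - g : ℕ) : ℤ) = (k : ℤ) - i - g' := by
    rw [Nat.cast_sub hg]
    ring
  simp only [Pi.sub_apply, Dat.dip, e1, e2, g_xor]
  linear_combination (sgn s' * D.y ((k : ℤ) - i - g')) * g_sq s

theorem g_pair (hCF : RowCF) (hK2 : RowK2) {D : Dat} (hD : D.Good) (hT : Tab D) {U : ℕ}
    (hU : ∀ e ≤ 1300, ∀ s, okU upD U e s = true) (k : ℕ) (hk : 1800 ≤ k) (x x' : Ent)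
    (hx : x.1 ≤ 1300) (hx' : x'.1 ≤ 1300) :
    |amp ((fun i : ℕ => D.dip x.1 x.2.1 ((k : ℤ) - i)) -
      fun i : ℕ => D.dip x'.1 x'.2.1 ((k : ℤ) - i))| ≤ (pairU U x x' : ℝ) / 2 ^ 31 := by
  unfold pairU
  rcases lt_trichotomy x.1 x'.1 with h | h | h
  · have h0 : Nat.beq x.1 x'.1 = false := by
      rw [Bool.eq_false_iff]
      intro h'
      exact h.ne (Nat.eq_of_beq_eq_true h')
    have h1 : adf x.1 x'.1 = x'.1 - x.1 := by
      change (x.1 - x'.1) + (x'.1 - x.1) = _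
      omega
    rw [h0, cond_false, h1, g_lt hCF D k _ _ _ _ h.le (by omega)]
    exact g_ok hCF (hU _ (by omega) _)
      ((hK2 D hD hT (k - x.1)).1 _ _ (by omega) (by omega))
  · have h0 : Nat.beq x.1 x'.1 = true := by
      rw [h]
      exact Nat.beq_refl _
    rw [h0, cond_true]
    refine (g_one hCF _).trans ?_
    norm_num
  · have h0 : Nat.beq x.1 x'.1 = false := by
      rw [Bool.eq_false_iff]
      intro h'
      exact h.ne' (Nat.eq_of_beq_eq_true h')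
    have h1 : adf x.1 x'.1 = x.1 - x'.1 := by
      change (x.1 - x'.1) + (x'.1 - x.1) = _
      omega
    rw [h0, cond_false, h1, g_swap hCF, g_lt hCF D k _ _ _ _ h.le (by omega), Bool.xor_comm]
    exact g_ok hCF (hU _ (by omega) _)
      ((hK2 D hD hT (k - x'.1)).1 _ _ (by omega) (by omega))

theorem g_mix (hCF : RowCF) (hK2 : RowK2) {D : Dat} (hD : D.Good) (hT : Tab D) {UZ : ℕ}
    (hU : ∀ e ≤ 1300, ∀ s, okU upZ UZ e s = true) (k : ℕ) (hk : 1800 ≤ k) (x : Ent)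
    (h1 : 33 ≤ x.1) (hx : x.1 ≤ 1300) :
    |amp ((fun i : ℕ => D.y ((k : ℤ) - i) + D.z ((k : ℤ) - i - 32)) -
      fun i : ℕ => D.dip x.1 x.2.1 ((k : ℤ) - i))| ≤
      (look UZ (pos (x.1 - 32) (!x.2.1)) : ℝ) / 2 ^ 31 := by
  have h2 := (hK2 D hD hT (k - 32)).2.1 (x.1 - 32) (!x.2.1) (by omega) (by omega)
  have h3 : ((fun i : ℕ => D.y ((k : ℤ) - i) + D.z ((k : ℤ) - i - 32)) -
      fun i : ℕ => D.dip x.1 x.2.1 ((k : ℤ) - i)) =
      fun i : ℕ => D.z (((k - 32 : ℕ) : ℤ) - i) +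
        sgn (!x.2.1) * D.y (((k - 32 : ℕ) : ℤ) - i - (x.1 - 32 : ℕ)) := by
    ext i
    have e1 : ((k - 32 : ℕ) : ℤ) - i = (k : ℤ) - i - 32 := by omega
    have e2 : (k : ℤ) - i - 32 - ((x.1 - 32 : ℕ) : ℤ) = (k : ℤ) - i - x.1 := by omega
    simp only [Pi.sub_apply, Dat.dip, e1, e2, g_not]
    ring
  rw [h3]
  exact g_ok hCF (hU _ (by omega) _) h2

theorem g_fold (E : List Ent) (f : Ent → ℕ) :
    E.foldr (fun x acc => Nat.add (f x) acc) 0 = ∑ j : Fin E.length, f E[j.1] := by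
  rw [Fin.sum_univ_fun_getElem]
  induction E with
  | nil => rfl
  | cons x E ih =>
    rw [List.foldr_cons, ih, List.map_cons, List.sum_cons]
    rfl

theorem g_y (D : Dat) (hb : D.b ≠ 0) (hγ : D.γ ≠ 0) (m : ℤ) (g : ℕ) :
    D.y (m - g) = D.c * D.b⁻¹ ^ g * D.b ^ m + 2 * (D.r * D.γ⁻¹ ^ g * D.γ ^ m).re - D.N (m - g) := by
  unfold Dat.y
  have e1 : D.b ^ (m - g) = D.b⁻¹ ^ g * D.b ^ m := by
    rw [zpow_sub₀ hb, zpow_natCast, inv_pow, div_eq_inv_mul]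
  have e2 : D.γ ^ (m - g) = D.γ⁻¹ ^ g * D.γ ^ m := by
    rw [zpow_sub₀ hγ, zpow_natCast, inv_pow, div_eq_inv_mul]
  rw [e1, e2, ← mul_assoc, ← mul_assoc]

theorem g_b {D : Dat} (hD : D.Good) (g : ℕ) (hg : 32 ≤ g) :
    0 ≤ D.b⁻¹ ^ g ∧ D.b⁻¹ ^ g ≤ 1 / 10 ^ 7 := by
  have h1 := hD.out.b1
  have h0 : 0 ≤ D.b⁻¹ := inv_nonneg.2 (by linarith)
  have h2 : D.b⁻¹ ≤ 0.6 := by
    rw [inv_le_comm₀ (by linarith) (by norm_num)]
    refine le_trans ?_ h1
    norm_num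
  refine ⟨pow_nonneg h0 _, ?_⟩
  calc D.b⁻¹ ^ g ≤ D.b⁻¹ ^ 32 := pow_le_pow_of_le_one h0 (by linarith) hg
    _ ≤ 0.6 ^ 32 := pow_le_pow_left₀ h0 h2 _
    _ ≤ 1 / 10 ^ 7 := by norm_num

theorem g_g1 {D : Dat} (hD : D.Good) : 1 ≤ ‖D.γ‖ := by
  have h1 := hD.out.n1
  have h0 := norm_nonneg D.γ
  nlinarith

theorem g_g {D : Dat} (hD : D.Good) (g : ℕ) : ‖D.γ⁻¹ ^ g‖ ≤ 1 := by
  rw [norm_pow, norm_inv]
  exact pow_le_one₀ (by positivity) (inv_le_one_of_one_le₀ (g_g1 hD))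

theorem g_len : TT.length = 3102 ∧ TT.all (fun t => Nat.ble t 2199023255552) = true := by
  decide +kernel

theorem g_get (i : ℕ) (hi : i < 3102) : TT[i]? = some (TT.getD i 0) ∧
    TT.getD i 0 ≤ 2199023255552 := by
  have h : i < TT.length := by
    rw [g_len.1]
    exact hi
  have h1 : TT[i]? = some TT[i] := List.getElem?_eq_getElem h
  have h2 : TT.getD i 0 = TT[i] := by
    rw [List.getD_eq_getElem?_getD, h1, Option.getD_some]
  rw [h2]
  exact ⟨h1, Nat.le_of_ble_eq_true (List.all_eq_true.1 g_len.2 _ (List.getElem_mem h))⟩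

theorem g_TN (i : ℕ) (hi : i < 3102) : TN[i]? = some (2199023255552 - TT.getD i 0) := by
  unfold TN
  rw [List.getElem?_map, (g_get i hi).1]
  rfl

theorem g_TS {D : Dat} (hT : Tab D) (s : Bool) (i : ℕ) (hi : i < 3102) :
    |sgn s * D.y ((i : ℕ) - 1301) + 1 - ((TS s).getD i 0 : ℝ) / 2 ^ 40| ≤ 1 / 2 ^ 40 := by
  have h := hT i hi
  cases s
  · have h1 : (TS false).getD i 0 = 2199023255552 - TT.getD i 0 := by
      change TN.getD i 0 = _
      rw [List.getD_eq_getElem?_getD, g_TN i hi, Option.getD_some]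
    rw [h1, Nat.cast_sub (g_get i hi).2, ← abs_neg]
    convert h using 2
    simp only [sgn, Bool.false_eq_true, if_false]
    push_cast
    ring
  · have h1 : TS true = TT := rfl
    rw [h1]
    simpa only [sgn, if_true, one_mul] using h

theorem g_ZZ {D : Dat} (hT : Tab D) (i : ℕ) (hi : i < 3098) :
    |D.z ((i : ℕ) - 1297) + 3 - (ZZ.getD i 0 : ℝ) / 2 ^ 40| ≤ 3 / 2 ^ 40 := by
  have h1 : ZZ.getD i 0 =
      TT.getD (4 + i) 0 + ((2199023255552 - TT.getD (3 + i) 0) + TT.getD i 0) := by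
    unfold ZZ
    rw [List.getD_eq_getElem?_getD, List.getElem?_zipWith, List.getElem?_zipWith,
      List.getElem?_drop, List.getElem?_drop, (g_get (4 + i) (by omega)).1,
      g_TN (3 + i) (by omega), (g_get i (by omega)).1]
    rfl
  have a1 := hT (4 + i) (by omega)
  have a2 := hT (3 + i) (by omega)
  have a3 := hT i (by omega)
  have e1 : ((4 + i : ℕ) : ℤ) - 1301 = (i : ℤ) - 1297 := by omega
  have e2 : ((3 + i : ℕ) : ℤ) - 1301 = (i : ℤ) - 1297 - 1 := by omega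
  have e3 : (i : ℤ) - 1301 = (i : ℤ) - 1297 - 4 := by omega
  rw [e1] at a1
  rw [e2] at a2
  rw [e3] at a3
  rw [h1, Nat.cast_add, Nat.cast_add, Nat.cast_sub (g_get (3 + i) (by omega)).2]
  unfold Dat.z
  generalize ((TT.getD (4 + i) 0 : ℕ) : ℝ) = t1 at a1 ⊢
  generalize ((TT.getD (3 + i) 0 : ℕ) : ℝ) = t2 at a2 ⊢
  generalize ((TT.getD i 0 : ℕ) : ℝ) = t3 at a3 ⊢
  rw [abs_le] at a1 a2 a3 ⊢
  push_cast
  constructor <;> linarith [a1.1, a1.2, a2.1, a2.2, a3.1, a3.2]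

theorem g_drop (L : List ℕ) (n i : ℕ) : (L.drop n).getD i 0 = L.getD (n + i) 0 := by
  rw [List.getD_eq_getElem?_getD, List.getD_eq_getElem?_getD, List.getElem?_drop]

theorem g_near {o : ℕ} {L L' : List ℕ} (h : near o L L' = true) {i : ℕ} (hi : i < 37) {v : ℝ}
    (hv : |v + o - ((L.getD i 0 : ℝ) + L'.getD i 0) / 2 ^ 40| ≤ 4 / 2 ^ 40) :
    |v - (yh.getD i 0 : ℝ) / 10 ^ 5| ≤ 0.0087 := by
  have h1 := of_decide_eq_true (List.all_eq_true.1 h i (List.mem_range.2 hi))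
  generalize L.getD i 0 = p at h1 hv
  generalize L'.getD i 0 = q at h1 hv
  generalize yh.getD i 0 = c at h1 ⊢
  have h2 : 100000 * ((p : ℤ) + q - o * 1099511627776) - c * 1099511627776 + 400000 ≤
      870 * 1099511627776 := by omega
  have h3 : -(100000 * ((p : ℤ) + q - o * 1099511627776) - c * 1099511627776) + 400000 ≤
      870 * 1099511627776 := by omega
  have h4 := (Int.cast_le (R := ℝ)).2 h2
  have h5 := (Int.cast_le (R := ℝ)).2 h3
  push_cast at h4 h5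
  rw [abs_le] at hv ⊢
  constructor <;> linarith [hv.1, hv.2]

theorem g_okN {x : Ent} (h : okN x = true) : 33 ≤ x.1 ∧ x.1 ≤ 1300 ∧
    near 2 (TT.drop 1313) ((TS x.2.1).drop (1313 - x.1)) = true := by
  unfold okN at h
  rw [Bool.and_eq_true, Bool.and_eq_true] at h
  exact ⟨Nat.le_of_ble_eq_true h.1.1, Nat.le_of_ble_eq_true h.1.2, h.2⟩

theorem g_nearD {D : Dat} (hT : Tab D) {x : Ent} (h : okN x = true) {i : ℕ} (hi : i < 37) :
    |D.dip x.1 x.2.1 ((12 + i : ℕ) : ℤ) - (yh.getD i 0 : ℝ) / 10 ^ 5| ≤ 0.0087 := by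
  obtain ⟨h1, h2, h3⟩ := g_okN h
  refine g_near h3 hi ?_
  rw [g_drop, g_drop]
  have a1 := hT (1313 + i) (by omega)
  have a2 := g_TS hT x.2.1 (1313 - x.1 + i) (by omega)
  have e1 : ((1313 + i : ℕ) : ℤ) - 1301 = ((12 + i : ℕ) : ℤ) := by omega
  have e2 : ((1313 - x.1 + i : ℕ) : ℤ) - 1301 = ((12 + i : ℕ) : ℤ) - x.1 := by omega
  rw [e1] at a1
  rw [e2] at a2
  unfold Dat.dip
  generalize ((TT.getD (1313 + i) 0 : ℕ) : ℝ) = t1 at a1 ⊢
  generalize (((TS x.2.1).getD (1313 - x.1 + i) 0 : ℕ) : ℝ) = t2 at a2 ⊢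
  rw [abs_le] at a1 a2 ⊢
  push_cast at a1 a2 ⊢
  constructor <;> linarith [a1.1, a1.2, a2.1, a2.2]

theorem g_nearZ {D : Dat} (hT : Tab D) (h : near 4 (TT.drop 1313) (ZZ.drop 1277) = true) {i : ℕ}
    (hi : i < 37) : |D.y ((12 + i : ℕ) : ℤ) + D.z (((12 + i : ℕ) : ℤ) - 32) -
      (yh.getD i 0 : ℝ) / 10 ^ 5| ≤ 0.0087 := by
  refine g_near h hi ?_
  rw [g_drop, g_drop]
  have a1 := hT (1313 + i) (by omega)
  have a2 := g_ZZ hT (1277 + i) (by omega)
  have e1 : ((1313 + i : ℕ) : ℤ) - 1301 = ((12 + i : ℕ) : ℤ) := by omega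
  have e2 : ((1277 + i : ℕ) : ℤ) - 1297 = ((12 + i : ℕ) : ℤ) - 32 := by omega
  rw [e1] at a1
  rw [e2] at a2
  generalize ((TT.getD (1313 + i) 0 : ℕ) : ℝ) = t1 at a1 ⊢
  generalize ((ZZ.getD (1277 + i) 0 : ℕ) : ℝ) = t2 at a2 ⊢
  rw [abs_le] at a1 a2 ⊢
  push_cast at a1 a2 ⊢
  constructor <;> linarith [a1.1, a1.2, a2.1, a2.2]

/-- the family attached to a list of entries and the weight of the special word -/
noncomputable def g_fam {D : Dat} (hD : D.Good) (E : List Ent) (hz : ℕ)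
    (hN : ∀ x ∈ E, okN x = true) (hs : (E.map fun x => x.2.2.1).sum + hz ≤ 10 ^ 6) :
    Fam D (Option (Fin E.length)) where
  h j := j.elim ((hz : ℝ) / 10 ^ 6) fun j => (E[j.1].2.2.1 : ℝ) / 10 ^ 6
  Wb j := j.elim (1 + D.b⁻¹ ^ 32 - D.b⁻¹ ^ 33 + D.b⁻¹ ^ 36)
    fun j => 1 + sgn E[j.1].2.1 * D.b⁻¹ ^ E[j.1].1
  Wg j := j.elim (1 + D.γ⁻¹ ^ 32 - D.γ⁻¹ ^ 33 + D.γ⁻¹ ^ 36)
    fun j => 1 + (sgn E[j.1].2.1 : ℝ) * D.γ⁻¹ ^ E[j.1].1
  n j := j.elim (fun m => D.N m + D.N (m - (32 : ℕ)) - D.N (m - (33 : ℕ)) + D.N (m - (36 : ℕ)))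
    fun j m => D.N m + (if E[j.1].2.1 then 1 else -1) * D.N (m - E[j.1].1)
  v j := j.elim (fun m => D.y m + D.z (m - 32)) fun j => D.dip E[j.1].1 E[j.1].2.1
  k0 := 1800
  h0 j := by
    cases j <;> simp only [Option.elim] <;> positivity
  h1 := by
    rw [Fintype.sum_option]
    simp only [Option.elim]
    rw [← Fin.sum_univ_fun_getElem E fun x => x.2.2.1] at hs
    have h := (Nat.cast_le (α := ℝ)).2 hs
    push_cast at h
    rw [← sum_div, ← add_div, div_le_one (by positivity)]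
    linarith
  hv j m := by
    have hb : D.b ≠ 0 := by
      have := hD.out.b1
      intro h
      rw [h] at this
      norm_num at this
    have hγ : D.γ ≠ 0 := by
      have := g_g1 hD
      intro h
      rw [h] at this
      norm_num at this
    cases j with
    | none =>
      have e1 : m - 32 - 1 = m - (33 : ℕ) := by omega
      have e2 : m - 32 - 4 = m - (36 : ℕ) := by omega
      have e3 : m - 32 = m - (32 : ℕ) := by omega
      have e4 : D.r * (1 + D.γ⁻¹ ^ 32 - D.γ⁻¹ ^ 33 + D.γ⁻¹ ^ 36) * D.γ ^ m =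
          D.r * D.γ ^ m + D.r * D.γ⁻¹ ^ 32 * D.γ ^ m - D.r * D.γ⁻¹ ^ 33 * D.γ ^ m +
            D.r * D.γ⁻¹ ^ 36 * D.γ ^ m := by ring
      simp only [Option.elim, Dat.z]
      rw [e1, e2, e3, g_y D hb hγ, g_y D hb hγ, g_y D hb hγ, e4, Complex.add_re, Complex.sub_re,
        Complex.add_re, Dat.y, Int.cast_add, Int.cast_sub, Int.cast_add]
      ring
    | some j =>
      simp only [Option.elim, Dat.dip]
      generalize E[j.1].1 = g
      generalize E[j.1].2.1 = s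
      have e4 : D.r * (1 + (sgn s : ℝ) * D.γ⁻¹ ^ g) * D.γ ^ m =
          D.r * D.γ ^ m + (sgn s : ℝ) * (D.r * D.γ⁻¹ ^ g * D.γ ^ m) := by ring
      rw [g_y D hb hγ, e4, Complex.add_re, Complex.re_ofReal_mul, Dat.y, Int.cast_add,
        Int.cast_mul, g_cast]
      ring
  hn j m hm := by
    cases j with
    | none =>
      simp only [Option.elim]
      rw [hD.N0 m (by omega), hD.N0 (m - (32 : ℕ)) (by omega), hD.N0 (m - (33 : ℕ)) (by omega),
        hD.N0 (m - (36 : ℕ)) (by omega)]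
      rfl
    | some j =>
      simp only [Option.elim]
      rw [hD.N0 m (by omega), hD.N0 (m - E[j.1].1) (by omega), mul_zero, add_zero]
  hb j := by
    cases j with
    | none =>
      have a1 := g_b hD 32 le_rfl
      have a2 := g_b hD 33 (by omega)
      have a3 := g_b hD 36 (by omega)
      simp only [Option.elim]
      rw [abs_le]
      constructor <;> linarith [a1.1, a1.2, a2.1, a2.2, a3.1, a3.2]
    | some j =>
      have a1 := g_b hD E[j.1].1 (by have := (g_okN (hN _ (List.getElem_mem j.2))).1; omega)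
      simp only [Option.elim]
      rw [add_sub_cancel_left, abs_mul, g_abs, one_mul, abs_of_nonneg a1.1]
      linarith [a1.2]
  hg j := by
    cases j with
    | none =>
      have a1 := g_g hD 32
      have a2 := g_g hD 33
      have a3 := g_g hD 36
      have b1 := norm_add_le (1 + D.γ⁻¹ ^ 32 - D.γ⁻¹ ^ 33) (D.γ⁻¹ ^ 36)
      have b2 := norm_sub_le (1 + D.γ⁻¹ ^ 32) (D.γ⁻¹ ^ 33)
      have b3 := norm_add_le 1 (D.γ⁻¹ ^ 32)
      rw [norm_one] at b3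
      simp only [Option.elim]
      linarith
    | some j =>
      have a1 := g_g hD E[j.1].1
      have b3 := norm_add_le 1 ((sgn E[j.1].2.1 : ℝ) * D.γ⁻¹ ^ E[j.1].1)
      rw [norm_one, norm_mul, Complex.norm_real, Real.norm_eq_abs, g_abs, one_mul] at b3
      simp only [Option.elim]
      linarith

theorem g_gain {J : Type} [Fintype J] (hz lz : ℕ) (h l : J → ℕ) :
    (0.9985 * ((∑ j, h j * l j : ℕ) : ℝ) + 0.994 * (hz * lz : ℕ)) / (10 ^ 6 * 2 ^ 40) =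
      (hz : ℝ) / 10 ^ 6 * ((lz : ℝ) / 2 ^ 40 * 0.994) +
        ∑ j, (h j : ℝ) / 10 ^ 6 * ((l j : ℝ) / 2 ^ 40 * 0.9985) := by
  have e : ∑ j, (h j : ℝ) / 10 ^ 6 * ((l j : ℝ) / 2 ^ 40 * 0.9985) =
      0.9985 * (∑ j, (h j : ℝ) * l j) / (10 ^ 6 * 2 ^ 40) := by
    rw [mul_sum, sum_div]
    exact sum_congr rfl fun j _ => by ring
  rw [e]
  push_cast
  ring

theorem g_gram {J : Type} [Fintype J] (hz S1 S2 : ℕ) (h t : J → ℕ) (p : J → J → ℕ)
    (h1 : ∑ j, h j * ∑ j', h j' * p j j' ≤ S1) (h2 : ∑ j, h j * t j ≤ S2) :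
    ((hz : ℝ) / 10 ^ 6 * ((hz : ℝ) / 10 ^ 6) * 1 +
      ∑ j, (hz : ℝ) / 10 ^ 6 * ((h j : ℝ) / 10 ^ 6) * ((t j : ℝ) / 2 ^ 31)) +
      ∑ j, ((hz : ℝ) / 10 ^ 6 * ((h j : ℝ) / 10 ^ 6) * ((t j : ℝ) / 2 ^ 31) +
        ∑ j', (h j : ℝ) / 10 ^ 6 * ((h j' : ℝ) / 10 ^ 6) * ((p j j' : ℝ) / 2 ^ 31)) ≤
      (S1 + 2 * hz * S2 + hz ^ 2 * 2 ^ 31 : ℕ) / (10 ^ 12 * 2 ^ 31) := by
  have d1 := (Nat.cast_le (α := ℝ)).2 h1
  have d2 := (Nat.cast_le (α := ℝ)).2 h2
  push_cast at d1 d2 ⊢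
  have f1 : ∑ j, (hz : ℝ) / 10 ^ 6 * ((h j : ℝ) / 10 ^ 6) * ((t j : ℝ) / 2 ^ 31) =
      (hz : ℝ) * (∑ j, (h j : ℝ) * t j) / (10 ^ 12 * 2 ^ 31) := by
    rw [mul_sum, sum_div]
    exact sum_congr rfl fun j _ => by ring
  have f2 : ∑ j, ∑ j', (h j : ℝ) / 10 ^ 6 * ((h j' : ℝ) / 10 ^ 6) * ((p j j' : ℝ) / 2 ^ 31) =
      (∑ j, (h j : ℝ) * ∑ j', (h j' : ℝ) * p j j') / (10 ^ 12 * 2 ^ 31) := by
    rw [sum_div]
    refine sum_congr rfl fun j _ => ?_
    rw [mul_sum, sum_div]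
    exact sum_congr rfl fun j' _ => by ring
  rw [sum_add_distrib, f1, f2]
  have d3 := mul_le_mul_of_nonneg_left d2 (Nat.cast_nonneg (α := ℝ) hz)
  generalize (hz : ℝ) * (∑ j, (h j : ℝ) * t j) = A at d3 ⊢
  generalize (∑ j, (h j : ℝ) * ∑ j', (h j' : ℝ) * p j j') = B at d1 ⊢
  rw [le_div_iff₀ (by positivity)]
  linarith

theorem g_gramD (U : ℕ) (E : List Ent) : gramD U E E = ∑ j : Fin E.length, E[j.1].2.2.1 *
    ∑ j' : Fin E.length, E[j'.1].2.2.1 * pairU U E[j.1] E[j'.1] := by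
  unfold gramD
  rw [g_fold E fun x => Nat.mul x.2.2.1 (rowG U E x)]
  refine sum_congr rfl fun j _ => ?_
  unfold rowG
  rw [g_fold E fun x' => Nat.mul x'.2.2.1 (pairU U E[j.1] x')]
  rfl

theorem g_gramZ (UZ : ℕ) (E : List Ent) : gramZ UZ E = ∑ j : Fin E.length, E[j.1].2.2.1 *
    look UZ (pos (E[j.1].1 - 32) (!E[j.1].2.1)) := by
  unfold gramZ
  rw [g_fold E fun x => Nat.mul x.2.2.1 (look UZ (pos (x.1 - 32) (!x.2.1)))]
  rfl

theorem rowG_ok (hCF : RowCF) (hK2 : RowK2) : RowG := by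
  intro D hD hT E U UZ hz lz S1 S2 hU hUZ hL hN hlz hnear hS1 hS2 hs
  have hm : ∀ j : Fin E.length, 33 ≤ E[j.1].1 ∧ E[j.1].1 ≤ 1300 := fun j =>
    ⟨(g_okN (hN _ (List.getElem_mem j.2))).1, (g_okN (hN _ (List.getElem_mem j.2))).2.1⟩
  have h0 := (g_fam hD E hz hN hs).h0
  refine ⟨g_fam hD E hz hN hs, rfl, fun k hk => ?_, fun k hk => ?_, fun j i hi => ?_⟩
  · replace hk : 1800 ≤ k := hk
    have a1 : (lz : ℝ) / 2 ^ 40 * 0.994 ≤ |amp ((g_fam hD E hz hN hs).a k none)| := by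
      refine le_trans ?_ ((hK2 D hD hT k).2.2.2 (by omega))
      have : (lz : ℝ) ≤ loZ := Nat.cast_le.2 hlz
      generalize (loZ : ℝ) = t at this
      gcongr
    have a2 : ∀ j : Fin E.length, (E[j.1].2.2.2 : ℝ) / 2 ^ 40 * 0.9985 ≤
        |amp ((g_fam hD E hz hN hs).a k (some j))| := fun j => by
      refine le_trans ?_
        ((hK2 D hD hT k).2.2.1 E[j.1].1 E[j.1].2.1 (hm j).2 (by have := (hm j).2; omega))
      have : (E[j.1].2.2.2 : ℝ) ≤ loD E[j.1].1 E[j.1].2.1 :=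
        Nat.cast_le.2 (Nat.le_of_ble_eq_true (hL _ (List.getElem_mem j.2)))
      generalize (loD E[j.1].1 E[j.1].2.1 : ℝ) = t at this
      gcongr
    rw [Fintype.sum_option, ← Fin.sum_univ_fun_getElem E fun x => x.2.2.1 * x.2.2.2,
      g_gain hz lz (fun j : Fin E.length => E[j.1].2.2.1) fun j => E[j.1].2.2.2]
    exact add_le_add (mul_le_mul_of_nonneg_left a1 (h0 none))
      (sum_le_sum fun j _ => mul_le_mul_of_nonneg_left (a2 j) (h0 (some j)))
  · replace hk : 1800 ≤ k := hk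
    rw [g_gramD] at hS1
    rw [g_gramZ] at hS2
    refine le_trans ?_ (g_gram hz S1 S2 (fun j : Fin E.length => E[j.1].2.2.1)
      (fun j => look UZ (pos (E[j.1].1 - 32) (!E[j.1].2.1))) (fun j j' => pairU U E[j.1] E[j'.1])
      hS1 hS2)
    simp only [Fintype.sum_option]
    have b1 : ∀ j : Fin E.length,
        |amp ((g_fam hD E hz hN hs).a k none - (g_fam hD E hz hN hs).a k (some j))| ≤
          (look UZ (pos (E[j.1].1 - 32) (!E[j.1].2.1)) : ℝ) / 2 ^ 31 := fun j =>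
      g_mix hCF hK2 hD hT hUZ k hk E[j.1] (hm j).1 (hm j).2
    refine add_le_add (add_le_add
      (mul_le_mul_of_nonneg_left (g_one hCF _) (mul_nonneg (h0 none) (h0 none)))
      (sum_le_sum fun j _ => mul_le_mul_of_nonneg_left (b1 j) (mul_nonneg (h0 none) (h0 (some j)))))
      (sum_le_sum fun j _ => add_le_add ?_ (sum_le_sum fun j' _ => mul_le_mul_of_nonneg_left
        (g_pair hCF hK2 hD hT hU k hk E[j.1] E[j'.1] (hm j).2 (hm j').2)
        (mul_nonneg (h0 (some j)) (h0 (some j')))))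
    rw [g_swap hCF, mul_comm ((g_fam hD E hz hN hs).h (some j))]
    exact mul_le_mul_of_nonneg_left (b1 j) (mul_nonneg (h0 none) (h0 (some j)))
  · cases j with
    | none => exact g_nearZ hT hnear hi
    | some j => exact g_nearD hT (hN _ (List.getElem_mem j.2)) hi

end Vale.Agent.Q105
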