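import Mathlib

/-!
# A non-real root of modulus `> 1` of `x^33 - x^32 - x^31 - x^30 - 1`
-/

open Polynomial

namespace Vale.Agent.Q105

theorem pow_card_le_norm_prod (z : ℂ) (δ : ℝ) (hδ : 0 ≤ δ) (s : Multiset ℂ)
    (h : ∀ r ∈ s, δ ≤ ‖z - r‖) : δ ^ s.card ≤ ‖(s.map (fun r => z - r)).prod‖ := by
  induction s using Multiset.induction_on with
  | empty => simp
  | cons a s ih =>
    rw [Multiset.map_cons, Multiset.prod_cons, norm_mul, Multiset.card_cons, pow_succ']
    exact mul_le_mul (h a (Multiset.mem_cons_self _ _))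
      (ih fun r hr => h r (Multiset.mem_cons_of_mem hr)) (pow_nonneg hδ _) (norm_nonneg _)

/-- A monic complex polynomial which is small at `z` has a root near `z`. -/
theorem exists_root_near (p : ℂ[X]) (hp : p.Monic) (z : ℂ) (δ : ℝ) (hδ : 0 ≤ δ)
    (h : ‖p.eval z‖ < δ ^ p.natDegree) : ∃ r, p.eval r = 0 ∧ ‖z - r‖ < δ := by
  by_contra hc
  have hc' : ∀ r ∈ p.roots, δ ≤ ‖z - r‖ := fun r hr =>
    not_lt.mp fun hl => hc ⟨r, (mem_roots hp.ne_zero).mp hr, hl⟩
  have hs : p.Splits := IsAlgClosed.splits p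
  have h1 := pow_card_le_norm_prod z δ hδ p.roots hc'
  rw [← hs.eval_eq_prod_roots_of_monic hp, ← hs.natDegree_eq_card_roots] at h1
  exact absurd h (not_lt.mpr h1)

/-- The approximate root, times `10 ^ 140`. -/
def outW : GaussianInt :=
  ⟨-64808730227542655876706548053487393123967025407488141277015271598373271913285888906872354345374599935371450680002817846428001868369258237685,
    76170339278232464117015583168344703786933349601176527039985577507580225020788022751439639358868542127080542320242232369346991390685849928877⟩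

/-- The scale. -/
def outD : GaussianInt := ⟨10 ^ 140, 0⟩

theorem out_small : (outW ^ 33 - outD * outW ^ 32 - outD ^ 2 * outW ^ 31 - outD ^ 3 * outW ^ 30
    - outD ^ 33).norm * 10 ^ 264 < (10 ^ 140) ^ 66 := by decide +kernel

theorem out_big : (10001 * 10 ^ 140) ^ 2 ≤ outW.norm * 10 ^ 8 := by decide +kernel

theorem le_of_sq_le_sq_aux {a b : ℝ} (h : a ^ 2 ≤ b ^ 2) (hb : 0 ≤ b) : a ≤ b :=
  le_of_abs_le (by simpa [abs_of_nonneg hb] using sq_le_sq.mp h)

theorem out_root : ∃ z : ℂ, z ^ 33 - z ^ 32 - z ^ 31 - z ^ 30 - 1 = 0 ∧ 1 < ‖z‖ ∧ z.im ≠ 0 := by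
  set p : ℂ[X] := X ^ 33 - X ^ 32 - X ^ 31 - X ^ 30 - 1 with hp
  have hm : p.Monic := by rw [hp]; monicity!
  have hd : p.natDegree = 33 := by rw [hp]; compute_degree!
  set D : ℝ := 10 ^ 140 with hD
  have hD0 : 0 < D := by positivity
  have hDc : (D : ℂ) ≠ 0 := by exact_mod_cast hD0.ne'
  have hD' : ((outD : GaussianInt) : ℂ) = (D : ℂ) := by
    rw [outD, GaussianInt.toComplex_def']
    simp only [hD, Int.cast_pow, Int.cast_ofNat, Int.cast_zero, zero_mul, add_zero,
      Complex.ofReal_pow, Complex.ofReal_ofNat]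
  set w : ℂ := (outW : ℂ) with hw
  have hN : ‖w ^ 33 - D * w ^ 32 - D ^ 2 * w ^ 31 - D ^ 3 * w ^ 30 - D ^ 33‖ ^ 2 * 10 ^ 264
      < D ^ 66 := by
    have h1 : (((outW ^ 33 - outD * outW ^ 32 - outD ^ 2 * outW ^ 31 - outD ^ 3 * outW ^ 30
        - outD ^ 33).norm : ℤ) : ℝ) * 10 ^ 264 < D ^ 66 := by
      have := (Int.cast_lt (R := ℝ)).mpr out_small
      simpa only [Int.cast_mul, Int.cast_pow, Int.cast_ofNat] using this
    rw [GaussianInt.intCast_real_norm, ← Complex.sq_norm] at h1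
    simpa only [map_sub, map_mul, map_pow, hD'] using h1
  have hB : (10001 * D) ^ 2 ≤ ‖w‖ ^ 2 * 10 ^ 8 := by
    have := (Int.cast_le (R := ℝ)).mpr out_big
    rw [Int.cast_mul, GaussianInt.intCast_real_norm, ← Complex.sq_norm] at this
    simpa only [Int.cast_mul, Int.cast_pow, Int.cast_ofNat] using this
  have hev : p.eval (w / D) =
      (w ^ 33 - D * w ^ 32 - D ^ 2 * w ^ 31 - D ^ 3 * w ^ 30 - D ^ 33) / D ^ 33 := by
    simp only [hp, eval_sub, eval_pow, eval_X, eval_one]
    clear_value D w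
    field_simp
  have hsm : ‖p.eval (w / D)‖ < (1 / 10 ^ 4 : ℝ) ^ p.natDegree := by
    rw [hev, hd, norm_div, norm_pow, Complex.norm_real, Real.norm_of_nonneg hD0.le,
      div_lt_iff₀ (pow_pos hD0 33)]
    refine lt_of_pow_lt_pow_left₀ 2 (by positivity) ?_
    have e : ((1 / 10 ^ 4 : ℝ) ^ 33 * D ^ 33) ^ 2 = D ^ 66 / 10 ^ 264 := by
      clear_value D
      rw [mul_pow, ← pow_mul, ← pow_mul, div_pow, one_pow, ← pow_mul]
      rw [div_mul_eq_mul_div, one_mul]
    rw [e, lt_div_iff₀ (by positivity)]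
    exact hN
  obtain ⟨r, hr, hn⟩ := exists_root_near p hm (w / D) (1 / 10 ^ 4) (by positivity) hsm
  have hz : (10001 / 10 ^ 4 : ℝ) ≤ ‖w / D‖ := by
    rw [norm_div, Complex.norm_real, Real.norm_of_nonneg hD0.le, le_div_iff₀ hD0]
    refine le_of_sq_le_sq_aux ?_ (norm_nonneg _)
    have e : (10001 / 10 ^ 4 * D) ^ 2 = (10001 * D) ^ 2 / 10 ^ 8 := by
      generalize D = d
      ring
    rw [e, div_le_iff₀ (by positivity)]
    exact hB
  have him : (1 / 2 : ℝ) ≤ (w / D).im := by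
    rw [Complex.div_ofReal_im, le_div_iff₀ hD0, hw, ← GaussianInt.intCast_im, hD]
    simp only [outW]
    norm_num
  refine ⟨r, by simpa [hp] using hr, ?_, ?_⟩
  · have := norm_sub_norm_le (w / D) r
    linarith
  · have h1 := Complex.abs_im_le_norm (w / D - r)
    rw [Complex.sub_im] at h1
    intro h0
    rw [h0, sub_zero] at h1
    have := le_abs_self (w / D).im
    linarith

end Vale.Agent.Q105
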