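import Vale.Agent.P105.SalemDefs
import Vale.Agent.Q105.Root
import Vale.Agent.Q105.Out

/-!
# Neither Pisot nor Salem, given the conjugates
-/

namespace Vale.Agent.Q105

open Vale.Agent.P105.Salem

/-- If every root of `x ^ 33 - x ^ 32 - x ^ 31 - x ^ 30 - 1` which is not a primitive cube root of
unity is a conjugate of `b`, then `b` has a conjugate `z ≠ b` of modulus `> 1`. -/
theorem conj_out {b : ℝ}
    (h : ∀ z : ℂ, z ^ 33 - z ^ 32 - z ^ 31 - z ^ 30 - 1 = 0 → z ^ 2 + z + 1 ≠ 0 →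
      Polynomial.aeval z (minpoly ℚ b) = 0) :
    ∃ z : ℂ, Polynomial.aeval z (minpoly ℚ b) = 0 ∧ z ≠ (b : ℂ) ∧ 1 < ‖z‖ := by
  obtain ⟨z, hz, h1, h2⟩ := out_root
  refine ⟨z, h z hz fun h3 => ?_, fun h3 => h2 (by rw [h3, Complex.ofReal_im]), h1⟩
  have h4 : z ^ 3 = 1 := by linear_combination (z - 1) * h3
  have h5 : ‖z‖ ^ 3 = 1 := by rw [← norm_pow, h4, norm_one]
  exact absurd h5 (one_lt_pow₀ h1 (by norm_num)).ne'

theorem not_pisot_salem_of_conj {b : ℝ}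
    (h : ∃ z : ℂ, Polynomial.aeval z (minpoly ℚ b) = 0 ∧ z ≠ (b : ℂ) ∧ 1 < ‖z‖) :
    ¬ IsPisot b ∧ ¬ IsSalem b := by
  obtain ⟨z, hz, h1, h2⟩ := h
  exact ⟨fun hP => absurd (hP.2.2 z hz h1) (not_lt.2 h2.le),
    fun hS => absurd (hS.2.2.1 z hz h1) (not_le.2 h2)⟩

end Vale.Agent.Q105
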