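import Vale.Agent.Q105.Defs

/-!
# Row H: the exponential inequality for Lebesgue measure
-/

open MeasureTheory Real Filter Topology Finset
open scoped ENNReal

namespace Vale.Agent.Q105

theorem h_shift {F : ℂ → ℝ → ℝ} (hF : Continuous fun p : ℝ × ℂ => F p.2 p.1) (e : ℝ) :
    Continuous fun p : ℝ × ℂ => F p.2 (p.1 + e) :=
  hF.comp (f := fun p : ℝ × ℂ => (p.1 + e, p.2)) (by fun_prop)

theorem h_shift' {F : ℂ → ℝ → ℝ} (hF : Continuous fun p : ℝ × ℂ => F p.2 p.1) (e : ℝ) :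
    Continuous fun p : ℝ × ℂ => F p.2 (p.1 - e) :=
  hF.comp (f := fun p : ℝ × ℂ => (p.1 - e, p.2)) (by fun_prop)

theorem h_Pw {F : ℂ → ℝ → ℝ} (hF : Continuous fun p : ℝ × ℂ => F p.2 p.1) (δ : ℝ) :
    Continuous fun p : ℝ × ℂ => Pw δ (F p.2) p.1 :=
  ((h_shift hF δ).add (h_shift' hF δ)).div_const 2

theorem h_Qw {F : ℂ → ℝ → ℝ} (hF : Continuous fun p : ℝ × ℂ => F p.2 p.1) (δ : ℝ) :
    Continuous fun p : ℝ × ℂ => Qw δ (F p.2) p.1 :=
  ((h_shift hF δ).sub (h_shift' hF δ)).div_const 2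

theorem h_cont (δ c : ℝ) (N : ℕ) : ∀ f : ℂ → ℝ → ℝ, (Continuous fun p : ℝ × ℂ => f p.2 p.1) →
    Continuous fun p : ℝ × ℂ => Rm δ c N (f p.2) p.1 := by
  induction N with
  | zero => intro f hf; exact hf
  | succ N ih =>
    intro f hf
    have h1 := ih (fun z => Pw δ (f z)) (h_Pw hf δ)
    have h2 : Continuous fun p : ℝ × ℂ =>
        (fun z x => Rm δ c N (Pw δ (f z)) x + c * Qw δ (f z) x ^ 2) p.2 p.1 :=
      h1.add (((h_Qw hf δ).pow 2).const_mul c)
    exact h_Pw (F := fun z x => Rm δ c N (Pw δ (f z)) x + c * Qw δ (f z) x ^ 2) h2 δ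

theorem h_one {f : ℝ → ℝ} {G : (ℝ → ℝ) → ℝ → ℝ}
    (h : Continuous fun p : ℝ × ℂ => G ((fun _ : ℂ => f) p.2) p.1) : Continuous (G f) :=
  h.comp (f := fun x : ℝ => (x, (0 : ℂ))) (by fun_prop)

theorem h_lift {f : ℝ → ℝ} (hf : Continuous f) :
    Continuous fun p : ℝ × ℂ => (fun _ : ℂ => f) p.2 p.1 :=
  hf.comp continuous_fst

theorem h_low (δ c M : ℝ) (hc : 0 ≤ c) (N : ℕ) :
    ∀ f : ℝ → ℝ, (∀ x, |f x| ≤ M) → ∀ x, -M ≤ Rm δ c N f x := by
  induction N with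
  | zero => intro f hf x; exact (abs_le.mp (hf x)).1
  | succ N ih =>
    intro f hf x
    have hP : ∀ y, |Pw δ f y| ≤ M := by
      intro y
      have a := abs_le.mp (hf (y + δ))
      have b := abs_le.mp (hf (y - δ))
      unfold Pw
      rw [abs_le]
      constructor <;> linarith [a.1, a.2, b.1, b.2]
    have a := ih _ hP (x + δ)
    have b := ih _ hP (x - δ)
    have a' : 0 ≤ c * Qw δ f (x + δ) ^ 2 := mul_nonneg hc (sq_nonneg _)
    have b' : 0 ≤ c * Qw δ f (x - δ) ^ 2 := mul_nonneg hc (sq_nonneg _)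
    show -M ≤ ((Rm δ c N (Pw δ f) (x + δ) + c * Qw δ f (x + δ) ^ 2) +
      (Rm δ c N (Pw δ f) (x - δ) + c * Qw δ f (x - δ) ^ 2)) / 2
    linarith

theorem h_conv (A B : ℝ) : exp ((A + B) / 2) ≤ exp A / 2 + exp B / 2 := by
  have h1 : exp A = exp (A / 2) * exp (A / 2) := by rw [← exp_add]; ring_nf
  have h2 : exp B = exp (B / 2) * exp (B / 2) := by rw [← exp_add]; ring_nf
  have h3 : exp ((A + B) / 2) = exp (A / 2) * exp (B / 2) := by rw [← exp_add]; ring_nf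
  rw [h1, h2, h3]
  nlinarith [sq_nonneg (exp (A / 2) - exp (B / 2))]

theorem h_sq {κ : ℝ} (hκ : 0 < κ) (Q e : ℝ) :
    (Q - e) ^ 2 ≤ (1 + κ) * Q ^ 2 + (1 + 1 / κ) * e ^ 2 := by
  have h : (1 + κ) * Q ^ 2 + (1 + 1 / κ) * e ^ 2 - (Q - e) ^ 2 = (κ * Q + e) ^ 2 / κ := by
    field_simp
    ring
  have h' : 0 ≤ (κ * Q + e) ^ 2 / κ := by positivity
  linarith

theorem h_sign (q δ : ℝ) : ∃ e : ℝ, e ^ 2 = δ ^ 2 ∧ |q| + e ≤ |q + δ| ∧ |q| - e ≤ |q - δ| := by
  rcases le_total 0 q with h | h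
  · refine ⟨δ, rfl, ?_, ?_⟩
    · rw [abs_of_nonneg h]; exact le_abs_self _
    · rw [abs_of_nonneg h]; exact le_abs_self _
  · refine ⟨-δ, by ring, ?_, ?_⟩
    · rw [abs_of_nonpos h]; linarith [neg_abs_le (q + δ)]
    · rw [abs_of_nonpos h]; linarith [neg_abs_le (q - δ)]

theorem h_pt {κ : ℝ} (hκ : 0 < κ) (δ q P Q r : ℝ) :
    exp ((P - Q) - (r + (1 + κ) / 2 * Q ^ 2) - |q - δ|) / 2 +
      exp ((P + Q) - (r + (1 + κ) / 2 * Q ^ 2) - |q + δ|) / 2 ≤
      exp ((1 + 1 / κ) * δ ^ 2 / 2) * exp (P - r - |q|) := by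
  obtain ⟨e, he, h1, h2⟩ := h_sign q δ
  have hs := h_sq hκ Q e
  rw [he] at hs
  set T := P - (r + (1 + κ) / 2 * Q ^ 2) - |q| with hT
  have a1 : exp ((P - Q) - (r + (1 + κ) / 2 * Q ^ 2) - |q - δ|) ≤ exp T * exp (-(Q - e)) := by
    rw [← exp_add]; apply exp_le_exp.mpr; rw [hT]; linarith
  have a2 : exp ((P + Q) - (r + (1 + κ) / 2 * Q ^ 2) - |q + δ|) ≤ exp T * exp (Q - e) := by
    rw [← exp_add]; apply exp_le_exp.mpr; rw [hT]; linarith
  have a3 := Real.cosh_le_exp_half_sq (Q - e)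
  rw [Real.cosh_eq] at a3
  have a4 : exp T * exp ((Q - e) ^ 2 / 2) ≤
      exp ((1 + 1 / κ) * δ ^ 2 / 2) * exp (P - r - |q|) := by
    rw [← exp_add, ← exp_add]; apply exp_le_exp.mpr; rw [hT]; linarith
  have a5 := mul_le_mul_of_nonneg_left a3 (exp_pos T).le
  linarith

theorem h_base : ∫⁻ x : ℝ, ENNReal.ofReal (exp (-|x|)) ≤ ENNReal.ofReal 10 := by
  have h1 : ∀ x : ℝ, exp (-|x|) ≤ 2 * (1 + x ^ 2)⁻¹ := by
    intro x
    have h0 := abs_nonneg x
    have h2 := Real.quadratic_le_exp_of_nonneg h0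
    rw [sq_abs] at h2
    have h3 : (0 : ℝ) < 1 + x ^ 2 := by positivity
    rw [exp_neg, ← div_eq_mul_inv, inv_eq_one_div, div_le_div_iff₀ (exp_pos _) h3]
    linarith
  calc ∫⁻ x : ℝ, ENNReal.ofReal (exp (-|x|))
      ≤ ∫⁻ x : ℝ, ENNReal.ofReal (2 * (1 + x ^ 2)⁻¹) :=
        lintegral_mono fun x => ENNReal.ofReal_le_ofReal (h1 x)
    _ = ENNReal.ofReal (∫ x : ℝ, 2 * (1 + x ^ 2)⁻¹) := by
        rw [ofReal_integral_eq_lintegral_ofReal (integrable_inv_one_add_sq.const_mul 2)]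
        exact Eventually.of_forall fun x => by positivity
    _ ≤ ENNReal.ofReal 10 := by
        rw [integral_const_mul, integral_univ_inv_one_add_sq]
        apply ENNReal.ofReal_le_ofReal
        linarith [Real.pi_lt_four]

theorem h_step {κ : ℝ} (hκ : 0 < κ) (δ : ℝ) (f g : ℝ → ℝ) (hf : Continuous f)
    (hg : Continuous g) :
    ∫⁻ x : ℝ, ENNReal.ofReal
        (exp (f x - Pw δ (fun y => g y + (1 + κ) / 2 * Qw δ f y ^ 2) x - |x|)) ≤
      ENNReal.ofReal (exp ((1 + 1 / κ) * δ ^ 2 / 2)) *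
        ∫⁻ x : ℝ, ENNReal.ofReal (exp (Pw δ f x - g x - |x|)) := by
  have hQ : Continuous (Qw δ f) := h_one (h_Qw (F := fun _ => f) (h_lift hf) δ)
  set G : ℝ → ℝ := fun y => g y + (1 + κ) / 2 * Qw δ f y ^ 2 with hG
  have hGc : Continuous G := hg.add ((hQ.pow 2).const_mul _)
  set u : ℝ → ℝ≥0∞ := fun q => ENNReal.ofReal (exp (f (q - δ) - G q - |q - δ|) / 2) with hu
  set v : ℝ → ℝ≥0∞ := fun q => ENNReal.ofReal (exp (f (q + δ) - G q - |q + δ|) / 2) with hv
  have hum : Measurable u := by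
    apply ENNReal.measurable_ofReal.comp
    apply Continuous.measurable
    fun_prop
  calc ∫⁻ x : ℝ, ENNReal.ofReal (exp (f x - Pw δ G x - |x|))
      ≤ ∫⁻ x : ℝ, (u (x + δ) + v (x - δ)) := by
        apply lintegral_mono
        intro x
        simp only [hu, hv, add_sub_cancel_right, sub_add_cancel]
        rw [← ENNReal.ofReal_add (by positivity) (by positivity)]
        apply ENNReal.ofReal_le_ofReal
        have := h_conv (f x - G (x + δ) - |x|) (f x - G (x - δ) - |x|)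
        refine le_trans (le_of_eq ?_) this
        congr 1
        unfold Pw
        ring
    _ = (∫⁻ x : ℝ, u (x + δ)) + ∫⁻ x : ℝ, v (x - δ) :=
        lintegral_add_left (hum.comp (measurable_add_const δ)) _
    _ = (∫⁻ x : ℝ, u x) + ∫⁻ x : ℝ, v x := by
        rw [lintegral_add_right_eq_self u δ, lintegral_sub_right_eq_self v δ]
    _ = ∫⁻ x : ℝ, (u x + v x) := (lintegral_add_left hum _).symm
    _ ≤ ∫⁻ x : ℝ, ENNReal.ofReal (exp ((1 + 1 / κ) * δ ^ 2 / 2)) *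
          ENNReal.ofReal (exp (Pw δ f x - g x - |x|)) := by
        apply lintegral_mono
        intro q
        simp only [hu, hv]
        rw [← ENNReal.ofReal_add (by positivity) (by positivity),
          ← ENNReal.ofReal_mul (by positivity)]
        apply ENNReal.ofReal_le_ofReal
        have e1 : f (q - δ) = Pw δ f q - Qw δ f q := by unfold Pw Qw; ring
        have e2 : f (q + δ) = Pw δ f q + Qw δ f q := by unfold Pw Qw; ring
        rw [e1, e2]
        exact h_pt hκ δ q _ _ _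
    _ = _ := lintegral_const_mul' _ _ ENNReal.ofReal_ne_top

theorem h_int {κ : ℝ} (hκ : 0 < κ) (δ : ℝ) (N : ℕ) : ∀ f : ℝ → ℝ, Continuous f →
    ∫⁻ x : ℝ, ENNReal.ofReal (exp (f x - Rm δ ((1 + κ) / 2) N f x - |x|)) ≤
      ENNReal.ofReal (10 * exp (N * (1 + 1 / κ) * δ ^ 2 / 2)) := by
  induction N with
  | zero =>
    intro f _
    simpa [Rm] using h_base
  | succ N ih =>
    intro f hf
    have hP : Continuous (Pw δ f) := h_one (h_Pw (F := fun _ => f) (h_lift hf) δ)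
    have hR : Continuous (Rm δ ((1 + κ) / 2) N (Pw δ f)) :=
      h_one (h_cont δ ((1 + κ) / 2) N (fun _ => Pw δ f) (h_lift hP))
    refine le_trans (h_step hκ δ f _ hf hR) ?_
    refine le_trans (mul_le_mul_right (ih _ hP) _) ?_
    rw [← ENNReal.ofReal_mul (by positivity)]
    apply ENNReal.ofReal_le_ofReal
    rw [mul_left_comm, ← exp_add]
    apply le_of_eq
    congr 2
    push_cast
    ring

theorem rowH : RowH := by
  refine ⟨?_, fun δ c M N f hc hf => h_low δ c M hc N f hf, fun δ c N f hf => h_cont δ c N f hf⟩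
  intro δ κ R t N f hκ hf
  have hR : Continuous (Rm δ ((1 + κ) / 2) N f) :=
    h_one (h_cont δ ((1 + κ) / 2) N (fun _ => f) (h_lift hf))
  have hS : MeasurableSet {x : ℝ | |x| ≤ R ∧ t ≤ f x - Rm δ ((1 + κ) / 2) N f x} :=
    ((isClosed_le continuous_abs continuous_const).inter
      (isClosed_le continuous_const (hf.sub hR))).measurableSet
  calc volume {x : ℝ | |x| ≤ R ∧ t ≤ f x - Rm δ ((1 + κ) / 2) N f x}
      = ∫⁻ x : ℝ, Set.indicator {x : ℝ | |x| ≤ R ∧ t ≤ f x - Rm δ ((1 + κ) / 2) N f x}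
          (1 : ℝ → ℝ≥0∞) x := (lintegral_indicator_one hS).symm
    _ ≤ ∫⁻ x : ℝ, ENNReal.ofReal (exp (R - t)) *
          ENNReal.ofReal (exp (f x - Rm δ ((1 + κ) / 2) N f x - |x|)) := by
        apply lintegral_mono
        intro x
        by_cases hx : x ∈ {x : ℝ | |x| ≤ R ∧ t ≤ f x - Rm δ ((1 + κ) / 2) N f x}
        · rw [Set.indicator_of_mem hx]
          show (1 : ℝ≥0∞) ≤ _
          simp only
          rw [← ENNReal.ofReal_mul (by positivity), ← exp_add, ← ENNReal.ofReal_one]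
          apply ENNReal.ofReal_le_ofReal
          apply one_le_exp
          linarith [hx.1, hx.2]
        · rw [Set.indicator_of_notMem hx]
          exact zero_le
    _ = ENNReal.ofReal (exp (R - t)) *
          ∫⁻ x : ℝ, ENNReal.ofReal (exp (f x - Rm δ ((1 + κ) / 2) N f x - |x|)) :=
        lintegral_const_mul' _ _ ENNReal.ofReal_ne_top
    _ ≤ ENNReal.ofReal (exp (R - t)) *
          ENNReal.ofReal (10 * exp (N * (1 + 1 / κ) * δ ^ 2 / 2)) :=
        mul_le_mul_right (h_int hκ δ N f hf) _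
    _ = _ := by
        rw [← ENNReal.ofReal_mul (by positivity), mul_left_comm, ← exp_add]

end Vale.Agent.Q105
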