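import Vale.Agent.Q105.Defs

/-!
# Row I: the slowly decaying tail
-/

open Real Finset

namespace Vale.Agent.Q105

theorem i_cos_lo (y : ℝ) (h : y ^ 2 / 2 ≤ 1 / 1000) :
    exp (-(1.0011 * (y ^ 2 / 2))) ≤ |cos y| := by
  have h0 : 0 ≤ y ^ 2 / 2 := by positivity
  have h1 : 1 - y ^ 2 / 2 ≤ cos y := Real.one_sub_sq_div_two_le_cos
  set x := y ^ 2 / 2 with hx
  have h2 : 1.0011 * x + 1 ≤ exp (1.0011 * x) := Real.add_one_le_exp _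
  have h3 : 0 < exp (1.0011 * x) := exp_pos _
  have h4 : exp (-(1.0011 * x)) ≤ 1 - x := by
    rw [exp_neg, inv_le_iff_one_le_mul₀ h3]
    have h5 : 1 ≤ (1 - x) * (1.0011 * x + 1) := by nlinarith
    have h6 : (1 - x) * (1.0011 * x + 1) ≤ (1 - x) * exp (1.0011 * x) :=
      mul_le_mul_of_nonneg_left h2 (by linarith)
    linarith
  exact h4.trans (h1.trans (le_abs_self _))

theorem i_cos_hi (y : ℝ) (h : |y| ≤ 1) : |cos y| ≤ exp (-(y ^ 2 / 2)) := by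
  have h1 := Real.cos_bound h
  have h2 : 0 < cos y := Real.cos_pos_of_le_one h
  have h0 : 0 ≤ y ^ 2 / 2 := by positivity
  have hy : y ^ 2 ≤ 1 := by
    have := sq_abs y
    nlinarith [abs_nonneg y]
  have h4 : |y| ^ 4 = (y ^ 2) ^ 2 := by
    rw [← sq_abs y]; ring
  rw [abs_of_pos h2]
  set u := y ^ 2 / 2 with hu
  have hu1 : u ≤ 1 / 2 := by linarith
  have h5 : cos y ≤ 1 - u + 5 / 24 * u ^ 2 := by
    have := (abs_le.1 h1).2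
    rw [h4] at this
    have e : (y ^ 2) ^ 2 = 4 * u ^ 2 := by rw [hu]; ring
    rw [e] at this
    linarith
  have h6 : exp u ≤ 1 + u + 3 / 4 * u ^ 2 := by
    have := Real.exp_bound' h0 (by linarith : u ≤ 1) (n := 2) (by norm_num)
    simp [Finset.sum_range_succ, Nat.factorial] at this
    linarith
  have h7 : 0 < exp u := exp_pos _
  rw [exp_neg, le_inv_comm₀ h2 h7, ← one_div, le_div_iff₀ h2]
  have h8 : exp u * cos y ≤ (1 + u + 3 / 4 * u ^ 2) * (1 - u + 5 / 24 * u ^ 2) :=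
    mul_le_mul h6 h5 h2.le (by positivity)
  have h9 : (1 + u + 3 / 4 * u ^ 2) * (1 - u + 5 / 24 * u ^ 2) ≤ 1 := by
    have a1 : 0 ≤ u ^ 3 := by positivity
    have a2 : u ^ 4 ≤ u ^ 3 := by
      have : u ^ 4 = u ^ 3 * u := by ring
      nlinarith
    nlinarith [sq_nonneg u]
  linarith

theorem i_sqle {a b : ℝ} (h : a ^ 2 ≤ b ^ 2) (hb : 0 ≤ b) : a ≤ b :=
  (abs_le_of_sq_le_sq' h hb).2

theorem i_sq (w : ℂ) : (2 * w.re) ^ 2 = 2 * ‖w‖ ^ 2 + 2 * (w ^ 2).re := by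
  rw [Complex.sq_norm, Complex.normSq_apply, sq w, Complex.mul_re]
  ring

theorem i_sum (w q : ℂ) (M : ℕ) :
    ∑ t ∈ range M, (2 * (w * q ^ t).re) ^ 2 =
      2 * ‖w‖ ^ 2 * ∑ t ∈ range M, (‖q‖ ^ 2) ^ t + 2 * (w ^ 2 * ∑ t ∈ range M, (q ^ 2) ^ t).re := by
  rw [Finset.mul_sum, Finset.mul_sum, Complex.re_sum, Finset.mul_sum, ← Finset.sum_add_distrib]
  refine Finset.sum_congr rfl fun t _ => ?_
  rw [i_sq, norm_mul, norm_pow, mul_pow w, ← pow_mul q t 2, ← pow_mul q 2 t, mul_comm t 2]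
  ring

theorem i_geom (u : ℂ) (h1 : ‖u‖ ≤ 1) (h2 : 10 / 7 ≤ ‖1 - u‖) (M : ℕ) :
    ‖∑ t ∈ range M, u ^ t‖ ≤ 1.4 := by
  have e : (1 - u) * ∑ t ∈ range M, u ^ t = 1 - u ^ M := mul_neg_geom_sum u M
  have h3 : ‖1 - u ^ M‖ ≤ 2 := by
    have a := norm_sub_le (1 : ℂ) (u ^ M)
    have b : ‖u ^ M‖ ≤ 1 := by
      rw [norm_pow]; exact pow_le_one₀ (norm_nonneg _) h1
    rw [norm_one] at a
    linarith
  rw [← e, norm_mul] at h3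
  nlinarith [norm_nonneg (∑ t ∈ range M, u ^ t)]

theorem i_q {b : ℝ} {γ : ℂ} (h : Outer b γ) :
    ‖γ⁻¹‖ ≤ 1 ∧ 10 / 7 ≤ ‖1 - γ⁻¹ ^ 2‖ ∧
    (∀ M, ∑ t ∈ range M, (‖γ⁻¹‖ ^ 2) ^ t ≤ 4781.2) ∧
    4780.6 ≤ ∑ t ∈ range 60000, (‖γ⁻¹‖ ^ 2) ^ t := by
  have n1 := h.n1
  have n2 := h.n2
  have hre := abs_le.1 h.re
  have him := abs_le.1 h.im
  have hg1 : 1 ≤ ‖γ‖ := by nlinarith [norm_nonneg γ]
  have hg0 : γ ≠ 0 := by
    intro e; rw [e, norm_zero] at hg1; linarith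
  obtain ⟨g, hg⟩ : ∃ g, g = ‖γ‖ ^ 2 := ⟨_, rfl⟩
  rw [← hg] at n1 n2
  have hgp : 0 < g := by linarith
  have hρ : ‖γ⁻¹‖ ^ 2 = g⁻¹ := by rw [norm_inv, inv_pow, hg]
  have hmul : ∀ M : ℕ, (1 - g⁻¹) * ∑ t ∈ range M, g⁻¹ ^ t = 1 - g⁻¹ ^ M := fun M =>
    mul_neg_geom_sum _ M
  have hgi : g * g⁻¹ = 1 := mul_inv_cancel₀ hgp.ne'
  have hi0 : 0 < g⁻¹ := inv_pos.2 hgp
  refine ⟨?_, ?_, ?_, ?_⟩
  · rw [norm_inv]; exact inv_le_one_of_one_le₀ hg1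
  · have e : 1 - γ⁻¹ ^ 2 = (γ ^ 2 - 1) * γ⁻¹ ^ 2 := by field_simp
    have a : 1.5 ≤ ‖γ ^ 2 - 1‖ := by
      have e2 : ‖γ ^ 2 - 1‖ ^ 2 =
          (γ.re ^ 2 - γ.im ^ 2 - 1) ^ 2 + (2 * γ.re * γ.im) ^ 2 := by
        rw [Complex.sq_norm, Complex.normSq_apply, sq γ]
        simp only [Complex.sub_re, Complex.sub_im, Complex.mul_re, Complex.mul_im, Complex.one_re,
          Complex.one_im]
        ring
      have r1 : γ.re ^ 2 ≤ 0.4201 := by nlinarith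
      have r2 : 0.42 ≤ γ.re ^ 2 := by nlinarith
      have r3 : 0.58 ≤ γ.im ^ 2 := by nlinarith
      have r4 : 1.34 ≤ (γ.re ^ 2 - γ.im ^ 2 - 1) ^ 2 := by nlinarith
      have r5 : 0.97 ≤ (2 * γ.re * γ.im) ^ 2 := by
        have : (2 * γ.re * γ.im) ^ 2 = 4 * (γ.re ^ 2 * γ.im ^ 2) := by ring
        nlinarith
      refine i_sqle ?_ (norm_nonneg _)
      rw [e2]; linarith
    rw [e, norm_mul, norm_pow, hρ]
    have : 0.999 ≤ g⁻¹ := by nlinarith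
    nlinarith
  · intro M
    rw [hρ]
    have a := hmul M
    have p : 0 ≤ g⁻¹ ^ M := by positivity
    have s0 : 0 ≤ ∑ t ∈ range M, g⁻¹ ^ t := Finset.sum_nonneg fun t _ => by positivity
    have c : 1 / 4781.2 ≤ 1 - g⁻¹ := by nlinarith
    nlinarith
  · rw [hρ]
    have a := hmul 60000
    have p1 : (1.1046 : ℝ) ≤ g ^ 500 := by
      have := one_add_mul_le_pow (a := g - 1) (by linarith) 500
      simp only [add_sub_cancel] at this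
      push_cast at this
      linarith
    have p2 : (10 : ℝ) ^ 5 ≤ g ^ 60000 := by
      have e : g ^ 60000 = (g ^ 500) ^ 120 := by rw [← pow_mul]
      rw [e]
      exact le_trans (by norm_num) (pow_le_pow_left₀ (by norm_num) p1 120)
    have p3 : g⁻¹ ^ 60000 ≤ 1 / 10 ^ 5 := by
      rw [inv_pow, one_div]
      exact inv_anti₀ (by norm_num) p2
    have s0 : 0 ≤ ∑ t ∈ range 60000, g⁻¹ ^ t := Finset.sum_nonneg fun t _ => pow_nonneg hi0.le t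
    clear p1 p2
    generalize ∑ t ∈ range 60000, g⁻¹ ^ t = s at a s0 ⊢
    generalize g⁻¹ ^ 60000 = r at a p3
    have c : 1 - g⁻¹ ≤ 1 / 4780.65 := by nlinarith
    nlinarith

theorem i_err {b β : ℝ} (hb : 1.8392867 ≤ b) (hβ : |β| ≤ 1 / 10 ^ 7) (q : ℕ → ℝ)
    (hq : ∀ t, |q t| ≤ 0.12) (M : ℕ) :
    |∑ t ∈ range M, (β * b⁻¹ ^ (t + 1) + q t) ^ 2 - ∑ t ∈ range M, q t ^ 2| ≤ 1 / 10 ^ 7 := by
  have b0 : 0 < b := by linarith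
  have i0 : 0 < b⁻¹ := inv_pos.2 b0
  have i1 : b⁻¹ ≤ 0.6 := by
    have := mul_inv_cancel₀ b0.ne'
    nlinarith
  rw [← Finset.sum_sub_distrib]
  refine (Finset.abs_sum_le_sum_abs _ _).trans ?_
  have key : ∀ t, |(β * b⁻¹ ^ (t + 1) + q t) ^ 2 - q t ^ 2| ≤ 1 / 10 ^ 7 * 0.4 * 0.6 ^ t := by
    intro t
    have p : b⁻¹ ^ (t + 1) ≤ 0.6 ^ t := by
      have a1 : b⁻¹ ^ t ≤ 0.6 ^ t := pow_le_pow_left₀ i0.le i1 t
      have a2 : 0 ≤ b⁻¹ ^ t := by positivity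
      rw [pow_succ]; nlinarith
    have p1 : (0.6 : ℝ) ^ t ≤ 1 := pow_le_one₀ (by norm_num) (by norm_num)
    have e : |β * b⁻¹ ^ (t + 1)| ≤ 1 / 10 ^ 7 * 0.6 ^ t := by
      rw [abs_mul, abs_of_nonneg (by positivity : 0 ≤ b⁻¹ ^ (t + 1))]
      exact mul_le_mul hβ p (by positivity) (by norm_num)
    set ε := β * b⁻¹ ^ (t + 1)
    have f : (ε + q t) ^ 2 - q t ^ 2 = ε * (ε + 2 * q t) := by ring
    have g : |ε + 2 * q t| ≤ 0.4 := by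
      have a1 := abs_le.1 (hq t)
      have a2 := abs_le.1 e
      rw [abs_le]; constructor <;> nlinarith
    rw [f, abs_mul]
    calc |ε| * |ε + 2 * q t| ≤ 1 / 10 ^ 7 * 0.6 ^ t * 0.4 :=
          mul_le_mul e g (abs_nonneg _) (by positivity)
      _ = _ := by ring
  refine (Finset.sum_le_sum fun t _ => key t).trans ?_
  rw [← Finset.mul_sum]
  have a : (1 - 0.6 : ℝ) * ∑ t ∈ range M, (0.6 : ℝ) ^ t = 1 - 0.6 ^ M := mul_neg_geom_sum _ M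
  have p : (0 : ℝ) ≤ 0.6 ^ M := by positivity
  nlinarith

theorem i_pi1 : π ^ 2 ≤ 9.86961 := by nlinarith [Real.pi_lt_d6, Real.pi_pos]

theorem i_pi2 : 9.8695 ≤ π ^ 2 := by nlinarith [Real.pi_gt_d6, Real.pi_pos]

theorem i_im {x : ℝ} (h : |x - 0.7617033928| ≤ 1 / 10 ^ 9) (a c : ℝ) :
    4 * (a ^ 2 + c ^ 2) ≤ 1.7236 * |-(2 * x * c)| ^ 2 + |2 * a| ^ 2 ∧
    1.7235 * |-(2 * x * c)| ^ 2 + |2 * a| ^ 2 ≤ 4 * (a ^ 2 + c ^ 2) := by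
  have him := abs_le.1 h
  have m1 : 1 ≤ 1.7236 * x ^ 2 := by nlinarith
  have m2 : 1.7235 * x ^ 2 ≤ 1 := by nlinarith
  rw [sq_abs, sq_abs]
  constructor <;> nlinarith [sq_nonneg c]

theorem i_pre {b : ℝ} {γ : ℂ} (h : Outer b γ) {β : ℝ} {ζ : ℂ} {v : ℕ → ℝ}
    (hβ : |β| ≤ 1 / 10 ^ 7) (hζ : ‖ζ‖ ≤ 0.06)
    (hv : ∀ t, v t = β * b⁻¹ ^ t + 2 * (ζ * γ⁻¹ ^ t).re) (M0 : ℕ)
    (q4 : 4780.6 ≤ ∑ t ∈ range M0, (‖γ⁻¹‖ ^ 2) ^ t) :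
    ∃ n A B : ℝ, 0 ≤ n ∧ n ≤ 0.06 ∧ 0 ≤ A ∧ 0 ≤ B ∧ (∀ t, |v (t + 1)| ≤ 2 * n + 1 / 10 ^ 7) ∧
      (∀ M, ∑ t ∈ range M, v (t + 1) ^ 2 ≤ 9565.2 * n ^ 2 + 1 / 10 ^ 7) ∧
      9558.4 * n ^ 2 - 1 / 10 ^ 7 ≤ ∑ t ∈ range M0, v (t + 1) ^ 2 ∧
      |(|v 0 + 0.6480873023 * v 1|) - A| ≤ 1 / 10 ^ 6 ∧ |(|v 1|) - B| ≤ 1 / 10 ^ 6 ∧
      4 * n ^ 2 ≤ 1.7236 * A ^ 2 + B ^ 2 ∧ 1.7235 * A ^ 2 + B ^ 2 ≤ 4 * n ^ 2 := by
  obtain ⟨q1, q2, q3, -⟩ := i_q h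
  have n1 := h.n1
  have hg0 : γ ≠ 0 := by
    intro e; rw [e, norm_zero] at n1; norm_num at n1
  have b0 : 0 < b := by linarith [h.b1]
  have i0 : 0 < b⁻¹ := inv_pos.2 b0
  have i1 : b⁻¹ ≤ 1 := inv_le_one_of_one_le₀ (by linarith [h.b1])
  obtain ⟨w, hw⟩ : ∃ w, w = ζ * γ⁻¹ := ⟨_, rfl⟩
  have hζw : ζ = γ * w := by rw [hw]; field_simp
  have hw1 : ‖w‖ ≤ 0.06 := by
    rw [hw, norm_mul]
    exact (mul_le_of_le_one_right (norm_nonneg _) q1).trans hζ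
  obtain ⟨q, hq⟩ : ∃ q : ℕ → ℝ, ∀ t, q t = 2 * (w * γ⁻¹ ^ t).re := ⟨_, fun _ => rfl⟩
  have hvq : ∀ t, v (t + 1) = β * b⁻¹ ^ (t + 1) + q t := by
    intro t
    rw [hv, hq, hw, pow_succ' γ⁻¹, mul_assoc ζ]
  have hqw : ∀ t, |q t| ≤ 2 * ‖w‖ := by
    intro t
    have a1 := Complex.abs_re_le_norm (w * γ⁻¹ ^ t)
    have a2 : ‖γ⁻¹‖ ^ t ≤ 1 := pow_le_one₀ (norm_nonneg _) q1
    rw [norm_mul, norm_pow] at a1
    have a3 : ‖w‖ * ‖γ⁻¹‖ ^ t ≤ ‖w‖ := mul_le_of_le_one_right (norm_nonneg _) a2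
    simp only [hq, abs_mul, abs_two]
    linarith
  have hq12 : ∀ t, |q t| ≤ 0.12 := fun t => (hqw t).trans (by linarith)
  have hε : ∀ t, |β * b⁻¹ ^ t| ≤ 1 / 10 ^ 7 := by
    intro t
    rw [abs_mul, abs_of_nonneg (pow_nonneg i0.le t)]
    exact (mul_le_of_le_one_right (abs_nonneg _) (pow_le_one₀ i0.le i1)).trans hβ
  have herr := i_err h.b1 hβ q hq12
  simp only [← hvq] at herr
  have hosc : ∀ M, |(w ^ 2 * ∑ t ∈ range M, (γ⁻¹ ^ 2) ^ t).re| ≤ 1.4 * ‖w‖ ^ 2 := by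
    intro M
    refine (Complex.abs_re_le_norm _).trans ?_
    rw [norm_mul, norm_pow, mul_comm]
    refine mul_le_mul_of_nonneg_right (i_geom _ ?_ q2 M) (sq_nonneg _)
    rw [norm_pow]; exact pow_le_one₀ (norm_nonneg _) q1
  have hsum : ∀ M, ∑ t ∈ range M, q t ^ 2 = 2 * ‖w‖ ^ 2 * ∑ t ∈ range M, (‖γ⁻¹‖ ^ 2) ^ t +
      2 * (w ^ 2 * ∑ t ∈ range M, (γ⁻¹ ^ 2) ^ t).re := fun M => by
    simp only [hq]; exact i_sum w γ⁻¹ M
  have hn : ‖w‖ ^ 2 = w.re ^ 2 + w.im ^ 2 := by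
    rw [Complex.sq_norm, Complex.normSq_apply]; ring
  have wre : |w.re| ≤ 0.06 := (Complex.abs_re_le_norm w).trans hw1
  have hv0 : v 0 = β + 2 * (γ.re * w.re - γ.im * w.im) := by
    rw [hv, pow_zero, pow_zero, mul_one, mul_one, ← Complex.mul_re, ← hζw]
  have hv1 : v 1 = β * b⁻¹ ^ 1 + 2 * w.re := by
    rw [hv, pow_one γ⁻¹, hw]
  have d1 : |v 1 - 2 * w.re| ≤ 1 / 10 ^ 6 := by
    rw [hv1, add_sub_cancel_right]
    exact (hε 1).trans (by norm_num)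
  have d0 : |v 0 + 0.6480873023 * v 1 - -(2 * γ.im * w.im)| ≤ 1 / 10 ^ 6 := by
    have e : v 0 + 0.6480873023 * v 1 - -(2 * γ.im * w.im) =
        β + 0.6480873023 * (β * b⁻¹ ^ 1) + 2 * ((γ.re + 0.6480873023) * w.re) := by
      rw [hv0, hv1]; ring
    have a1 := abs_le.1 hβ
    have a2 := abs_le.1 (hε 1)
    have a3 : |(γ.re + 0.6480873023) * w.re| ≤ 1 / 10 ^ 9 * 0.06 := by
      rw [abs_mul]; exact mul_le_mul h.re wre (abs_nonneg _) (by norm_num)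
    have a4 := abs_le.1 a3
    rw [e, abs_le]; constructor <;> linarith
  have w0 : 0 ≤ 2 * ‖w‖ ^ 2 := mul_nonneg zero_le_two (sq_nonneg _)
  have him := i_im h.im w.re w.im
  rw [← hn] at him
  refine ⟨‖w‖, |-(2 * γ.im * w.im)|, |2 * w.re|, norm_nonneg _, hw1, abs_nonneg _, abs_nonneg _,
    fun t => ?_, fun M => ?_, ?_, (abs_abs_sub_abs_le_abs_sub _ _).trans d0,
    (abs_abs_sub_abs_le_abs_sub _ _).trans d1, him.1, him.2⟩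
  · rw [hvq]
    refine (abs_add_le _ _).trans ?_
    linarith [hε (t + 1), hqw t]
  · have a1 := (abs_le.1 (herr M)).2
    have a2 := (abs_le.1 (hosc M)).2
    have a3 := mul_le_mul_of_nonneg_left (q3 M) w0
    have a0 := hsum M
    linarith
  · have a1 := (abs_le.1 (herr M0)).1
    have a2 := (abs_le.1 (hosc M0)).1
    have a3 := mul_le_mul_of_nonneg_left q4 w0
    have a0 := hsum M0
    linarith

theorem i_lo {v : ℕ → ℝ} {n S : ℝ} (hv : ∀ t, |v (t + 1)| ≤ 2 * n + 1 / 10 ^ 7)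
    (M : ℕ) (hs : ∑ t ∈ range M, v (t + 1) ^ 2 ≤ 9565.2 * n ^ 2 + 1 / 10 ^ 7)
    (h1 : 4 * n ^ 2 ≤ S) (h2 : S ≤ 2 / 10 ^ 4) :
    exp (-(11815 * S + 1 / 10 ^ 5)) ≤ ∏ t ∈ range M, |cos (π * v (t + 1))| := by
  have hw2 : 2 * n ≤ 0.014143 := by
    refine i_sqle ?_ (by norm_num)
    nlinarith
  have term : ∀ t, exp (-(1.0011 * ((π * v (t + 1)) ^ 2 / 2))) ≤ |cos (π * v (t + 1))| := by
    intro t
    refine i_cos_lo _ ?_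
    have a1 : |v (t + 1)| ≤ 0.0141431 := by linarith [hv t]
    have a3 : v (t + 1) ^ 2 ≤ 0.0002001 := by
      rw [← sq_abs]
      exact (pow_le_pow_left₀ (abs_nonneg _) a1 2).trans (by norm_num)
    have a4 := mul_le_mul i_pi1 a3 (sq_nonneg _) (by norm_num)
    rw [mul_pow]
    linarith
  refine le_trans ?_ (Finset.prod_le_prod (fun t _ => (exp_pos _).le) fun t _ => term t)
  rw [← Real.exp_sum, exp_le_exp]
  have e : ∑ t ∈ range M, -(1.0011 * ((π * v (t + 1)) ^ 2 / 2)) =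
      -(1.0011 * (π ^ 2 / 2) * ∑ t ∈ range M, v (t + 1) ^ 2) := by
    rw [Finset.mul_sum, ← Finset.sum_neg_distrib]
    exact Finset.sum_congr rfl fun t _ => by ring
  rw [e, neg_le_neg_iff]
  have a5 : 0 ≤ ∑ t ∈ range M, v (t + 1) ^ 2 := Finset.sum_nonneg fun t _ => sq_nonneg _
  have a6 : 1.0011 * (π ^ 2 / 2) * ∑ t ∈ range M, v (t + 1) ^ 2 ≤
      4.9403 * ∑ t ∈ range M, v (t + 1) ^ 2 :=
    mul_le_mul_of_nonneg_right (by linarith [i_pi1]) a5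
  have a7 := sq_nonneg n
  linarith

theorem i_hi {v : ℕ → ℝ} {n S : ℝ} (hn : n ≤ 0.06) (hv : ∀ t, |v (t + 1)| ≤ 2 * n + 1 / 10 ^ 7)
    (M : ℕ) (hs : 9558.4 * n ^ 2 - 1 / 10 ^ 7 ≤ ∑ t ∈ range M, v (t + 1) ^ 2)
    (h1 : S ≤ 4 * n ^ 2) :
    ∏ t ∈ range M, |cos (π * v (t + 1))| ≤ exp (-(11785 * S) + 1 / 10 ^ 5) := by
  have term : ∀ t, |cos (π * v (t + 1))| ≤ exp (-((π * v (t + 1)) ^ 2 / 2)) := by
    intro t
    refine i_cos_hi _ ?_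
    have a3 : |v (t + 1)| ≤ 0.13 := by linarith [hv t]
    rw [abs_mul, abs_of_pos Real.pi_pos]
    have := mul_le_mul Real.pi_lt_four.le a3 (abs_nonneg _) (by norm_num)
    linarith
  refine le_trans (Finset.prod_le_prod (fun t _ => abs_nonneg _) fun t _ => term t) ?_
  rw [← Real.exp_sum, exp_le_exp]
  have e : ∑ t ∈ range M, -((π * v (t + 1)) ^ 2 / 2) =
      -(π ^ 2 / 2 * ∑ t ∈ range M, v (t + 1) ^ 2) := by
    rw [Finset.mul_sum, ← Finset.sum_neg_distrib]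
    exact Finset.sum_congr rfl fun t _ => by ring
  rw [e]
  have a5 : 0 ≤ ∑ t ∈ range M, v (t + 1) ^ 2 := Finset.sum_nonneg fun t _ => sq_nonneg _
  have a6 : 4.9347 * ∑ t ∈ range M, v (t + 1) ^ 2 ≤ π ^ 2 / 2 * ∑ t ∈ range M, v (t + 1) ^ 2 :=
    mul_le_mul_of_nonneg_right (by linarith [i_pi2]) a5
  have a7 := sq_nonneg n
  linarith

theorem rowI : RowI := by
  intro b γ h β ζ v hβ hζ hv
  obtain ⟨n, A, B, -, hn, hA, hB, h1, h2, h3, dA, dB, s1, s2⟩ :=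
    i_pre h hβ hζ hv 60000 (i_q h).2.2.2
  obtain ⟨dA1, dA2⟩ := abs_le.1 dA
  obtain ⟨dB1, dB2⟩ := abs_le.1 dB
  refine ⟨fun X Y hX hY hS M => i_lo h1 M (h2 M) ?_ hS, fun X Y hX0 hY0 hX hY =>
    i_hi hn h1 60000 h3 ?_⟩
  · clear h3
    have x1 : A ^ 2 ≤ X ^ 2 := pow_le_pow_left₀ hA (by linarith) 2
    have y1 : B ^ 2 ≤ Y ^ 2 := pow_le_pow_left₀ hB (by linarith) 2
    linarith
  · clear h3
    have x1 : X ^ 2 ≤ A ^ 2 := pow_le_pow_left₀ hX0 (hX.trans (max_le hA (by linarith))) 2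
    have y1 : Y ^ 2 ≤ B ^ 2 := pow_le_pow_left₀ hY0 (hY.trans (max_le hB (by linarith))) 2
    linarith

end Vale.Agent.Q105
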