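import Mathlib

/-!
# Irreducibility of the degree-31 factor of `X^33 - X^32 - X^31 - X^30 - 1`

`X^33 - X^32 - X^31 - X^30 - 1 = (X^2 + X + 1) * p31`, and `p31` is irreducible modulo `67`
(Rabin's test: `x^(67^31) = x` modulo `p31`, `31` is prime and `p31` has no root modulo `67`),
hence over `ℤ` and over `ℚ`.
-/

namespace Vale.Agent.Q105

open Polynomial

namespace Irr

/-- Horner evaluation of a little-endian list of natural coefficients. -/
def ev {K : Type*} [CommRing K] (a : K) : List ℕ → K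
  | [] => 0
  | c :: v => (c : K) + a * ev a v

/-- `c • u + v` with coefficients reduced modulo `67`. -/
def axpy (c : ℕ) : List ℕ → List ℕ → List ℕ
  | [], v => v
  | x :: u, [] => (c * x % 67) :: axpy c u []
  | x :: u, y :: v => ((c * x + y) % 67) :: axpy c u v

/-- Evaluate `n` before passing it on (for kernel evaluation). -/
def force {α : Type} (n : ℕ) (f : ℕ → α) : α :=
  match n with
  | 0 => f 0
  | k + 1 => f (Nat.succ k)

theorem force_eq {α : Type} (n : ℕ) (f : ℕ → α) : force n f = f n := by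
  cases n <;> rfl

/-- Evaluate a list before passing it on (for kernel evaluation). -/
def forceL {α : Type} : List ℕ → (List ℕ → α) → α
  | [], f => f []
  | x :: v, f => force x fun x' => forceL v fun v' => f (x' :: v')

theorem forceL_eq {α : Type} (v : List ℕ) (f : List ℕ → α) : forceL v f = f v := by
  induction v generalizing f with
  | nil => rfl
  | cons x v ih => simp [forceL, force_eq, ih]

/-- `x^31` modulo `p31` and `67`. -/
def R : List ℕ :=
  [1, 66, 0, 1, 66, 0, 1, 66, 0, 1, 66, 0, 1, 66, 0, 1, 66, 0, 1, 66, 0, 1, 66, 0, 1, 66, 0,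
    1, 66, 0, 2]

/-- Multiplication by `x` modulo `p31` and `67`. -/
def mulX (v : List ℕ) : List ℕ :=
  match v.drop 30 with
  | [t] => axpy t R (0 :: v.take 30)
  | _ => 0 :: v

def mulXn : ℕ → List ℕ → List ℕ
  | 0, v => v
  | n + 1, v => forceL (mulX v) (mulXn n)

def lin : List ℕ → List (List ℕ) → List ℕ
  | c :: v, m :: M => axpy c m (lin v M)
  | _, _ => []

def chkRows : List ℕ → List (List ℕ) → Bool
  | _, [] => true
  | m, m' :: M => (mulXn 67 m == m') && chkRows m' M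

/-- The rows `x^(67 j)` modulo `p31` and `67`, `j = 0, …, 30`. -/
def M : List (List ℕ) :=
[
  [1, 0, 0, 0, 0, 0, 0, 0, 0, 0, 0, 0, 0, 0, 0, 0, 0, 0, 0, 0, 0, 0, 0, 0, 0, 0, 0, 0, 0, 0, 0],
  [48, 29, 31, 64, 14, 63, 64, 35, 7, 32, 10, 8, 24, 59, 35, 7, 31, 40, 13, 59, 11, 20, 42, 59, 63, 1, 38, 34, 10, 37, 45],
  [32, 15, 29, 22, 21, 63, 6, 54, 31, 58, 41, 54, 66, 45, 32, 54, 36, 58, 8, 49, 7, 51, 47, 17, 63, 61, 49, 25, 15, 65, 58],
  [45, 55, 26, 8, 48, 40, 14, 62, 36, 46, 41, 0, 32, 37, 63, 44, 12, 1, 0, 34, 29, 0, 63, 25, 63, 4, 35, 22, 58, 52, 45],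
  [59, 46, 26, 19, 30, 49, 28, 43, 63, 18, 55, 3, 13, 55, 10, 36, 17, 46, 54, 30, 30, 47, 31, 37, 27, 21, 8, 25, 38, 19, 45],
  [41, 25, 41, 32, 9, 53, 15, 2, 22, 46, 16, 33, 44, 39, 46, 38, 8, 12, 66, 46, 64, 33, 37, 3, 50, 36, 41, 49, 22, 33, 40],
  [17, 34, 18, 11, 7, 8, 19, 18, 64, 58, 46, 46, 25, 21, 37, 19, 61, 50, 59, 8, 29, 37, 1, 25, 66, 39, 4, 50, 62, 30, 45],
  [41, 23, 46, 31, 59, 7, 43, 49, 62, 24, 15, 12, 38, 45, 62, 6, 13, 23, 57, 33, 61, 42, 15, 8, 41, 56, 58, 58, 29, 12, 66],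
  [59, 61, 56, 51, 11, 8, 44, 53, 47, 14, 0, 20, 50, 27, 31, 33, 44, 6, 11, 21, 53, 62, 59, 18, 2, 34, 26, 22, 55, 64, 41],
  [0, 17, 31, 41, 46, 7, 64, 42, 20, 32, 5, 5, 40, 25, 3, 33, 30, 12, 3, 1, 46, 59, 21, 25, 22, 21, 10, 62, 5, 41, 35],
  [65, 53, 17, 32, 44, 29, 47, 25, 14, 58, 3, 53, 21, 50, 14, 22, 62, 18, 55, 2, 45, 5, 43, 53, 17, 29, 64, 10, 53, 59, 30],
  [25, 60, 12, 44, 51, 40, 59, 22, 56, 55, 29, 18, 65, 61, 22, 60, 64, 32, 61, 33, 60, 13, 64, 48, 47, 37, 48, 52, 23, 21, 26],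
  [42, 1, 48, 12, 53, 49, 28, 15, 14, 24, 46, 15, 31, 8, 32, 60, 7, 63, 31, 16, 3, 61, 31, 7, 5, 33, 7, 31, 4, 38, 12],
  [15, 43, 44, 50, 43, 57, 7, 66, 33, 12, 14, 31, 37, 54, 21, 59, 42, 35, 46, 62, 38, 32, 3, 43, 18, 26, 25, 27, 13, 29, 52],
  [51, 44, 50, 50, 6, 61, 52, 54, 46, 52, 62, 4, 3, 31, 58, 5, 64, 48, 32, 5, 41, 66, 21, 34, 28, 50, 0, 3, 53, 37, 38],
  [25, 45, 65, 48, 59, 8, 11, 23, 29, 8, 1, 58, 13, 48, 15, 65, 24, 10, 17, 5, 16, 11, 34, 33, 30, 64, 2, 9, 56, 14, 37],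
  [16, 49, 14, 60, 6, 9, 26, 33, 66, 29, 12, 10, 24, 42, 58, 26, 63, 64, 26, 51, 45, 36, 64, 14, 11, 9, 31, 66, 10, 20, 50],
  [49, 9, 43, 32, 38, 5, 21, 66, 50, 32, 38, 7, 41, 54, 58, 39, 60, 41, 6, 55, 64, 20, 21, 57, 54, 39, 12, 49, 47, 50, 58],
  [14, 36, 3, 58, 2, 31, 61, 51, 51, 34, 54, 48, 41, 2, 21, 58, 58, 63, 27, 18, 34, 58, 38, 31, 43, 57, 10, 57, 65, 44, 4],
  [46, 40, 25, 63, 1, 16, 65, 61, 30, 24, 34, 45, 34, 33, 10, 62, 55, 23, 54, 65, 21, 30, 65, 63, 14, 36, 16, 31, 41, 6, 57],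
  [65, 59, 64, 6, 9, 30, 62, 65, 27, 51, 17, 51, 57, 63, 1, 39, 42, 37, 14, 31, 59, 47, 62, 24, 62, 16, 22, 62, 46, 48, 52],
  [21, 0, 66, 49, 6, 13, 44, 13, 2, 40, 12, 16, 56, 28, 61, 65, 43, 57, 46, 48, 4, 37, 31, 15, 11, 39, 17, 58, 52, 27, 29],
  [9, 66, 56, 30, 25, 18, 47, 30, 36, 55, 37, 14, 36, 41, 8, 9, 39, 13, 40, 2, 27, 62, 35, 64, 62, 59, 17, 45, 65, 26, 30],
  [12, 32, 12, 47, 44, 31, 3, 14, 24, 37, 37, 33, 23, 38, 42, 41, 31, 40, 2, 64, 48, 48, 19, 22, 18, 16, 53, 18, 42, 64, 22],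
  [13, 34, 46, 12, 2, 57, 16, 8, 52, 35, 11, 4, 10, 30, 57, 47, 42, 29, 58, 13, 21, 62, 57, 2, 23, 36, 53, 57, 8, 16, 49],
  [14, 2, 43, 62, 5, 15, 14, 13, 32, 66, 18, 42, 56, 23, 26, 36, 1, 41, 28, 24, 59, 34, 39, 15, 54, 27, 26, 40, 10, 17, 4],
  [36, 59, 48, 50, 12, 23, 34, 46, 5, 12, 39, 48, 52, 25, 65, 61, 7, 35, 0, 65, 23, 27, 58, 34, 5, 6, 18, 47, 50, 47, 19],
  [26, 2, 31, 1, 14, 43, 65, 36, 65, 64, 62, 40, 13, 43, 66, 28, 54, 30, 15, 46, 19, 49, 58, 11, 52, 35, 63, 54, 11, 22, 47],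
  [50, 10, 63, 30, 25, 36, 45, 17, 55, 18, 2, 26, 54, 33, 58, 21, 62, 56, 38, 50, 8, 17, 34, 4, 15, 66, 62, 45, 6, 2, 42],
  [45, 4, 7, 5, 6, 22, 3, 10, 12, 66, 54, 3, 59, 15, 6, 4, 20, 35, 35, 31, 44, 43, 39, 10, 18, 22, 55, 39, 58, 5, 41],
  [54, 16, 34, 36, 45, 34, 46, 63, 65, 13, 44, 41, 56, 39, 11, 25, 0, 63, 13, 43, 37, 11, 0, 34, 46, 7, 39, 4, 22, 22, 64]]

def X1 : List ℕ :=
  [0, 1, 0, 0, 0, 0, 0, 0, 0, 0, 0, 0, 0, 0, 0, 0, 0, 0, 0, 0, 0, 0, 0, 0, 0, 0, 0, 0, 0, 0, 0]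

def chk : ℕ → List ℕ → Bool
  | 0, v => v == X1
  | n + 1, v => Nat.ble v.length 31 && forceL (lin v M) (chk n)

theorem rows_ok : chkRows (M.headD []) M.tail = true := by decide +kernel

theorem iter_ok : chk 31 X1 = true := by decide +kernel

theorem noroot : ∀ x : ZMod 67, x ^ 31 ≠ ev x R := by decide +kernel

section field

variable {K : Type*} [CommRing K] [CharP K 67] (a : K)

theorem cast_mod (n : ℕ) : ((n % 67 : ℕ) : K) = (n : K) :=
  CharP.natCast_eq_natCast' K 67 (Nat.mod_modEq n 67)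

theorem ev_axpy (c : ℕ) (u v : List ℕ) : ev a (axpy c u v) = (c : K) * ev a u + ev a v := by
  induction u generalizing v with
  | nil => simp [axpy, ev]
  | cons x u ih =>
    cases v with
    | nil => simp only [axpy, ev, ih, cast_mod]; push_cast; ring
    | cons y v => simp only [axpy, ev, ih, cast_mod]; push_cast; ring

omit [CharP K 67] in
theorem ev_append (u w : List ℕ) : ev a (u ++ w) = ev a u + a ^ u.length * ev a w := by
  induction u with
  | nil => simp [ev]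
  | cons x u ih => simp only [List.cons_append, ev, ih, List.length_cons]; ring

theorem ev_mulX (h : a ^ 31 = ev a R) (v : List ℕ) : ev a (mulX v) = a * ev a v := by
  unfold mulX
  split
  · rename_i t ht
    have hl : (v.drop 30).length = 1 := by rw [ht]; rfl
    have hl' : (v.take 30).length = 30 := by
      rw [List.length_drop] at hl
      rw [List.length_take]
      omega
    have hv : ev a v = ev a (v.take 30) + a ^ 30 * (t : K) := by
      conv_lhs => rw [← List.take_append_drop 30 v, ev_append, hl', ht]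
      simp [ev]
    rw [ev_axpy, hv, ← h]
    simp only [ev]
    push_cast
    ring
  · simp [ev]

theorem ev_mulXn (h : a ^ 31 = ev a R) (n : ℕ) (v : List ℕ) :
    ev a (mulXn n v) = a ^ n * ev a v := by
  induction n generalizing v with
  | zero => simp [mulXn]
  | succ n ih => rw [mulXn, forceL_eq, ih, ev_mulX a h]; ring

/-- The rows of `L` evaluate to `s, s b, s b^2, …`. -/
def Rows (b : K) : K → List (List ℕ) → Prop
  | _, [] => True
  | s, m :: L => ev a m = s ∧ Rows b (s * b) L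

theorem rows_of_chk (h : a ^ 31 = ev a R) (m : List ℕ) (L : List (List ℕ))
    (hc : chkRows m L = true) : Rows a (a ^ 67) (ev a m) (m :: L) := by
  induction L generalizing m with
  | nil => exact ⟨rfl, trivial⟩
  | cons m' L ih =>
    simp only [chkRows, Bool.and_eq_true, beq_iff_eq] at hc
    refine ⟨rfl, ?_⟩
    have e : ev a m' = ev a m * a ^ 67 := by rw [← hc.1, ev_mulXn a h]; ring
    rw [← e]
    exact ih m' hc.2

theorem ev_lin (b : K) (v : List ℕ) (L : List (List ℕ)) (s : K) (hR : Rows a b s L)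
    (hl : v.length ≤ L.length) : ev a (lin v L) = s * ev b v := by
  induction v generalizing L s with
  | nil => simp [lin, ev]
  | cons c v ih =>
    cases L with
    | nil => simp at hl
    | cons m L =>
      obtain ⟨h1, h2⟩ := hR
      rw [lin, ev_axpy, ih L (s * b) h2 (by simpa using hl), h1]
      simp only [ev]
      ring

theorem ev_pow (v : List ℕ) : ev a v ^ 67 = ev (a ^ 67) v := by
  have : Fact (Nat.Prime 67) := ⟨by norm_num⟩
  induction v with
  | nil => simp [ev]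
  | cons c v ih =>
    have hc : (c : K) ^ 67 = c := by
      have := map_natCast (frobenius K 67) c
      rwa [frobenius_def] at this
    simp only [ev]
    rw [add_pow_char, hc, mul_pow, ih]

theorem rows_M (h : a ^ 31 = ev a R) : Rows a (a ^ 67) 1 M := by
  have h1 := rows_of_chk a h _ _ rows_ok
  have h2 : ev a (M.headD []) = 1 := by simp [M, ev]
  rw [h2] at h1
  exact h1

theorem pow_of_chk (h : a ^ 31 = ev a R) (n : ℕ) (v : List ℕ) (hc : chk n v = true) :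
    ev a v ^ 67 ^ n = ev a X1 := by
  induction n generalizing v with
  | zero =>
    simp only [chk, beq_iff_eq] at hc
    simp [hc]
  | succ n ih =>
    simp only [chk, forceL_eq, Bool.and_eq_true, Nat.ble_eq] at hc
    have e := ev_lin a (a ^ 67) v M 1 (rows_M a h) hc.1
    rw [← ih _ hc.2, e, one_mul, ← ev_pow, ← pow_mul, pow_succ']

theorem pow_card (h : a ^ 31 = ev a R) : a ^ 67 ^ 31 = a := by
  have h1 := pow_of_chk a h 31 X1 iter_ok
  have h2 : ev a X1 = a := by simp [X1, ev]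
  rwa [h2] at h1

end field

/-- The degree-31 factor. -/
noncomputable def p31 : ℤ[X] :=
  X ^ 31 - 2 * X ^ 30 + (X - 1) * (1 + X ^ 3 + X ^ 6 + X ^ 9 + X ^ 12 + X ^ 15 + X ^ 18 + X ^ 21
    + X ^ 24 + X ^ 27)

theorem p31_monic : p31.Monic := by
  unfold p31
  monicity!

theorem p31_natDegree : p31.natDegree = 31 := by
  unfold p31
  compute_degree!

theorem aeval_p31 {A : Type*} [CommRing A] (z : A) :
    aeval z p31 = z ^ 31 - 2 * z ^ 30 + (z - 1) * (1 + z ^ 3 + z ^ 6 + z ^ 9 + z ^ 12 + z ^ 15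
      + z ^ 18 + z ^ 21 + z ^ 24 + z ^ 27) := by
  simp [p31, map_ofNat]

theorem factor {A : Type*} [CommRing A] (z : A) :
    (z ^ 2 + z + 1) * aeval z p31 = z ^ 33 - z ^ 32 - z ^ 31 - z ^ 30 - 1 := by
  rw [aeval_p31]
  ring

theorem rel_of_root {K : Type*} [CommRing K] [CharP K 67] (a : K) (h : aeval a p31 = 0) :
    a ^ 31 = ev a R := by
  have h67 : (67 : K) = 0 := by exact_mod_cast CharP.cast_eq_zero K 67
  rw [aeval_p31] at h
  simp only [ev, R]
  push_cast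
  linear_combination h - (a + a ^ 4 + a ^ 7 + a ^ 10 + a ^ 13 + a ^ 16 + a ^ 19 + a ^ 22 + a ^ 25
    + a ^ 28) * h67

theorem irreducible_mod : Irreducible (p31.map (Int.castRingHom (ZMod 67))) := by
  have : Fact (Nat.Prime 67) := ⟨by norm_num⟩
  set f := p31.map (Int.castRingHom (ZMod 67)) with hf
  have hfm : f.Monic := p31_monic.map _
  have hfd : f.natDegree = 31 := by rw [hf, p31_monic.natDegree_map, p31_natDegree]
  obtain ⟨g, hg, hgf⟩ := Polynomial.exists_irreducible_of_natDegree_pos (f := f) (by omega)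
  have : Fact (Irreducible g) := ⟨hg⟩
  have : CharP (AdjoinRoot g) 67 :=
    charP_of_injective_algebraMap (algebraMap (ZMod 67) (AdjoinRoot g)).injective 67
  have ha0 : aeval (AdjoinRoot.root g) g = 0 := by simp
  have ha1 : aeval (AdjoinRoot.root g) f = 0 := aeval_eq_zero_of_dvd_aeval_eq_zero hgf ha0
  have ha2 : aeval (AdjoinRoot.root g) p31 = 0 := by
    rw [← ha1, hf, ← algebraMap_int_eq, aeval_map_algebraMap]
  have hp := pow_card _ (rel_of_root _ ha2)
  have hdvd : g ∣ X ^ (Nat.card (ZMod 67)) ^ 31 - X := by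
    rw [← AdjoinRoot.mk_eq_zero, Nat.card_zmod, map_sub, map_pow, AdjoinRoot.mk_X, hp, sub_self]
  have hd := hg.natDegree_dvd_of_dvd_X_pow_card_pow_sub_X hdvd
  rcases (Nat.dvd_prime (by norm_num : Nat.Prime 31)).1 hd with h1 | h31
  · exfalso
    have hdeg : g.degree = 1 := by
      rw [Polynomial.degree_eq_natDegree hg.ne_zero, h1]; rfl
    obtain ⟨x, hx⟩ := exists_root_of_degree_eq_one hdeg
    have hx1 : aeval x f = 0 :=
      aeval_eq_zero_of_dvd_aeval_eq_zero hgf (by rw [coe_aeval_eq_eval]; exact hx)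
    have hx2 : aeval x p31 = 0 := by
      rw [← hx1, hf, ← algebraMap_int_eq, aeval_map_algebraMap]
    exact noroot x (rel_of_root x hx2)
  · exact (associated_of_dvd_of_natDegree_le hgf hfm.ne_zero (by omega)).irreducible hg

theorem irreducible_int : Irreducible p31 := by
  have : Fact (Nat.Prime 67) := ⟨by norm_num⟩
  exact p31_monic.irreducible_of_irreducible_map (Int.castRingHom (ZMod 67)) _ irreducible_mod

theorem irreducible_rat : Irreducible (p31.map (Int.castRingHom ℚ)) :=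
  (IsPrimitive.Int.irreducible_iff_irreducible_map_cast p31_monic.isPrimitive).1 irreducible_int

theorem root_real (b : ℝ) (hb : b ^ 33 - b ^ 32 - b ^ 31 - b ^ 30 - 1 = 0) :
    aeval b p31 = 0 := by
  have h := factor b
  rw [hb] at h
  have hpos : b ^ 2 + b + 1 ≠ 0 := by nlinarith [sq_nonneg (2 * b + 1)]
  exact (mul_eq_zero.1 h).resolve_left hpos

theorem minpoly_eq (b : ℝ) (hb : b ^ 33 - b ^ 32 - b ^ 31 - b ^ 30 - 1 = 0) :
    minpoly ℚ b = p31.map (Int.castRingHom ℚ) := by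
  refine (minpoly.eq_of_irreducible_of_monic irreducible_rat ?_ (p31_monic.map _)).symm
  rw [← algebraMap_int_eq, aeval_map_algebraMap]
  exact root_real b hb

end Irr

/-- A real root of `X^33 - X^32 - X^31 - X^30 - 1` is an algebraic integer. -/
theorem irr_isIntegral (b : ℝ) (hb : b ^ 33 - b ^ 32 - b ^ 31 - b ^ 30 - 1 = 0) :
    IsIntegral ℤ b :=
  ⟨Irr.p31, Irr.p31_monic, by rw [← aeval_def]; exact Irr.root_real b hb⟩

/-- A real root of `X^33 - X^32 - X^31 - X^30 - 1` has degree `31` over `ℚ`. -/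
theorem irr_natDegree (b : ℝ) (hb : b ^ 33 - b ^ 32 - b ^ 31 - b ^ 30 - 1 = 0) :
    (minpoly ℚ b).natDegree = 31 := by
  rw [Irr.minpoly_eq b hb, Irr.p31_monic.natDegree_map, Irr.p31_natDegree]

/-- The complex conjugates over `ℚ` of a real root of `X^33 - X^32 - X^31 - X^30 - 1` are exactly
the complex roots of that polynomial other than the primitive cube roots of unity. -/
theorem irr_conj (b : ℝ) (hb : b ^ 33 - b ^ 32 - b ^ 31 - b ^ 30 - 1 = 0) (z : ℂ)
    (hz : z ^ 33 - z ^ 32 - z ^ 31 - z ^ 30 - 1 = 0) (hz' : z ^ 2 + z + 1 ≠ 0) :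
    aeval z (minpoly ℚ b) = 0 := by
  rw [Irr.minpoly_eq b hb, ← algebraMap_int_eq, aeval_map_algebraMap]
  have h := Irr.factor z
  rw [hz] at h
  exact (mul_eq_zero.1 h).resolve_left hz'

/-- A root of `X^33 - X^32 - X^31 - X^30 - 1` outside the closed unit disc is a conjugate of every
real root. -/
theorem irr_conj_of_norm (b : ℝ) (hb : b ^ 33 - b ^ 32 - b ^ 31 - b ^ 30 - 1 = 0) (z : ℂ)
    (hz : z ^ 33 - z ^ 32 - z ^ 31 - z ^ 30 - 1 = 0) (h1 : 1 < ‖z‖) :
    aeval z (minpoly ℚ b) = 0 := by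
  refine irr_conj b hb z hz fun h => ?_
  have h3 : z ^ 3 = 1 := by linear_combination (z - 1) * h
  have h4 : ‖z‖ ^ 3 = 1 := by rw [← norm_pow, h3, norm_one]
  have h5 : 1 < ‖z‖ ^ 3 := one_lt_pow₀ h1 (by norm_num)
  linarith

/-- Conversely every complex conjugate of a real root is a root. -/
theorem irr_root_of_conj (b : ℝ) (hb : b ^ 33 - b ^ 32 - b ^ 31 - b ^ 30 - 1 = 0) (z : ℂ)
    (hz : aeval z (minpoly ℚ b) = 0) : z ^ 33 - z ^ 32 - z ^ 31 - z ^ 30 - 1 = 0 := by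
  rw [Irr.minpoly_eq b hb, ← algebraMap_int_eq, aeval_map_algebraMap] at hz
  rw [← Irr.factor z, hz, mul_zero]

end Vale.Agent.Q105
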