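import Vale.Agent.Q105.Defs

/-! P105, row K: bounds for the kernel of a pair of levels. -/

open Real Finset

namespace Vale.Agent.Q105

theorem k_arg {x : ℝ} (h0 : 0 < x) (h1 : x ≤ 1 / 1000) :
    0 ≤ x * (1 - 1 / 10 ^ 6) ∧ x * (1 - 1 / 10 ^ 6) ≤ 1 / 1000 := by
  constructor
  · positivity
  · nlinarith

theorem k_cbar_nonneg {x : ℝ} (h0 : 0 < x) (h1 : x ≤ 1 / 1000) : 0 ≤ cbar x := by
  obtain ⟨a, b⟩ := k_arg h0 h1
  have := pi_gt_three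
  exact cos_nonneg_of_mem_Icc ⟨by linarith, by linarith⟩

theorem k_cbar_le {x : ℝ} (h0 : 0 < x) (h1 : x ≤ 1 / 1000) :
    cbar x ≤ 1 - (1 - 1 / 10 ^ 5) * x ^ 2 / 2 := by
  obtain ⟨a, b⟩ := k_arg h0 h1
  unfold cbar
  set y := x * (1 - 1 / 10 ^ 6) with hy
  have h2 : |y| ≤ 1 := by rw [abs_of_nonneg a]; linarith
  have h3 := (abs_le.1 (cos_bound h2)).2
  rw [abs_of_nonneg a] at h3
  have h4 : y ^ 2 ≤ 1 / 10 ^ 6 := by nlinarith
  have h5 : y ^ 4 ≤ y ^ 2 * (1 / 10 ^ 6) := by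
    have : y ^ 4 = y ^ 2 * y ^ 2 := by ring
    rw [this]
    exact mul_le_mul_of_nonneg_left h4 (sq_nonneg y)
  have h6 : y ^ 2 = x ^ 2 * (1 - 1 / 10 ^ 6) ^ 2 := by rw [hy]; ring
  have h7 : 0 ≤ x ^ 2 := sq_nonneg x
  norm_num at h6
  linarith

theorem k_one (x W : ℝ) (h0 : 0 < x) (h1 : x ≤ 1 / 1000) (hW : |W - 1| ≤ 1 / 10 ^ 6) :
    |cos (x * W)| ≤ cbar x ∧ |sin (x * W)| ≤ sbar x := by
  obtain ⟨a, b⟩ := k_arg h0 h1
  obtain ⟨w1, w2⟩ := abs_le.1 hW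
  have hp := pi_gt_three
  have l1 : x * (1 - 1 / 10 ^ 6) ≤ x * W := mul_le_mul_of_nonneg_left (by linarith) h0.le
  have l2 : x * W ≤ x * (1 + 1 / 10 ^ 6) := mul_le_mul_of_nonneg_left (by linarith) h0.le
  have l3 : x * (1 + 1 / 10 ^ 6) ≤ 1 := by nlinarith
  constructor
  · rw [abs_of_nonneg (cos_nonneg_of_mem_Icc ⟨by linarith, by linarith⟩)]
    exact cos_le_cos_of_nonneg_of_le_pi a (by linarith) l1
  · refine abs_sin_le_abs.trans ?_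
    rw [abs_of_nonneg (a.trans l1)]
    exact l2

theorem k_pow {x : ℝ} (h0 : 0 < x) (h1 : x ≤ 1 / 1000) {N : ℕ} (hN : 0 < N) :
    cbar x ^ (2 * N) ≤ 2 / (N * x ^ 2) := by
  have hN' : (0 : ℝ) < N := by exact_mod_cast hN
  have hx : 0 < x ^ 2 := by positivity
  have h2 : cbar x ≤ exp (-(x ^ 2 / 4)) := by
    have a := k_cbar_le h0 h1
    have b := add_one_le_exp (-(x ^ 2 / 4))
    linarith
  have h3 : cbar x ^ (2 * N) ≤ exp (-(x ^ 2 / 4)) ^ (2 * N) :=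
    pow_le_pow_left₀ (k_cbar_nonneg h0 h1) h2 _
  rw [← exp_nat_mul] at h3
  refine h3.trans ?_
  have e : ((2 * N : ℕ) : ℝ) * -(x ^ 2 / 4) = -(N * x ^ 2 / 2) := by push_cast; ring
  rw [e, exp_neg, le_div_iff₀ (by positivity), inv_mul_le_iff₀ (exp_pos _)]
  have := add_one_le_exp (N * x ^ 2 / 2)
  linarith

theorem k_geom {q : ℝ} (h0 : 0 ≤ q) (N : ℕ) : (1 - q) * ∑ i ∈ range N, q ^ i ≤ 1 := by
  rw [mul_neg_geom_sum]
  have := pow_nonneg h0 N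
  linarith

theorem k_ker_eq (N : ℕ) (c s c' s' : ℝ) : ker N c s c' s' =
    s * s' * (c * c' + s * s') * ∑ i ∈ range N, (c * c' * (c * c' + s * s')) ^ i := by
  unfold ker
  rw [mul_sum]
  refine sum_congr rfl fun i _ => ?_
  rw [mul_pow (c * c'), pow_succ]
  ring

theorem k_ker_comm (N : ℕ) (c s c' s' : ℝ) : ker N c' s' c s = ker N c s c' s' := by
  unfold ker
  rw [mul_comm c' c, mul_comm s' s]

/-- the estimate in terms of `P = c c'`, `t = x x'`, `m = x ^ 2 - x x' + x' ^ 2` -/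
theorem k_core {P e t m S : ℝ} (hP0 : 0 ≤ P) (ht0 : 0 ≤ t) (htm : t ≤ m) (hm0 : 0 < m)
    (hm : m ≤ 1 / 10 ^ 6) (hP : P ≤ 1 - (1 - 1 / 10 ^ 4) * (m + t) / 2)
    (he0 : 0 ≤ e) (he : e ≤ (1 + 3 / 10 ^ 6) * t) (hS0 : 0 ≤ S)
    (hS : (1 - P * (P + e)) * S ≤ 1) : e * (P + e) * S * m ≤ 1.001 * t := by
  set a := (1 - 1 / 10 ^ 4) * (m + t) / 2 with ha
  have ha0 : 0 ≤ a := by rw [ha]; positivity
  have ha1 : a ≤ m := by rw [ha]; linarith
  have ha2 : a ^ 2 ≤ 1 / 10 ^ 6 * m := by nlinarith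
  have h1 : P * (P + e) ≤ (1 - a) * (1 - a + e) :=
    mul_le_mul hP (by linarith) (by linarith) (by linarith)
  have h2 : (1 - a) * (1 - a + e) ≤ 1 - 2 * a + e + a ^ 2 := by nlinarith
  have h3 : (1 - 3 / 10 ^ 4) * m ≤ 1 - P * (P + e) := by
    have : 2 * a = (1 - 1 / 10 ^ 4) * (m + t) := by rw [ha]; ring
    linarith
  have h4 : (1 - 3 / 10 ^ 4) * m * S ≤ 1 := (mul_le_mul_of_nonneg_right h3 hS0).trans hS
  have h5 : S * m ≤ 1.0004 := by nlinarith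
  have h6 : P + e ≤ 1 + 2 / 10 ^ 6 := by linarith
  have h7 : e * (P + e) ≤ (1 + 3 / 10 ^ 6) * t * (1 + 2 / 10 ^ 6) :=
    mul_le_mul he h6 (by linarith) (by positivity)
  have h8 : e * (P + e) * (S * m) ≤ (1 + 3 / 10 ^ 6) * t * (1 + 2 / 10 ^ 6) * 1.0004 :=
    mul_le_mul h7 h5 (by positivity) (by positivity)
  have h9 : e * (P + e) * S * m = e * (P + e) * (S * m) := by ring
  rw [h9]
  refine h8.trans ?_
  nlinarith

theorem k_ker (x x' r : ℝ) (N : ℕ) (h0' : 0 < x') (h1 : x ≤ 1 / 1000) (hr : x' ≤ r * x)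
    (hr0 : 0 < r) (hr1 : r ≤ 1) :
    ker N (cbar x) (sbar x) (cbar x') (sbar x') ≤ 1.001 * Kr r := by
  have h0 : 0 < x := by
    by_contra h
    rw [not_lt] at h
    nlinarith
  have hxx : x' ≤ x := by nlinarith
  have h1' : x' ≤ 1 / 1000 := hxx.trans h1
  have c0 := k_cbar_nonneg h0 h1
  have c0' := k_cbar_nonneg h0' h1'
  have c1 := k_cbar_le h0 h1
  have c1' := k_cbar_le h0' h1'
  have q1 : x ^ 2 ≤ 1 / 10 ^ 6 := by nlinarith
  have q1' : x' ^ 2 ≤ 1 / 10 ^ 6 := by nlinarith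
  have q0 : 0 ≤ x ^ 2 := sq_nonneg x
  have q0' : 0 ≤ x' ^ 2 := sq_nonneg x'
  set m := x ^ 2 - x * x' + x' ^ 2 with hm
  have ht0 : 0 < x * x' := mul_pos h0 h0'
  have htm : x * x' ≤ m := by rw [hm]; nlinarith [sq_nonneg (x - x')]
  have hm0 : 0 < m := ht0.trans_le htm
  have hm1 : m ≤ 1 / 10 ^ 6 := by rw [hm]; nlinarith
  have hP : cbar x * cbar x' ≤ 1 - (1 - 1 / 10 ^ 4) * (m + x * x') / 2 := by
    have a : cbar x * cbar x' ≤
        (1 - (1 - 1 / 10 ^ 5) * x ^ 2 / 2) * (1 - (1 - 1 / 10 ^ 5) * x' ^ 2 / 2) :=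
      mul_le_mul c1 c1' c0' (by linarith)
    have b : x ^ 2 * x' ^ 2 ≤ x ^ 2 * (1 / 10 ^ 6) := mul_le_mul_of_nonneg_left q1' q0
    have e : m + x * x' = x ^ 2 + x' ^ 2 := by rw [hm]; ring
    rw [e]
    nlinarith
  have he : sbar x * sbar x' = (1 + 1 / 10 ^ 6) ^ 2 * (x * x') := by unfold sbar; ring
  have he0 : 0 ≤ sbar x * sbar x' := by rw [he]; positivity
  have he1 : sbar x * sbar x' ≤ (1 + 3 / 10 ^ 6) * (x * x') := by
    rw [he]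
    exact mul_le_mul_of_nonneg_right (by norm_num) ht0.le
  have hP0 : 0 ≤ cbar x * cbar x' := mul_nonneg c0 c0'
  have hq0 : 0 ≤ cbar x * cbar x' * (cbar x * cbar x' + sbar x * sbar x') :=
    mul_nonneg hP0 (add_nonneg hP0 he0)
  have key := k_core hP0 ht0.le htm hm0 hm1 hP he0 he1
    (sum_nonneg fun i _ => pow_nonneg hq0 i) (k_geom hq0 N)
  rw [← k_ker_eq] at key
  have hd : 0 < 1 - r + r ^ 2 := by nlinarith
  have h2 : x * x' ≤ Kr r * m := by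
    unfold Kr
    rw [div_mul_eq_mul_div, le_div_iff₀ hd, hm]
    have a : 0 ≤ r * x - x' := by linarith
    have b : 0 ≤ x - r * x' := by nlinarith
    nlinarith [mul_nonneg a b]
  refine le_of_mul_le_mul_right ?_ hm0
  linarith

/-- **row K** -/
theorem rowK : RowK :=
  ⟨k_one, fun x h0 h1 => ⟨k_cbar_nonneg h0 h1, by unfold sbar; positivity,
    fun _ hN => k_pow h0 h1 hN⟩, fun x x' r N a b c d e =>
    ⟨k_ker x x' r N a b c d e, by rw [k_ker_comm]; exact k_ker x x' r N a b c d e⟩⟩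

end Vale.Agent.Q105
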