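import Vale.Agent.Q105.Chk

/-!
# Row K1: soundness of `wordU` and `wordL`
-/

open MeasureTheory Real Finset

namespace Vale.Agent.Q105

open Vale.Agent.P105

theorem k1_force {α : Type} (x : ℕ) (f : ℕ → α) : force x f = f x := by
  cases x <;> rfl

theorem k1_shift (x : ℕ) : Nat.shiftRight x 40 = x / 1099511627776 := by
  rw [Nat.shiftRight_eq, Nat.shiftRight_eq_div_pow]

theorem k1_div_le (x y : ℕ) : ((Nat.div x y : ℕ) : ℝ) ≤ (x : ℝ) / y := Nat.cast_div_le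

theorem k1_le_div (x y : ℕ) (hy : 0 < y) : (x : ℝ) / y ≤ ((Nat.div x y : ℕ) : ℝ) + 1 := by
  have h : x < y * (x / y + 1) := Nat.lt_mul_div_succ x hy
  have h' : (x : ℝ) < y * (((x / y : ℕ) : ℝ) + 1) := by exact_mod_cast h
  have hy' : (0 : ℝ) < y := by exact_mod_cast hy
  rw [div_le_iff₀ hy']
  change (x : ℝ) ≤ (((x / y : ℕ) : ℝ) + 1) * y
  linarith

theorem k1_shift_le (x : ℕ) : ((Nat.shiftRight x 40 : ℕ) : ℝ) ≤ (x : ℝ) / 2 ^ 40 := by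
  rw [k1_shift]
  have := k1_div_le x 1099511627776
  norm_num at this ⊢
  exact this

theorem k1_le_shift (x : ℕ) : (x : ℝ) / 2 ^ 40 ≤ ((Nat.shiftRight x 40 : ℕ) : ℝ) + 1 := by
  rw [k1_shift]
  have := k1_le_div x 1099511627776 (by norm_num)
  norm_num at this ⊢
  exact this

theorem k1_goU_succ (n a b acc : ℕ) (l l' : List ℕ) :
    goU (n + 1) (a :: l) (b :: l') acc =
      goU n l l' (Nat.shiftRight (acc * cosU (Nat.sub (red (a + b)) 4)) 40 + 1) := by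
  have h : goU (n + 1) (a :: l) (b :: l') acc = force (Nat.sub (red (Nat.add a b)) 4) fun x =>
      force (Nat.succ (Nat.shiftRight (Nat.mul acc (cosU x)) 40)) fun t => goU n l l' t := rfl
  rw [h, k1_force, k1_force]
  rfl

theorem k1_goL_succ (n a b acc : ℕ) (l l' : List ℕ) :
    goL (n + 1) (a :: l) (b :: l') acc =
      goL n l l' (Nat.shiftRight (acc * cosL (Nat.add (red (a + b)) 4)) 40) := by
  have h : goL (n + 1) (a :: l) (b :: l') acc = force (Nat.add (red (Nat.add a b)) 4) fun x =>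
      force (Nat.shiftRight (Nat.mul acc (cosL x)) 40) fun t => goL n l l' t := rfl
  rw [h, k1_force, k1_force]
  rfl

theorem k1_go (hC : RowC) (O n : ℕ) : ∀ (v : ℕ → ℝ) (L L' : List ℕ) (acc : ℕ),
    n ≤ L.length → n ≤ L'.length →
    (∀ i < n, |v i + O - ((L.getD i 0 + L'.getD i 0 : ℕ) : ℝ) / 2 ^ 40| ≤ (4 : ℝ) / 2 ^ 40) →
    (acc : ℝ) * ∏ i ∈ range n, |cos (π * v i)| ≤ goU n L L' acc ∧
    (goL n L L' acc : ℝ) ≤ acc * ∏ i ∈ range n, |cos (π * v i)| := by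
  induction n with
  | zero => intro v L L' acc _ _ _; simp [goU, goL]
  | succ n ih =>
    intro v L L' acc h1 h2 h
    obtain _ | ⟨a, l⟩ := L
    · simp at h1
    obtain _ | ⟨b, l'⟩ := L'
    · simp at h2
    have g1 : n ≤ l.length := by simpa using h1
    have g2 : n ≤ l'.length := by simpa using h2
    have g : ∀ i < n, |v (i + 1) + O - ((l.getD i 0 + l'.getD i 0 : ℕ) : ℝ) / 2 ^ 40| ≤
        (4 : ℝ) / 2 ^ 40 := fun i hi => by
      simpa only [List.getD_cons_succ] using h (i + 1) (Nat.succ_lt_succ hi)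
    have h0 := h 0 (Nat.succ_pos n)
    simp only [List.getD_cons_zero] at h0
    obtain ⟨c1, c2⟩ := hC (a + b) 4 (O : ℤ) (v 0) (by norm_num) (by simpa using h0)
    have hP : 0 ≤ ∏ i ∈ range n, |cos (π * v (i + 1))| := prod_nonneg fun _ _ => abs_nonneg _
    have ha : (0 : ℝ) ≤ acc := Nat.cast_nonneg _
    rw [prod_range_succ', k1_goU_succ, k1_goL_succ]
    constructor
    · refine le_trans ?_ (ih (fun i => v (i + 1)) l l' _ g1 g2 g).1
      have e := k1_le_shift (acc * cosU (Nat.sub (red (a + b)) 4))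
      rw [Nat.cast_mul, mul_div_assoc] at e
      rw [Nat.cast_add, Nat.cast_one, mul_comm (∏ i ∈ range n, _), ← mul_assoc]
      exact mul_le_mul_of_nonneg_right ((mul_le_mul_of_nonneg_left c1 ha).trans e) hP
    · refine le_trans (ih (fun i => v (i + 1)) l l' _ g1 g2 g).2 ?_
      have e := k1_shift_le (acc * cosL (Nat.add (red (a + b)) 4))
      rw [Nat.cast_mul, mul_div_assoc] at e
      rw [mul_comm (∏ i ∈ range n, _), ← mul_assoc]
      exact mul_le_mul_of_nonneg_right (e.trans (mul_le_mul_of_nonneg_left c2 ha)) hP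

theorem k1_sqD_succ (n x : ℕ) : sqD (n + 1) x = sqD n (Nat.shiftRight (x * x) 40) := by
  change force _ _ = _
  rw [k1_force]
  rfl

theorem k1_sqD_le (n : ℕ) : ∀ x : ℕ, (sqD n x : ℝ) / 2 ^ 40 ≤ ((x : ℝ) / 2 ^ 40) ^ (2 ^ n) := by
  induction n with
  | zero => intro x; simp [sqD]
  | succ n ih =>
    intro x
    rw [k1_sqD_succ, pow_succ' 2 n, pow_mul]
    refine (ih _).trans (pow_le_pow_left₀ (by positivity) ?_ _)
    have e := k1_shift_le (x * x)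
    rw [Nat.cast_mul] at e
    calc _ ≤ (x : ℝ) * x / 2 ^ 40 / 2 ^ 40 := by gcongr
      _ = _ := by ring

theorem k1_sqD_ge (n : ℕ) : ∀ x : ℕ, 1099511627776 ≤ x → 1099511627776 ≤ sqD n x := by
  induction n with
  | zero => intro x h; exact h
  | succ n ih =>
    intro x h
    rw [k1_sqD_succ]
    refine ih _ ?_
    rw [k1_shift, Nat.le_div_iff_mul_le (by norm_num)]
    exact Nat.mul_le_mul h h

theorem k1_pow_exp (u s : ℝ) (h0 : 0 ≤ u) (h : u ≤ exp (s / 1024)) : u ^ (2 ^ 10) ≤ exp s := by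
  refine (pow_le_pow_left₀ h0 h _).trans_eq ?_
  rw [← exp_nat_mul]
  congr 1
  push_cast
  ring

theorem k1_expU (t : ℕ) : exp (-((t : ℝ) / 2 ^ 40)) ≤ (expU t : ℝ) / 2 ^ 40 := by
  set q := sqD 10 (Nat.add 1099511627776 (Nat.div t 1024)) with hq
  have q1 : 1099511627776 ≤ q := k1_sqD_ge _ _ (Nat.le_add_right _ _)
  have q0 : 0 < q := lt_of_lt_of_le (by norm_num) q1
  have q0' : (0 : ℝ) < q := by exact_mod_cast q0
  have q2 : (q : ℝ) / 2 ^ 40 ≤ exp ((t : ℝ) / 2 ^ 40) := by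
    refine (k1_sqD_le _ _).trans (k1_pow_exp _ _ (by positivity) ?_)
    have e := k1_div_le t 1024
    have e' := add_one_le_exp ((t : ℝ) / 2 ^ 40 / 1024)
    refine le_trans ?_ e'
    rw [Nat.add_eq, Nat.cast_add]
    push_cast at e ⊢
    linarith
  have q3 := k1_le_div 1208925819614629174706176 q q0
  have q4 : (expU t : ℝ) = ((Nat.div 1208925819614629174706176 q : ℕ) : ℝ) + 1 := by
    rw [expU, Nat.succ_eq_add_one, Nat.cast_add, Nat.cast_one]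
  rw [q4, exp_neg]
  have q5 : (exp ((t : ℝ) / 2 ^ 40))⁻¹ ≤ ((q : ℝ) / 2 ^ 40)⁻¹ := inv_anti₀ (by positivity) q2
  refine q5.trans ?_
  rw [inv_div, le_div_iff₀ (by positivity)]
  refine le_trans (le_of_eq ?_) q3
  push_cast
  ring

theorem k1_expL (t : ℕ) : (expL t : ℝ) / 2 ^ 40 ≤ exp (-((t : ℝ) / 2 ^ 40)) := by
  refine (k1_sqD_le _ _).trans (k1_pow_exp _ _ (by positivity) ?_)
  rcases le_total (Nat.div t 1024) 1099511627775 with h | h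
  · have e := k1_le_div t 1024 (by norm_num)
    have e' := add_one_le_exp (-((t : ℝ) / 2 ^ 40) / 1024)
    refine le_trans ?_ e'
    rw [Nat.sub_eq, Nat.cast_sub h]
    push_cast at e ⊢
    linarith
  · rw [Nat.sub_eq, Nat.sub_eq_zero_of_le h]
    simp only [Nat.cast_zero, zero_div]
    positivity

theorem k1_adf (p q : ℕ) : (adf p q : ℝ) = |(p : ℝ) - q| := by
  rw [adf, Nat.add_eq, Nat.sub_eq, Nat.sub_eq]
  rcases le_total p q with h | h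
  · have h' : (p : ℝ) ≤ q := by exact_mod_cast h
    rw [Nat.sub_eq_zero_of_le h, zero_add, Nat.cast_sub h, abs_sub_comm, abs_of_nonneg (by linarith)]
  · have h' : (q : ℝ) ≤ p := by exact_mod_cast h
    rw [Nat.sub_eq_zero_of_le h, add_zero, Nat.cast_sub h, abs_of_nonneg (by linarith)]

theorem k1_sub_le (p q : ℕ) (y : ℝ) (h : (p : ℝ) - q ≤ y * 2 ^ 40) :
    ((Nat.sub p q : ℕ) : ℝ) / 2 ^ 40 ≤ max 0 y := by
  rw [Nat.sub_eq]
  rcases le_total p q with g | g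
  · rw [Nat.sub_eq_zero_of_le g]
    simp
  · rw [Nat.cast_sub g]
    exact le_max_of_le_right ((div_le_iff₀ (by positivity)).2 h)

theorem k1_close {x y e : ℝ} (h : |x - y| ≤ e) : |x| ≤ |y| + e ∧ |y| ≤ |x| + e := by
  have h1 := abs_sub_abs_le_abs_sub x y
  have h2 := abs_sub_abs_le_abs_sub y x
  rw [abs_sub_comm] at h2
  constructor <;> linarith

theorem k1_qX (O s0 s1 : ℕ) (v0 v1 : ℝ) (h0 : |v0 + O - (s0 : ℝ) / 2 ^ 40| ≤ (4 : ℝ) / 2 ^ 40)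
    (h1 : |v1 + O - (s1 : ℝ) / 2 ^ 40| ≤ (4 : ℝ) / 2 ^ 40) :
    ((qX O s0 s1 : ℝ) / 10 ^ 10 ≤ |v0 + 0.6480873023 * v1| * 2 ^ 40 + 7 ∧
      |v0 + 0.6480873023 * v1| * 2 ^ 40 ≤ (qX O s0 s1 : ℝ) / 10 ^ 10 + 7) ∧
    (adf s1 (Nat.mul O 1099511627776) : ℝ) ≤ |v1| * 2 ^ 40 + 4 ∧
      |v1| * 2 ^ 40 ≤ (adf s1 (Nat.mul O 1099511627776) : ℝ) + 4 := by
  obtain ⟨a1, a2⟩ := abs_le.1 h0
  obtain ⟨b1, b2⟩ := abs_le.1 h1
  have m1 : ∀ x : ℝ, |x| * 2 ^ 40 = |x * 2 ^ 40| := fun x => by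
    rw [abs_mul, abs_of_pos (a := (2 : ℝ) ^ 40) (by positivity)]
  have m2 : ∀ x : ℝ, |x| / 10 ^ 10 = |x / 10 ^ 10| := fun x => by
    rw [abs_div, abs_of_pos (a := (10 : ℝ) ^ 10) (by positivity)]
  rw [qX, k1_adf, k1_adf, m1, m1, m2]
  simp only [Nat.add_eq, Nat.mul_eq]
  push_cast
  exact ⟨k1_close (abs_le.2 ⟨by linarith, by linarith⟩),
    k1_close (abs_le.2 ⟨by linarith, by linarith⟩)⟩

theorem k1_U1 (T : ℕ) (s : ℝ) (h : (T : ℝ) / 2 ^ 40 ≤ s) :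
    exp (-s + 1 / 10 ^ 5) ≤
      ((Nat.succ (Nat.div (Nat.mul 100002 (expU T)) 100000) : ℕ) : ℝ) / 2 ^ 40 := by
  have d3 := k1_expU T
  have d4 : (100002 * (expU T : ℝ)) / 100000 ≤
      ((Nat.div (Nat.mul 100002 (expU T)) 100000 : ℕ) : ℝ) + 1 :=
    le_trans (le_of_eq (by rw [Nat.mul_eq]; push_cast; rfl))
      (k1_le_div (Nat.mul 100002 (expU T)) 100000 (by norm_num))
  have d5 : exp (1 / 10 ^ 5 : ℝ) ≤ 1.00002 :=
    (exp_bound_div_one_sub_of_interval (by norm_num) (by norm_num)).trans (by norm_num)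
  have d6 : exp (-s) ≤ exp (-((T : ℝ) / 2 ^ 40)) := exp_le_exp.2 (by linarith)
  rw [exp_add, Nat.cast_succ]
  calc _ ≤ (expU T : ℝ) / 2 ^ 40 * 1.00002 :=
        mul_le_mul (d6.trans d3) d5 (exp_pos _).le (by positivity)
    _ = (100002 * (expU T : ℝ)) / 100000 / 2 ^ 40 := by ring
    _ ≤ _ := div_le_div_of_nonneg_right d4 (by positivity)

theorem k1_U2 (X Y : ℕ) : ((Nat.div (Nat.mul 11785 (Nat.add (Nat.mul 17235 (Nat.mul X X))
    (Nat.mul 10000 (Nat.mul Y Y)))) 10995116277760000 : ℕ) : ℝ) / 2 ^ 40 ≤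
      11785 * (1.7235 * ((X : ℝ) / 2 ^ 40) ^ 2 + ((Y : ℝ) / 2 ^ 40) ^ 2) := by
  refine (div_le_div_of_nonneg_right (k1_div_le _ _) (by positivity)).trans_eq ?_
  simp only [Nat.add_eq, Nat.mul_eq]
  push_cast
  ring

theorem k1_tailU (O s0 s1 : ℕ) (v0 v1 : ℝ)
    (h0 : |v0 + O - (s0 : ℝ) / 2 ^ 40| ≤ (4 : ℝ) / 2 ^ 40)
    (h1 : |v1 + O - (s1 : ℝ) / 2 ^ 40| ≤ (4 : ℝ) / 2 ^ 40) :
    ∃ X Y : ℝ, 0 ≤ X ∧ 0 ≤ Y ∧ X ≤ max 0 (|v0 + 0.6480873023 * v1| - 1 / 10 ^ 6) ∧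
      Y ≤ max 0 (|v1| - 1 / 10 ^ 6) ∧
      exp (-(11785 * (1.7235 * X ^ 2 + Y ^ 2)) + 1 / 10 ^ 5) ≤ (tailU O s0 s1 : ℝ) / 2 ^ 40 := by
  obtain ⟨⟨a1, -⟩, b1, -⟩ := k1_qX O s0 s1 v0 v1 h0 h1
  have d1 := k1_div_le (qX O s0 s1) 10000000000
  have x1 := k1_sub_le (Nat.div (qX O s0 s1) 10000000000) 1099600
    (|v0 + 0.6480873023 * v1| - 1 / 10 ^ 6) (by push_cast at d1 ⊢; linarith)
  have y1 := k1_sub_le (adf s1 (Nat.mul O 1099511627776)) 1099600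
    (|v1| - 1 / 10 ^ 6) (by push_cast; linarith)
  have p : (0 : ℝ) ≤ 2 ^ 40 := by positivity
  refine ⟨_, _, div_nonneg (Nat.cast_nonneg _) p, div_nonneg (Nat.cast_nonneg _) p, x1, y1, ?_⟩
  rw [tailU, k1_force, k1_force]
  exact k1_U1 _ _ (k1_U2 _ _)

theorem k1_cond (b : Bool) (V : ℕ) : cond b V 0 = 0 ∨ b = true ∧ cond b V 0 = V := by
  cases b <;> simp

theorem k1_L0 (E c d : ℕ) (s : ℝ) (hE : (E : ℝ) = s * (10000 * 2 ^ 80))
    (hc : c = 10995116277760000) (hd : d = 10995118) :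
    (expL (Nat.add (Nat.div (Nat.mul 11815 E) c) d) : ℝ) / 2 ^ 40 ≤
      exp (-(11815 * s + 1 / 10 ^ 5)) := by
  refine (k1_expL _).trans (exp_le_exp.2 ?_)
  have d2 := k1_le_div (Nat.mul 11815 E) c (by omega)
  have hc' : (c : ℝ) = 10995116277760000 := by exact_mod_cast hc
  have hd' : (d : ℝ) = 10995118 := by exact_mod_cast hd
  have hm : ((Nat.mul 11815 E : ℕ) : ℝ) = 11815 * E := by
    rw [Nat.mul_eq]
    push_cast
    rfl
  rw [hc', hm] at d2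
  rw [Nat.add_eq, Nat.cast_add, hd']
  linarith

theorem k1_L1 (E : ℕ) (s : ℝ) (hE : (E : ℝ) = s * (10000 * 2 ^ 80)) :
    (cond (Nat.ble E 2417851639229258349412352)
      (expL (Nat.add (Nat.div (Nat.mul 11815 E) 10995116277760000) 10995118)) 0 : ℕ) = 0 ∨
    s ≤ 2 / 10 ^ 4 ∧ ((cond (Nat.ble E 2417851639229258349412352)
      (expL (Nat.add (Nat.div (Nat.mul 11815 E) 10995116277760000) 10995118)) 0 : ℕ) : ℝ) / 2 ^ 40 ≤
        exp (-(11815 * s + 1 / 10 ^ 5)) := by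
  refine (k1_cond _ _).imp_right fun ⟨hb, h⟩ => ⟨?_, ?_⟩
  · have h : (E : ℝ) ≤ 2417851639229258349412352 := by exact_mod_cast Nat.le_of_ble_eq_true hb
    linarith
  · rw [h]
    exact k1_L0 E _ _ s hE rfl rfl

theorem k1_L2 (X Y : ℕ) :
    ((Nat.add (Nat.mul 17236 (Nat.mul X X)) (Nat.mul 10000 (Nat.mul Y Y)) : ℕ) : ℝ) =
      (1.7236 * ((X : ℝ) / 2 ^ 40) ^ 2 + ((Y : ℝ) / 2 ^ 40) ^ 2) * (10000 * 2 ^ 80) := by
  simp only [Nat.add_eq, Nat.mul_eq]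
  push_cast
  ring

theorem k1_add_ge (p q : ℕ) (y : ℝ) (h : y * 2 ^ 40 ≤ (p : ℝ) + q) :
    y ≤ ((Nat.add p q : ℕ) : ℝ) / 2 ^ 40 := by
  rw [Nat.add_eq, Nat.cast_add]
  exact (le_div_iff₀ (by positivity)).2 h

theorem k1_tailL (O s0 s1 : ℕ) (v0 v1 : ℝ)
    (h0 : |v0 + O - (s0 : ℝ) / 2 ^ 40| ≤ (4 : ℝ) / 2 ^ 40)
    (h1 : |v1 + O - (s1 : ℝ) / 2 ^ 40| ≤ (4 : ℝ) / 2 ^ 40) :
    tailL O s0 s1 = 0 ∨ ∃ X Y : ℝ, |v0 + 0.6480873023 * v1| + 1 / 10 ^ 6 ≤ X ∧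
      |v1| + 1 / 10 ^ 6 ≤ Y ∧ 1.7236 * X ^ 2 + Y ^ 2 ≤ 2 / 10 ^ 4 ∧
      (tailL O s0 s1 : ℝ) / 2 ^ 40 ≤ exp (-(11815 * (1.7236 * X ^ 2 + Y ^ 2) + 1 / 10 ^ 5)) := by
  obtain ⟨⟨-, a1⟩, -, b1⟩ := k1_qX O s0 s1 v0 v1 h0 h1
  have d1 := k1_le_div (qX O s0 s1) 10000000000 (by norm_num)
  have x1 := k1_add_ge (Nat.div (qX O s0 s1) 10000000000) 1099600
    (|v0 + 0.6480873023 * v1| + 1 / 10 ^ 6) (by push_cast at d1 ⊢; linarith)
  have y1 := k1_add_ge (adf s1 (Nat.mul O 1099511627776)) 1099600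
    (|v1| + 1 / 10 ^ 6) (by push_cast; linarith)
  rw [tailL, k1_force, k1_force, k1_force]
  exact (k1_L1 _ _ (k1_L2 _ _)).imp_right fun h => ⟨_, _, x1, y1, h.1, h.2⟩

theorem k1_sum {x x' e e' : ℝ} {o o' a a' : ℕ} (h : |x + o - (a : ℝ) / 2 ^ 40| ≤ e / 2 ^ 40)
    (h' : |x' + o' - (a' : ℝ) / 2 ^ 40| ≤ e' / 2 ^ 40) (he : e + e' ≤ 4) :
    |x + x' + ((o + o' : ℕ) : ℝ) - ((a + a' : ℕ) : ℝ) / 2 ^ 40| ≤ (4 : ℝ) / 2 ^ 40 := by
  obtain ⟨a1, a2⟩ := abs_le.1 h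
  obtain ⟨b1, b2⟩ := abs_le.1 h'
  push_cast
  exact abs_le.2 ⟨by linarith, by linarith⟩

theorem rowK1 (hL : RowL) (hC : RowC) : RowK1 := by
  intro D hD α α' o o' e e' top k L L' hW he hk ⟨h1, h2⟩ ⟨h1', h2'⟩
  have he' : (e : ℝ) + e' ≤ 4 := by exact_mod_cast he
  obtain _ | ⟨a, l⟩ := L
  · simp at h1
  obtain _ | ⟨a', l'⟩ := L'
  · simp at h1'
  have g1 : top + 1 ≤ l.length := by simpa using h1
  have g1' : top + 1 ≤ l'.length := by simpa using h1'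
  have s1 := k1_sum (h2 0 (by omega)) (h2' 0 (by omega)) he'
  simp only [List.getD_cons_zero, Nat.cast_zero, add_zero] at s1
  have s : ∀ i < top + 1, |α i + α' i + ((o + o' : ℕ) : ℝ) -
      ((l.getD i 0 + l'.getD i 0 : ℕ) : ℝ) / 2 ^ 40| ≤ (4 : ℝ) / 2 ^ 40 := fun i hi => by
    have t := k1_sum (h2 (i + 1) (by omega)) (h2' (i + 1) (by omega)) he'
    have c : (-1 : ℤ) + ((i + 1 : ℕ) : ℤ) = i := by omega
    simpa only [List.getD_cons_succ, c] using t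
  have hd : ∀ l : List ℕ, l.headD 0 = l.getD 0 0 := fun l => by cases l <;> rfl
  have s0 := s 0 (by omega)
  rw [← hd, ← hd, Nat.cast_zero] at s0
  obtain ⟨u1, u2⟩ := hL D hD _ hW top k hk
  have hP : 0 ≤ ∏ i ∈ range (top + 1), |cos (π * (α i + α' i))| :=
    prod_nonneg fun _ _ => abs_nonneg _
  have go := fun acc => k1_go hC (o + o') (top + 1) (fun i => α i + α' i) l l' acc g1 g1' s
  refine ⟨?_, fun τ t0 t1 hτ => ?_⟩
  · obtain ⟨X, Y, x0, y0, x1, y1, hx⟩ := k1_tailU _ _ _ _ _ s0 s1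
    refine (u1 X Y x0 y0 x1 y1).trans ((mul_le_mul_of_nonneg_left hx hP).trans ?_)
    rw [← mul_div_assoc, mul_comm]
    exact div_le_div_of_nonneg_right (go _).1 (by positivity)
  · have w : (wordL (o + o') (top + 1) (a :: l) (a' :: l') : ℝ) ≤
        (tailL (o + o') (l.headD 0 + l'.headD 0) (a + a') : ℝ) *
          ∏ i ∈ range (top + 1), |cos (π * (α i + α' i))| := (go _).2
    have t5 : 0 ≤ 1 - 5 * τ := by linarith
    rcases k1_tailL _ _ _ _ _ s0 s1 with z | ⟨X, Y, x1, y1, xy, hx⟩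
    · rw [z, Nat.cast_zero, zero_mul] at w
      refine le_trans ?_ (abs_nonneg _)
      exact mul_nonpos_of_nonpos_of_nonneg (div_nonpos_of_nonpos_of_nonneg w (by positivity)) t5
    · refine le_trans (mul_le_mul_of_nonneg_right ?_ t5) (u2 X Y τ x1 y1 xy t1 hτ)
      refine (div_le_div_of_nonneg_right w (by positivity)).trans ?_
      rw [mul_comm, mul_div_assoc]
      exact mul_le_mul_of_nonneg_left hx hP

end Vale.Agent.Q105
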