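import Vale.Agent.Q105.Chk

/-!
# Row K1: soundness of the bounds for a word
-/

open MeasureTheory Real Finset

namespace Vale.Agent.Q105

open Vale.Agent.P105

theorem k151_force {α : Type} (x : ℕ) (f : ℕ → α) : force x f = f x := by
  cases x <;> rfl

theorem k151_shr (x : ℕ) : Nat.shiftRight x 40 = x / 2 ^ 40 := Nat.shiftRight_eq_div_pow x 40

theorem k151_dv (a b : ℕ) : Nat.div a b = a / b := rfl

theorem k151_div_le (a b : ℕ) : ((a / b : ℕ) : ℝ) ≤ (a : ℝ) / b := Nat.cast_div_le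

theorem k151_le_div (a b : ℕ) (hb : 0 < b) : (a : ℝ) / b ≤ ((a / b : ℕ) : ℝ) + 1 := by
  have h := Nat.lt_div_mul_add (a := a) hb
  have hb' : (0 : ℝ) < b := by exact_mod_cast hb
  rw [div_le_iff₀ hb']
  have : (a : ℝ) ≤ ((a / b : ℕ) : ℝ) * b + b := by exact_mod_cast h.le
  linarith

theorem k151_goU (hC : RowC) (o : ℤ) : ∀ (n : ℕ) (L L' : List ℕ) (acc : ℕ) (v : ℕ → ℝ),
    n ≤ L.length → n ≤ L'.length →
    (∀ i < n, |v i + o - ((L.getD i 0 + L'.getD i 0 : ℕ) : ℝ) / 2 ^ 40| ≤ 4 / 2 ^ 40) →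
    (acc : ℝ) * ∏ i ∈ range n, |cos (π * v i)| ≤ goU n L L' acc := by
  intro n
  induction n with
  | zero => intro L L' acc v _ _ _; simp [goU]
  | succ n ih =>
    intro L L' acc v h1 h2 h
    obtain _ | ⟨a, l⟩ := L
    · simp at h1
    obtain _ | ⟨b, l'⟩ := L'
    · simp at h2
    have e : goU (n + 1) (a :: l) (b :: l') acc =
        goU n l l' (acc * cosU (red (a + b) - 4) / 2 ^ 40 + 1) := by
      have e0 : goU (n + 1) (a :: l) (b :: l') acc =
          force (Nat.sub (red (Nat.add a b)) 4) fun x =>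
            force (Nat.succ (Nat.shiftRight (Nat.mul acc (cosU x)) 40)) fun t => goU n l l' t :=
        rfl
      simp only [e0, k151_force, k151_shr, Nat.add_eq, Nat.mul_eq, Nat.sub_eq,
        Nat.succ_eq_add_one]
    rw [e, prod_range_succ']
    have h0 := (hC (a + b) 4 o (v 0) (by norm_num) (by simpa using h 0 (Nat.succ_pos n))).1
    refine le_trans ?_ (ih l l' _ (fun i => v (i + 1)) (by simpa using h1) (by simpa using h2)
      fun i hi => by simpa using h (i + 1) (by omega))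
    have hp : 0 ≤ ∏ i ∈ range n, |cos (π * v (i + 1))| := prod_nonneg fun _ _ => abs_nonneg _
    have h3 := k151_le_div (acc * cosU (red (a + b) - 4)) (2 ^ 40) (by norm_num)
    have h4 : (acc : ℝ) * |cos (π * v 0)| ≤
        ((acc * cosU (red (a + b) - 4) / 2 ^ 40 + 1 : ℕ) : ℝ) := by
      push_cast at h3 ⊢
      refine le_trans ?_ h3
      rw [mul_div_assoc]
      rw [Nat.sub_eq] at h0
      exact mul_le_mul_of_nonneg_left (le_trans h0 (le_of_eq (by norm_num))) (Nat.cast_nonneg _)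
    calc (acc : ℝ) * ((∏ i ∈ range n, |cos (π * v (i + 1))|) * |cos (π * v 0)|)
        = (acc * |cos (π * v 0)|) * ∏ i ∈ range n, |cos (π * v (i + 1))| := by ring
      _ ≤ _ := mul_le_mul_of_nonneg_right h4 hp

theorem k151_goL (hC : RowC) (o : ℤ) : ∀ (n : ℕ) (L L' : List ℕ) (acc : ℕ) (v : ℕ → ℝ),
    n ≤ L.length → n ≤ L'.length →
    (∀ i < n, |v i + o - ((L.getD i 0 + L'.getD i 0 : ℕ) : ℝ) / 2 ^ 40| ≤ 4 / 2 ^ 40) →
    (goL n L L' acc : ℝ) ≤ (acc : ℝ) * ∏ i ∈ range n, |cos (π * v i)| := by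
  intro n
  induction n with
  | zero => intro L L' acc v _ _ _; simp [goL]
  | succ n ih =>
    intro L L' acc v h1 h2 h
    obtain _ | ⟨a, l⟩ := L
    · simp at h1
    obtain _ | ⟨b, l'⟩ := L'
    · simp at h2
    have e : goL (n + 1) (a :: l) (b :: l') acc =
        goL n l l' (acc * cosL (red (a + b) + 4) / 2 ^ 40) := by
      have e0 : goL (n + 1) (a :: l) (b :: l') acc =
          force (Nat.add (red (Nat.add a b)) 4) fun x =>
            force (Nat.shiftRight (Nat.mul acc (cosL x)) 40) fun t => goL n l l' t :=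
        rfl
      simp only [e0, k151_force, k151_shr, Nat.add_eq, Nat.mul_eq]
    rw [e, prod_range_succ']
    have h0 := (hC (a + b) 4 o (v 0) (by norm_num) (by simpa using h 0 (Nat.succ_pos n))).2
    refine le_trans (ih l l' _ (fun i => v (i + 1)) (by simpa using h1) (by simpa using h2)
      fun i hi => by simpa using h (i + 1) (by omega)) ?_
    have hp : 0 ≤ ∏ i ∈ range n, |cos (π * v (i + 1))| := prod_nonneg fun _ _ => abs_nonneg _
    have h3 := k151_div_le (acc * cosL (red (a + b) + 4)) (2 ^ 40)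
    have h4 : ((acc * cosL (red (a + b) + 4) / 2 ^ 40 : ℕ) : ℝ) ≤
        (acc : ℝ) * |cos (π * v 0)| := by
      refine le_trans h3 ?_
      push_cast
      rw [mul_div_assoc]
      rw [Nat.add_eq] at h0
      exact mul_le_mul_of_nonneg_left (le_trans (le_of_eq (by norm_num)) h0) (Nat.cast_nonneg _)
    calc _ ≤ (acc * |cos (π * v 0)|) * ∏ i ∈ range n, |cos (π * v (i + 1))| :=
          mul_le_mul_of_nonneg_right h4 hp
      _ = _ := by ring

theorem k151_sq (n x : ℕ) : sqD (n + 1) x = sqD n (x * x / 2 ^ 40) := by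
  show force _ _ = _
  rw [k151_force]
  show sqD n ((x * x) >>> 40) = _
  rw [Nat.shiftRight_eq_div_pow]

theorem k151_sq_le : ∀ n x : ℕ, (sqD n x : ℝ) / 2 ^ 40 ≤ ((x : ℝ) / 2 ^ 40) ^ 2 ^ n := by
  intro n
  induction n with
  | zero => intro x; simp [sqD]
  | succ n ih =>
    intro x
    rw [k151_sq, pow_succ' 2 n, pow_mul]
    refine le_trans (ih _) (pow_le_pow_left₀ (by positivity) ?_ _)
    have h := k151_div_le (x * x) (2 ^ 40)
    rw [div_le_iff₀ (by positivity)]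
    refine le_trans h (le_of_eq ?_)
    push_cast
    ring

theorem k151_sq_ge : ∀ n x : ℕ, 2 ^ 40 ≤ x → 2 ^ 40 ≤ sqD n x := by
  intro n
  induction n with
  | zero => intro x h; exact h
  | succ n ih =>
    intro x h
    rw [k151_sq]
    refine ih _ ?_
    rw [Nat.le_div_iff_mul_le (by norm_num)]
    exact Nat.mul_le_mul h h

theorem k151_expU (t : ℕ) : exp (-((t : ℝ) / 2 ^ 40)) ≤ (expU t : ℝ) / 2 ^ 40 := by
  have e : expU t = 1208925819614629174706176 / sqD 10 (1099511627776 + t / 1024) + 1 := rfl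
  set q := sqD 10 (1099511627776 + t / 1024) with hq
  have h1 : 2 ^ 40 ≤ q := k151_sq_ge 10 _ (by omega)
  have h1' : (2 : ℝ) ^ 40 ≤ q := by exact_mod_cast h1
  have h2 : (q : ℝ) / 2 ^ 40 ≤ exp ((t : ℝ) / 2 ^ 40) := by
    refine le_trans (k151_sq_le 10 _) ?_
    have h3 : ((1099511627776 + t / 1024 : ℕ) : ℝ) / 2 ^ 40 ≤ exp ((t : ℝ) / 2 ^ 40 / 1024) := by
      refine le_trans ?_ (Real.add_one_le_exp _)
      have := k151_div_le t 1024
      rw [Nat.cast_add, div_le_iff₀ (by positivity)]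
      push_cast at this ⊢
      linarith
    refine le_trans (pow_le_pow_left₀ (by positivity) h3 _) (le_of_eq ?_)
    rw [← Real.exp_nat_mul]
    congr 1
    push_cast
    ring
  have h4 := k151_le_div 1208925819614629174706176 q (by omega)
  have hq0 : (0 : ℝ) < q := lt_of_lt_of_le (by positivity) h1'
  rw [e, Nat.cast_add, Nat.cast_one, le_div_iff₀ (by positivity)]
  refine le_trans ?_ h4
  rw [le_div_iff₀ hq0, Real.exp_neg]
  have h5 : 0 < exp ((t : ℝ) / 2 ^ 40) := Real.exp_pos _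
  rw [div_le_iff₀ (by positivity)] at h2
  calc (exp ((t : ℝ) / 2 ^ 40))⁻¹ * 2 ^ 40 * q
      ≤ (exp ((t : ℝ) / 2 ^ 40))⁻¹ * 2 ^ 40 * (exp ((t : ℝ) / 2 ^ 40) * 2 ^ 40) := by
        gcongr
    _ = 2 ^ 40 * 2 ^ 40 := by field_simp
    _ = _ := by norm_num

theorem k151_expL (t : ℕ) : (expL t : ℝ) / 2 ^ 40 ≤ exp (-((t : ℝ) / 2 ^ 40)) := by
  have e : expL t = sqD 10 (1099511627775 - t / 1024) := rfl
  rw [e]
  refine le_trans (k151_sq_le 10 _) ?_
  have h3 : ((1099511627775 - t / 1024 : ℕ) : ℝ) / 2 ^ 40 ≤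
      exp (-((t : ℝ) / 2 ^ 40) / 1024) := by
    rcases le_total 1099511627775 (t / 1024) with h | h
    · rw [Nat.sub_eq_zero_of_le h]
      simpa using (Real.exp_pos _).le
    · refine le_trans ?_ (Real.add_one_le_exp _)
      have := k151_le_div t 1024 (by norm_num)
      rw [Nat.cast_sub h, div_le_iff₀ (by positivity)]
      push_cast at this ⊢
      linarith
  refine le_trans (pow_le_pow_left₀ (by positivity) h3 _) (le_of_eq ?_)
  rw [← Real.exp_nat_mul]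
  congr 1
  push_cast
  ring

theorem k151_adf (p q : ℕ) : (adf p q : ℝ) = |(p : ℝ) - q| := by
  have e : adf p q = (p - q) + (q - p) := rfl
  rw [e]
  rcases le_total p q with h | h
  · have h' : (p : ℝ) ≤ q := by exact_mod_cast h
    rw [Nat.sub_eq_zero_of_le h, zero_add, Nat.cast_sub h, abs_of_nonpos (by linarith)]
    ring
  · have h' : (q : ℝ) ≤ p := by exact_mod_cast h
    rw [Nat.sub_eq_zero_of_le h, add_zero, Nat.cast_sub h, abs_of_nonneg (by linarith)]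

theorem k151_abs {x y e : ℝ} (h : |x - y| ≤ e) : |x| ≤ |y| + e ∧ |y| ≤ |x| + e := by
  have h1 := abs_sub_abs_le_abs_sub x y
  have h2 := abs_sub_abs_le_abs_sub y x
  rw [abs_sub_comm] at h2
  constructor <;> linarith

theorem k151_XY {p q : ℝ} {o s0 s1 : ℕ} (h0 : |p + o - (s0 : ℝ) / 2 ^ 40| ≤ 4 / 2 ^ 40)
    (h1 : |q + o - (s1 : ℝ) / 2 ^ 40| ≤ 4 / 2 ^ 40) :
    (((qX o s0 s1 / 10000000000 : ℕ) : ℝ) ≤ 2 ^ 40 * |p + 0.6480873023 * q| + 7 ∧
      2 ^ 40 * |p + 0.6480873023 * q| ≤ ((qX o s0 s1 / 10000000000 : ℕ) : ℝ) + 8) ∧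
    (adf s1 (o * 1099511627776) : ℝ) ≤ 2 ^ 40 * |q| + 4 ∧
      2 ^ 40 * |q| ≤ (adf s1 (o * 1099511627776) : ℝ) + 4 := by
  have e : qX o s0 s1 =
      adf (s0 * 10000000000 + s1 * 6480873023) (o * 1099511627776 * 16480873023) := rfl
  have a0 := abs_le.1 h0
  have a1 := abs_le.1 h1
  have hx : (qX o s0 s1 : ℝ) / 10000000000 =
      |((s0 : ℝ) - o * 2 ^ 40) + 0.6480873023 * ((s1 : ℝ) - o * 2 ^ 40)| := by
    rw [e, k151_adf, ← abs_of_pos (show (0 : ℝ) < 10000000000 by norm_num), ← abs_div]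
    congr 1
    push_cast
    ring
  have hb : |(((s0 : ℝ) - o * 2 ^ 40) + 0.6480873023 * ((s1 : ℝ) - o * 2 ^ 40)) -
      2 ^ 40 * (p + 0.6480873023 * q)| ≤ 7 := by
    rw [abs_le]
    constructor <;> linarith [a0.1, a0.2, a1.1, a1.2]
  have hc : |((s1 : ℝ) - o * 2 ^ 40) - 2 ^ 40 * q| ≤ 4 := by
    rw [abs_le]
    constructor <;> linarith [a1.1, a1.2]
  have hb' := k151_abs hb
  have hc' := k151_abs hc
  rw [abs_mul, abs_of_pos (show (0 : ℝ) < 2 ^ 40 by positivity)] at hb' hc'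
  have d1 := k151_div_le (qX o s0 s1) 10000000000
  have d2 := k151_le_div (qX o s0 s1) 10000000000 (by norm_num)
  have hy : (adf s1 (o * 1099511627776) : ℝ) = |(s1 : ℝ) - o * 2 ^ 40| := by
    rw [k151_adf]
    congr 1
    push_cast
    ring
  push_cast at d1 d2
  rw [hx] at d1 d2
  rw [hy]
  exact ⟨⟨by linarith [hb'.1], by linarith [hb'.2]⟩, hc'.1, hc'.2⟩

theorem k151_sub {a : ℕ} {w : ℝ} (h : (a : ℝ) ≤ 2 ^ 40 * w + 7) :
    ((a - 1099600 : ℕ) : ℝ) / 2 ^ 40 ≤ max 0 (w - 1 / 10 ^ 6) := by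
  rcases le_total a 1099600 with h1 | h1
  · rw [Nat.sub_eq_zero_of_le h1]
    simp
  · refine le_trans ?_ (le_max_right _ _)
    rw [Nat.cast_sub h1, div_le_iff₀ (by positivity)]
    push_cast
    linarith

theorem k151_tailU {p q : ℝ} {o s0 s1 : ℕ} (h0 : |p + o - (s0 : ℝ) / 2 ^ 40| ≤ 4 / 2 ^ 40)
    (h1 : |q + o - (s1 : ℝ) / 2 ^ 40| ≤ 4 / 2 ^ 40) :
    ∃ X Y : ℝ, 0 ≤ X ∧ 0 ≤ Y ∧ X ≤ max 0 (|p + 0.6480873023 * q| - 1 / 10 ^ 6) ∧
      Y ≤ max 0 (|q| - 1 / 10 ^ 6) ∧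
      exp (-(11785 * (1.7235 * X ^ 2 + Y ^ 2)) + 1 / 10 ^ 5) ≤ (tailU o s0 s1 : ℝ) / 2 ^ 40 := by
  obtain ⟨⟨b1, -⟩, b2, -⟩ := k151_XY h0 h1
  have c1 := k151_sub b1
  have c2 := k151_sub (a := adf s1 (o * 1099511627776)) (w := |q|) (by linarith)
  obtain ⟨X, hX⟩ : ∃ X, X = qX o s0 s1 / 10000000000 - 1099600 := ⟨_, rfl⟩
  obtain ⟨Y, hY⟩ : ∃ Y, Y = adf s1 (o * 1099511627776) - 1099600 := ⟨_, rfl⟩
  obtain ⟨t, ht⟩ : ∃ t, t = 11785 * (17235 * (X * X) + 10000 * (Y * Y)) / 10995116277760000 :=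
    ⟨_, rfl⟩
  have e : tailU o s0 s1 = 100002 * expU t / 100000 + 1 := by
    unfold tailU
    simp only [k151_force, k151_dv, Nat.add_eq, Nat.mul_eq, Nat.sub_eq, Nat.succ_eq_add_one]
    rw [← hX, ← hY, ← ht]
  rw [← hX] at c1
  rw [← hY] at c2
  have p40 : (0 : ℝ) ≤ 2 ^ 40 := by norm_num
  refine ⟨(X : ℝ) / 2 ^ 40, (Y : ℝ) / 2 ^ 40, div_nonneg (Nat.cast_nonneg _) p40,
    div_nonneg (Nat.cast_nonneg _) p40, c1, c2, ?_⟩
  have t1 : (t : ℝ) / 2 ^ 40 ≤
      11785 * (1.7235 * ((X : ℝ) / 2 ^ 40) ^ 2 + ((Y : ℝ) / 2 ^ 40) ^ 2) := by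
    have := k151_div_le (11785 * (17235 * (X * X) + 10000 * (Y * Y))) 10995116277760000
    rw [← ht] at this
    rw [div_le_iff₀ (by positivity)]
    refine le_trans this (le_of_eq ?_)
    push_cast
    ring
  have t2 := k151_expU t
  have t3 : exp ((1 : ℝ) / 10 ^ 5) ≤ 1.00002 := by
    have := Real.exp_bound_div_one_sub_of_interval (x := (1 : ℝ) / 10 ^ 5) (by norm_num)
      (by norm_num)
    refine le_trans this (by norm_num)
  have t4 := k151_le_div (100002 * expU t) 100000 (by norm_num)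
  rw [e, Real.exp_add, Nat.cast_add, Nat.cast_one, le_div_iff₀ (by positivity)]
  refine le_trans ?_ t4
  have t5 : exp (-(11785 * (1.7235 * ((X : ℝ) / 2 ^ 40) ^ 2 + ((Y : ℝ) / 2 ^ 40) ^ 2))) ≤
      (expU t : ℝ) / 2 ^ 40 := le_trans (Real.exp_le_exp.2 (by linarith)) t2
  calc _ ≤ (expU t : ℝ) / 2 ^ 40 * 1.00002 * 2 ^ 40 :=
        mul_le_mul_of_nonneg_right (mul_le_mul t5 t3 (Real.exp_pos _).le
          (div_nonneg (Nat.cast_nonneg _) p40)) p40
    _ = _ := by push_cast; ring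

theorem k151_tailL {p q : ℝ} {o s0 s1 : ℕ} (h0 : |p + o - (s0 : ℝ) / 2 ^ 40| ≤ 4 / 2 ^ 40)
    (h1 : |q + o - (s1 : ℝ) / 2 ^ 40| ≤ 4 / 2 ^ 40) :
    tailL o s0 s1 = 0 ∨ ∃ X Y : ℝ, |p + 0.6480873023 * q| + 1 / 10 ^ 6 ≤ X ∧
      |q| + 1 / 10 ^ 6 ≤ Y ∧ 1.7236 * X ^ 2 + Y ^ 2 ≤ 2 / 10 ^ 4 ∧
      (tailL o s0 s1 : ℝ) / 2 ^ 40 ≤
        exp (-(11815 * (1.7236 * X ^ 2 + Y ^ 2) + 1 / 10 ^ 5)) := by
  obtain ⟨⟨-, b1⟩, -, b2⟩ := k151_XY h0 h1
  obtain ⟨X, hX⟩ : ∃ X, X = qX o s0 s1 / 10000000000 + 1099600 := ⟨_, rfl⟩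
  obtain ⟨Y, hY⟩ : ∃ Y, Y = adf s1 (o * 1099511627776) + 1099600 := ⟨_, rfl⟩
  obtain ⟨E, hE⟩ : ∃ E, E = 17236 * (X * X) + 10000 * (Y * Y) := ⟨_, rfl⟩
  have e : tailL o s0 s1 = cond (Nat.ble E 2417851639229258349412352)
      (expL (11815 * E / 10995116277760000 + 10995118)) 0 := by
    unfold tailL
    simp only [k151_force, k151_dv, Nat.add_eq, Nat.mul_eq]
    rw [← hX, ← hY, ← hE]
  have hE' : 1.7236 * ((X : ℝ) / 2 ^ 40) ^ 2 + ((Y : ℝ) / 2 ^ 40) ^ 2 =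
      (E : ℝ) / 10995116277760000 / 2 ^ 40 := by
    rw [hE]
    push_cast
    ring
  cases hb : Nat.ble E 2417851639229258349412352 with
  | false => left; rw [e, hb, cond_false]
  | true =>
    right
    have hb' : (E : ℝ) ≤ 2417851639229258349412352 := by exact_mod_cast Nat.le_of_ble_eq_true hb
    refine ⟨(X : ℝ) / 2 ^ 40, (Y : ℝ) / 2 ^ 40, ?_, ?_, ?_, ?_⟩
    · rw [le_div_iff₀ (by positivity), hX, Nat.cast_add]
      generalize ((qX o s0 s1 / 10000000000 : ℕ) : ℝ) = u at b1 ⊢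
      push_cast
      linarith
    · rw [le_div_iff₀ (by positivity), hY, Nat.cast_add]
      generalize (adf s1 (o * 1099511627776) : ℝ) = u at b2 ⊢
      push_cast
      linarith
    · rw [hE']
      linarith
    · rw [e, hb, hE', cond_true]
      refine le_trans (k151_expL _) (Real.exp_le_exp.2 ?_)
      have := k151_le_div (11815 * E) 10995116277760000 (by norm_num)
      rw [Nat.cast_add]
      push_cast at this ⊢
      linarith

theorem rowK151 (hL : RowL) (hC : RowC) : RowK1 := by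
  intro D hD α α' o o' e e' top k L L' hW he hk hA hA'
  obtain ⟨hU, hLo⟩ := hL D hD _ hW top k hk
  obtain ⟨l1, l2⟩ := hA
  obtain ⟨l1', l2'⟩ := hA'
  have he' : (e : ℝ) + e' ≤ 4 := by exact_mod_cast he
  have key : ∀ i < top + 2, |(α (-1 + i) + α' (-1 + i)) + ((o + o' : ℕ) : ℝ) -
      ((L.getD i 0 + L'.getD i 0 : ℕ) : ℝ) / 2 ^ 40| ≤ 4 / 2 ^ 40 := by
    intro i hi
    have a1 := abs_le.1 (l2 i hi)
    have a2 := abs_le.1 (l2' i hi)
    push_cast
    rw [abs_le]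
    constructor <;> linarith [a1.1, a1.2, a2.1, a2.2]
  obtain _ | ⟨a, l⟩ := L
  · simp at l1
  obtain _ | ⟨b, l'⟩ := L'
  · simp at l1'
  have n1 : top + 1 ≤ l.length := by simpa using l1
  have n2 : top + 1 ≤ l'.length := by simpa using l1'
  have k1 : |(α (-1) + α' (-1)) + ((o + o' : ℕ) : ℝ) - ((a + b : ℕ) : ℝ) / 2 ^ 40| ≤
      4 / 2 ^ 40 := by simpa using key 0 (by omega)
  have k2 : ∀ i < top + 1, |(α i + α' i) + (((o + o' : ℕ) : ℤ) : ℝ) -
      ((l.getD i 0 + l'.getD i 0 : ℕ) : ℝ) / 2 ^ 40| ≤ 4 / 2 ^ 40 := by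
    intro i hi
    have := key (i + 1) (by omega)
    rw [show (-1 : ℤ) + ((i + 1 : ℕ) : ℤ) = i by push_cast; ring] at this
    simpa using this
  have k0 : |(α 0 + α' 0) + ((o + o' : ℕ) : ℝ) -
      ((l.headD 0 + l'.headD 0 : ℕ) : ℝ) / 2 ^ 40| ≤ 4 / 2 ^ 40 := by
    have := k2 0 (by omega)
    obtain _ | ⟨c, l⟩ := l
    · simp at n1
    obtain _ | ⟨d, l'⟩ := l'
    · simp at n2
    simpa using this
  have hp : 0 ≤ ∏ m ∈ range (top + 1), |cos (π * (α m + α' m))| :=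
    prod_nonneg fun _ _ => abs_nonneg _
  constructor
  · obtain ⟨X, Y, x0, y0, x1, y1, ht⟩ := k151_tailU k0 k1
    refine le_trans (hU X Y x0 y0 x1 y1) ?_
    have g := k151_goU hC ((o + o' : ℕ) : ℤ) (top + 1) l l'
      (tailU (o + o') (l.headD 0 + l'.headD 0) (a + b)) (fun i => α i + α' i) n1 n2 k2
    have ew : wordU (o + o') (top + 1) (a :: l) (b :: l') = goU (top + 1) l l'
      (tailU (o + o') (l.headD 0 + l'.headD 0) (a + b)) := rfl
    rw [ew]
    refine le_trans (mul_le_mul_of_nonneg_left ht hp) ?_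
    rw [← mul_div_assoc, mul_comm]
    exact div_le_div_of_nonneg_right g (by positivity)
  · intro τ t0 t1 hF
    have g := k151_goL hC ((o + o' : ℕ) : ℤ) (top + 1) l l'
      (tailL (o + o') (l.headD 0 + l'.headD 0) (a + b)) (fun i => α i + α' i) n1 n2 k2
    have ew : wordL (o + o') (top + 1) (a :: l) (b :: l') = goL (top + 1) l l'
      (tailL (o + o') (l.headD 0 + l'.headD 0) (a + b)) := rfl
    rw [ew]
    have t5 : 0 ≤ 1 - 5 * τ := by linarith
    rcases k151_tailL k0 k1 with h | ⟨X, Y, x1, y1, s1, ht⟩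
    · rw [h] at g ⊢
      refine le_trans ?_ (abs_nonneg _)
      refine mul_nonpos_of_nonpos_of_nonneg (div_nonpos_of_nonpos_of_nonneg ?_ (by positivity)) t5
      simpa using g
    · refine le_trans ?_ (hLo X Y τ x1 y1 s1 t1 hF)
      refine mul_le_mul_of_nonneg_right ?_ t5
      refine le_trans ?_ (mul_le_mul_of_nonneg_left ht hp)
      rw [← mul_div_assoc, mul_comm]
      exact div_le_div_of_nonneg_right g (by positivity)

end Vale.Agent.Q105
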