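import Vale.Agent.Q105.Chk

/-!
# Row K2: bounds for the four kinds of words
-/

open Finset

namespace Vale.Agent.Q105

open Vale.Agent.P105

theorem k2_len : TT.length = 3102 := by decide +kernel

theorem k2_all : (TT.all fun t => Nat.ble t 2199023255552) = true := by decide +kernel

theorem k2_add (a b : ℤ → ℝ) (m : ℤ) (o o' e e' n : ℕ) (L L' : List ℕ)
    (h : Apx a m o e n L) (h' : Apx b m o' e' n L') :
    Apx (fun t => a t + b t) m (o + o') (e + e') n (List.zipWith Nat.add L L') := by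
  refine ⟨by rw [List.length_zipWith]; exact le_min h.1 h'.1, fun i hi => ?_⟩
  have h1 := h.2 i hi
  have h2 := h'.2 i hi
  have l1 : i < L.length := lt_of_lt_of_le hi h.1
  have l2 : i < L'.length := lt_of_lt_of_le hi h'.1
  have e1 : (List.zipWith Nat.add L L').getD i 0 = L.getD i 0 + L'.getD i 0 := by
    simp [List.getD_eq_getElem?_getD, List.getElem?_zipWith, List.getElem?_eq_getElem l1,
      List.getElem?_eq_getElem l2]
  rw [e1]
  push_cast
  obtain ⟨a1, a2⟩ := abs_le.1 h1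
  obtain ⟨b1, b2⟩ := abs_le.1 h2
  rw [abs_le, add_div, add_div]
  constructor <;> linarith

theorem k2_drop (a a' : ℤ → ℝ) (m m' : ℤ) (o e n n' d : ℕ) (L : List ℕ)
    (h : Apx a m o e n L) (hn : d + n' ≤ n) (ha : ∀ i : ℕ, a' (m' + i) = a (m + (d + i : ℕ))) :
    Apx a' m' o e n' (L.drop d) := by
  refine ⟨by rw [List.length_drop]; have := h.1; omega, fun i hi => ?_⟩
  have e2 : (L.drop d).getD i 0 = L.getD (d + i) 0 := by
    simp only [List.getD_eq_getElem?_getD, List.getElem?_drop]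
  rw [e2, ha]
  exact h.2 (d + i) (by omega)

theorem k2_TT {D : Dat} (hT : Tab D) : Apx D.y (-1301) 1 1 3102 TT := by
  refine ⟨k2_len.ge, fun i hi => ?_⟩
  have h := hT i hi
  have e : ((i : ℕ) : ℤ) - 1301 = -1301 + i := by ring
  rw [e] at h
  simpa only [Nat.cast_one] using h

theorem k2_neg (a : ℤ → ℝ) (m : ℤ) (n : ℕ) (L : List ℕ) (h : Apx a m 1 1 n L)
    (hL : (L.all fun t => Nat.ble t 2199023255552) = true) :
    Apx (fun t => -a t) m 1 1 n (L.map fun t => Nat.sub 2199023255552 t) := by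
  refine ⟨by rw [List.length_map]; exact h.1, fun i hi => ?_⟩
  have l1 : i < L.length := lt_of_lt_of_le hi h.1
  have h1 := h.2 i hi
  have e1 : L.getD i 0 = L[i] := by
    simp [List.getD_eq_getElem?_getD, List.getElem?_eq_getElem l1]
  have e2 : (L.map fun t => Nat.sub 2199023255552 t).getD i 0 = 2199023255552 - L[i] := by
    simp [List.getD_eq_getElem?_getD, List.getElem?_eq_getElem l1]
  have h2 : L[i] ≤ 2199023255552 :=
    Nat.le_of_ble_eq_true (List.all_eq_true.1 hL _ (List.getElem_mem l1))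
  rw [e1] at h1
  rw [e2, Nat.cast_sub h2]
  obtain ⟨a1, a2⟩ := abs_le.1 h1
  rw [abs_le]
  norm_num at a1 a2 ⊢
  constructor <;> linarith

theorem k2_TN {D : Dat} (hT : Tab D) : Apx (fun t => -D.y t) (-1301) 1 1 3102 TN :=
  k2_neg _ _ _ _ (k2_TT hT) k2_all

theorem k2_TS {D : Dat} (hT : Tab D) (s : Bool) :
    Apx (fun t => sgn s * D.y t) (-1301) 1 1 3102 (TS s) := by
  cases s
  · have e : (fun t => sgn false * D.y t) = fun t => -D.y t := by
      funext t; simp [sgn]
    rw [e]; exact k2_TN hT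
  · have e : (fun t => sgn true * D.y t) = D.y := by
      funext t; simp [sgn]
    rw [e]; exact k2_TT hT

theorem k2_ZZ {D : Dat} (hT : Tab D) : Apx D.z (-1297) 3 3 3098 ZZ := by
  have h1 : Apx D.y (-1297) 1 1 3098 (TT.drop 4) :=
    k2_drop _ _ _ _ _ _ _ _ 4 _ (k2_TT hT) (by norm_num) fun i => by
      congr 1; push_cast; ring
  have h2 : Apx (fun t => -D.y (t - 1)) (-1297) 1 1 3098 (TN.drop 3) :=
    k2_drop _ _ _ _ _ _ _ _ 3 _ (k2_TN hT) (by norm_num) fun i => by
      congr 2; push_cast; ring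
  have h3 : Apx (fun t => D.y (t - 4)) (-1297) 1 1 3098 (TT.drop 0) :=
    k2_drop _ _ _ _ _ _ _ _ 0 _ (k2_TT hT) (by norm_num) fun i => by
      congr 1; push_cast; ring
  rw [List.drop_zero] at h3
  have h := k2_add _ _ _ _ _ _ _ _ _ _ h1 (k2_add _ _ _ _ _ _ _ _ _ _ h2 h3)
  have e : D.z = fun t => D.y t + (-D.y (t - 1) + D.y (t - 4)) := by
    funext t; unfold Dat.z; ring
  rw [e]
  exact h

theorem k2_y {D : Dat} (hT : Tab D) (n : ℕ) (hn : n ≤ 1802) :
    Apx D.y (-1) 1 1 n (TT.drop 1300) :=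
  k2_drop _ _ _ _ _ _ _ _ 1300 _ (k2_TT hT) (by omega) fun i => by
    congr 1; push_cast; ring

theorem k2_s {D : Dat} (hT : Tab D) (s : Bool) (e n : ℕ) (he : e ≤ 1300) (hn : n ≤ 1802) :
    Apx (fun t => sgn s * D.y (t - e)) (-1) 1 1 n ((TS s).drop (1300 - e)) :=
  k2_drop _ _ _ _ _ _ _ _ (1300 - e) _ (k2_TS hT s) (by omega) fun i => by
    congr 2; push_cast [Nat.cast_sub he]; ring

theorem k2_z {D : Dat} (hT : Tab D) (n : ℕ) (hn : n ≤ 1802) :
    Apx D.z (-1) 3 3 n (ZZ.drop 1296) :=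
  k2_drop _ _ _ _ _ _ _ _ 1296 _ (k2_ZZ hT) (by omega) fun i => by
    congr 1; push_cast; ring

theorem k2_z32 {D : Dat} (hT : Tab D) (n : ℕ) (hn : n ≤ 1802) :
    Apx (fun t => D.z (t - 32)) (-1) 3 3 n (ZZ.drop 1264) :=
  k2_drop _ _ _ _ _ _ _ _ 1264 _ (k2_ZZ hT) (by omega) fun i => by
    congr 1; push_cast; ring

/-- `Wd` with a variable bound -/
def k2_W (D : Dat) (B : ℝ) (v : ℤ → ℝ) : Prop :=
  ∃ (x : ℝ) (w : ℂ) (n : ℤ → ℤ), |x| ≤ B ∧ ‖w‖ ≤ B ∧ (∀ m ≤ 0, n m = 0) ∧
    ∀ m, v m = D.c * x * D.b ^ m + 2 * (D.r * w * D.γ ^ m).re - n m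

theorem k2_W_add {D : Dat} {B B' : ℝ} {v v' : ℤ → ℝ} (h : k2_W D B v) (h' : k2_W D B' v') :
    k2_W D (B + B') fun m => v m + v' m := by
  obtain ⟨x, w, n, a1, a2, a3, a4⟩ := h
  obtain ⟨x', w', n', b1, b2, b3, b4⟩ := h'
  refine ⟨x + x', w + w', fun m => n m + n' m, (abs_add_le _ _).trans (add_le_add a1 b1),
    (norm_add_le _ _).trans (add_le_add a2 b2), fun m hm => by simp only [a3 m hm, b3 m hm, add_zero],
    fun m => ?_⟩
  have e : D.r * (w + w') * D.γ ^ m = D.r * w * D.γ ^ m + D.r * w' * D.γ ^ m := by ring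
  beta_reduce
  rw [a4, b4, e, Complex.add_re]
  push_cast
  ring

theorem k2_W_neg {D : Dat} {B : ℝ} {v : ℤ → ℝ} (h : k2_W D B v) : k2_W D B fun m => -v m := by
  obtain ⟨x, w, n, a1, a2, a3, a4⟩ := h
  refine ⟨-x, -w, fun m => -n m, by rwa [abs_neg], by rwa [norm_neg],
    fun m hm => by simp only [a3 m hm, neg_zero], fun m => ?_⟩
  have e : D.r * -w * D.γ ^ m = -(D.r * w * D.γ ^ m) := by ring
  beta_reduce
  rw [a4, e, Complex.neg_re]
  push_cast
  ring

theorem k2_W_sgn {D : Dat} {B : ℝ} {v : ℤ → ℝ} (h : k2_W D B v) (s : Bool) :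
    k2_W D B fun m => sgn s * v m := by
  cases s
  · have e : (fun t => sgn false * v t) = fun t => -v t := by
      funext t; simp [sgn]
    rw [e]; exact k2_W_neg h
  · have e : (fun t => sgn true * v t) = v := by
      funext t; simp [sgn]
    rw [e]; exact h

theorem k2_W_y {D : Dat} (hD : D.Good) (e : ℕ) : k2_W D 1 fun m => D.y (m - e) := by
  have hb : 1 ≤ D.b := le_trans (by norm_num) hD.out.b1
  have hb0 : D.b ≠ 0 := by linarith
  have hg : 1 ≤ ‖D.γ‖ := by
    have h1 := hD.out.n1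
    have h2 := norm_nonneg D.γ
    nlinarith
  have hg0 : D.γ ≠ 0 := by
    intro h; rw [h, norm_zero] at hg; linarith
  refine ⟨(D.b ^ e)⁻¹, (D.γ ^ e)⁻¹, fun m => D.N (m - e), ?_, ?_,
    fun m hm => hD.N0 _ (by omega), fun m => ?_⟩
  · rw [abs_of_nonneg (by positivity)]
    exact inv_le_one_of_one_le₀ (one_le_pow₀ hb)
  · rw [norm_inv, norm_pow]
    exact inv_le_one_of_one_le₀ (one_le_pow₀ hg)
  · have e1 : D.r * D.γ ^ (m - e) = D.r * (D.γ ^ e)⁻¹ * D.γ ^ m := by
      rw [zpow_sub₀ hg0, zpow_natCast]; field_simp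
    have e2 : D.c * D.b ^ (m - e) = D.c * (D.b ^ e)⁻¹ * D.b ^ m := by
      rw [zpow_sub₀ hb0, zpow_natCast]; field_simp
    show D.y (m - e) = _
    unfold Dat.y
    rw [e1, e2]

theorem k2_W_y0 {D : Dat} (hD : D.Good) : k2_W D 1 D.y := by
  simpa using k2_W_y hD 0

theorem k2_W_z {D : Dat} (hD : D.Good) (e : ℕ) : k2_W D 3 fun m => D.z (m - e) := by
  have h := k2_W_add (k2_W_add (k2_W_y hD e) (k2_W_neg (k2_W_y hD (e + 1)))) (k2_W_y hD (e + 4))
  have e1 : (fun m : ℤ => D.z (m - e)) = fun m : ℤ =>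
      D.y (m - e) + -D.y (m - (e + 1 : ℕ)) + D.y (m - (e + 4 : ℕ)) := by
    funext m
    unfold Dat.z
    push_cast
    rw [sub_sub, sub_sub]
    ring
  rw [e1]
  norm_num at h ⊢
  exact h

theorem k2_Wd {D : Dat} {B : ℝ} {v : ℤ → ℝ} (h : k2_W D B v) (hB : B ≤ 4) : Wd D v := by
  obtain ⟨x, w, n, a1, a2, a3, a4⟩ := h
  exact ⟨x, w, n, a1.trans hB, a2.trans hB, a3, a4⟩

theorem k2_far {D : Dat} (h : ∀ F : Finset ℤ, (∀ m ∈ F, 500 < m) →
    ∑ m ∈ F, D.y m ^ 2 ≤ 7.3 / 10 ^ 5) (g : ℤ) (F : Finset ℤ) (hF : ∀ m ∈ F, g + 500 < m) :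
    ∑ m ∈ F, D.y (m - g) ^ 2 ≤ 7.3 / 10 ^ 5 := by
  have h1 := h (F.image fun m => m - g) fun m hm => by
    obtain ⟨t, ht, rfl⟩ := mem_image.1 hm
    have := hF t ht
    omega
  rwa [sum_image fun a _ b _ hab => by simpa using hab] at h1

theorem k2_sq (s : Bool) : sgn s ^ 2 = 1 := by cases s <;> simp [sgn]

theorem rowK2 (hK1 : RowK1) (hT : RowTau) : RowK2 := by
  intro D hD hTab k
  have far := k2_far (hT D hD hTab)
  have wd : ∀ (e : ℕ) s, Wd D fun m => D.y m + sgn s * D.y (m - e) := fun e s =>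
    k2_Wd (k2_W_add (k2_W_y0 hD) (k2_W_sgn (k2_W_y hD e) s)) (by norm_num)
  refine ⟨fun e s he hk => ?_, fun e s he hk => ?_, fun g s hg hk => ?_, fun hk => ?_⟩
  · exact (hK1 D hD D.y (fun m => sgn s * D.y (m - e)) 1 1 1 1 (e + 300) k _ _ (wd e s)
      (by norm_num) hk (k2_y hTab _ (by omega)) (k2_s hTab s e _ he (by omega))).1
  · have wz : k2_W D 3 D.z := by simpa using k2_W_z hD 0
    exact (hK1 D hD D.z (fun m => sgn s * D.y (m - e)) 3 1 3 1 (e + 300) k _ _
      (k2_Wd (k2_W_add wz (k2_W_sgn (k2_W_y hD e) s)) (by norm_num))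
      (by norm_num) hk (k2_z hTab _ (by omega)) (k2_s hTab s e _ he (by omega))).1
  · have h := (hK1 D hD D.y (fun m => sgn s * D.y (m - g)) 1 1 1 1 (g + 500) k _ _ (wd g s)
      (by norm_num) hk (k2_y hTab _ (by omega)) (k2_s hTab s g _ hg (by omega))).2
      (4 * (7.3 / 10 ^ 5)) (by norm_num) (by norm_num) fun F hF => by
        have h1 := far 0 F fun m hm => by have := hF m hm; push_cast at this; omega
        have h2 := far g F fun m hm => by have := hF m hm; push_cast at this; omega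
        have h3 : ∑ m ∈ F, (D.y m + sgn s * D.y (m - g)) ^ 2 ≤
            ∑ m ∈ F, (2 * D.y (m - 0) ^ 2 + 2 * D.y (m - g) ^ 2) := sum_le_sum fun m _ => by
          have h4 : (sgn s * D.y (m - g)) ^ 2 = D.y (m - g) ^ 2 := by
            rw [mul_pow, k2_sq, one_mul]
          rw [sub_zero]
          nlinarith [sq_nonneg (D.y m - sgn s * D.y (m - g))]
        rw [sum_add_distrib, ← mul_sum, ← mul_sum] at h3
        linarith
    refine le_trans ?_ h
    exact mul_le_mul_of_nonneg_left (by norm_num) (div_nonneg (Nat.cast_nonneg _) (by norm_num))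
  · have wz : k2_W D 3 fun m => D.z (m - 32) := by simpa using k2_W_z hD 32
    have h := (hK1 D hD D.y (fun m => D.z (m - 32)) 1 3 1 3 536 k _ _
      (k2_Wd (k2_W_add (k2_W_y0 hD) wz) (by norm_num))
      (by norm_num) hk (k2_y hTab _ (by omega)) (k2_z32 hTab _ (by omega))).2
      (16 * (7.3 / 10 ^ 5)) (by norm_num) (by norm_num) fun F hF => by
        have h1 := far 0 F fun m hm => by have := hF m hm; push_cast at this; omega
        have h2 := far 32 F fun m hm => by have := hF m hm; push_cast at this; omega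
        have h3 := far 33 F fun m hm => by have := hF m hm; push_cast at this; omega
        have h4 := far 36 F fun m hm => by have := hF m hm; push_cast at this; omega
        have h5 : ∑ m ∈ F, (D.y m + D.z (m - 32)) ^ 2 ≤
            ∑ m ∈ F, (4 * D.y (m - 0) ^ 2 + 4 * D.y (m - 32) ^ 2 + 4 * D.y (m - 33) ^ 2 +
              4 * D.y (m - 36) ^ 2) := sum_le_sum fun m _ => by
          have e1 : m - 32 - 1 = m - 33 := by ring
          have e2 : m - 32 - 4 = m - 36 := by ring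
          unfold Dat.z
          rw [sub_zero, e1, e2]
          generalize D.y m = a
          generalize D.y (m - 32) = b
          generalize D.y (m - 33) = c
          generalize D.y (m - 36) = d
          nlinarith [sq_nonneg (a - b), sq_nonneg (a + c), sq_nonneg (a - d), sq_nonneg (b + c),
            sq_nonneg (b - d), sq_nonneg (c + d)]
        rw [sum_add_distrib, sum_add_distrib, sum_add_distrib, ← mul_sum, ← mul_sum, ← mul_sum,
          ← mul_sum] at h5
        linarith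
    refine le_trans ?_ h
    exact mul_le_mul_of_nonneg_left (by norm_num) (div_nonneg (Nat.cast_nonneg _) (by norm_num))

end Vale.Agent.Q105
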