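import Vale.Agent.Q105.Defs

/-!
# Row L: bounds for the mean of the character of a word
-/

open MeasureTheory Real Filter Topology Finset

namespace Vale.Agent.Q105

theorem l_prod_ge {ι : Type} (s : Finset ι) (g e : ι → ℝ) (h0 : ∀ i, 0 ≤ g i) (h1 : ∀ i, g i ≤ 1)
    (he : ∀ i, 1 - e i ≤ g i) : 1 - ∑ i ∈ s, e i ≤ ∏ i ∈ s, g i := by
  classical
  induction s using Finset.induction_on with
  | empty => simp
  | insert a s ha ih =>
    rw [Finset.sum_insert ha, Finset.prod_insert ha]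
    have hp1 : ∏ i ∈ s, g i ≤ 1 := Finset.prod_le_one (fun i _ => h0 i) fun i _ => h1 i
    have h2 : 0 ≤ (1 - g a) * (1 - ∏ i ∈ s, g i) :=
      mul_nonneg (sub_nonneg.2 (h1 a)) (sub_nonneg.2 hp1)
    have h3 := he a
    nlinarith

theorem l_cos_ge (y : ℝ) : 1 - 5 * y ^ 2 ≤ |cos (π * y)| := by
  have h1 := Real.one_sub_sq_div_two_le_cos (x := π * y)
  have h2 : π ^ 2 ≤ 10 := by
    have := Real.pi_lt_d2
    have := Real.pi_pos
    nlinarith
  have h3 : (π * y) ^ 2 ≤ 10 * y ^ 2 := by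
    rw [mul_pow]
    exact mul_le_mul_of_nonneg_right h2 (sq_nonneg y)
  have h4 := le_abs_self (cos (π * y))
  linarith

theorem l_split (g : ℤ → ℝ) (top k M : ℕ) (h : top ≤ k) :
    ∏ i ∈ range (k + 1 + M), g ((k : ℤ) - i) =
      (∏ m ∈ range (top + 1), g m) * (∏ j ∈ range (k - top), g ((top + 1 + j : ℕ) : ℤ)) *
        ∏ t ∈ range M, g (-((t + 1 : ℕ) : ℤ)) := by
  rw [Finset.prod_range_add]
  congr 1
  · have h1 : ∏ i ∈ range (k + 1), g ((k : ℤ) - i) = ∏ m ∈ range (k + 1), g m := by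
      rw [← Finset.prod_range_reflect (fun m : ℕ => g m) (k + 1)]
      refine Finset.prod_congr rfl fun i hi => ?_
      have hi' := Finset.mem_range.1 hi
      congr 1
      omega
    have h2 : k + 1 = top + 1 + (k - top) := by omega
    rw [h1, h2, Finset.prod_range_add]
  · refine Finset.prod_congr rfl fun t _ => ?_
    congr 1
    push_cast
    ring

theorem rowL (hCF : RowCF) (hI : RowI) : RowL := by
  intro D hD v hv top k hk
  obtain ⟨x, w, n, hx, hw, hn, hv⟩ := hv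
  have hb1 := hD.out.b1
  have hb0 : 0 < D.b := by linarith
  have hγ1 : 1 < ‖D.γ‖ := by
    have h1 := hD.out.n1
    have h2 := norm_nonneg D.γ
    by_contra h3
    have h4 : ‖D.γ‖ ≤ 1 := not_lt.1 h3
    nlinarith
  have hu : ∀ t : ℕ, v (-(t : ℤ)) = D.c * x * D.b⁻¹ ^ t + 2 * (D.r * w * D.γ⁻¹ ^ t).re := by
    intro t
    rw [hv, hn _ (by omega), zpow_neg, zpow_neg, zpow_natCast, zpow_natCast, inv_pow, inv_pow]
    simp
  have hβ : |D.c * x| ≤ 1 / 10 ^ 7 := by
    have h1 := hD.c1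
    have h2 := hD.c2
    have h3 : 0 ≤ D.c := le_trans (by norm_num) h1
    rw [abs_mul, abs_of_nonneg h3]
    calc D.c * |x| ≤ 2 / 10 ^ 8 * 4 := mul_le_mul h2 hx (abs_nonneg x) (by norm_num)
      _ ≤ 1 / 10 ^ 7 := by norm_num
  have hζ : ‖D.r * w‖ ≤ 0.06 := by
    rw [norm_mul]
    calc ‖D.r‖ * ‖w‖ ≤ 0.013 * 4 := mul_le_mul hD.r2 hw (norm_nonneg w) (by norm_num)
      _ ≤ 0.06 := by norm_num
  obtain ⟨hlo, hup⟩ := hI D.b D.γ hD.out (D.c * x) (D.r * w) (fun t => v (-(t : ℤ))) hβ hζ hu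
  simp only [Nat.cast_zero, neg_zero, Nat.cast_one] at hlo hup
  have hsu : Summable fun t : ℕ => v (-(t : ℤ)) := by
    simp only [hu]
    refine Summable.add (Summable.mul_left _ ?_) (Summable.mul_left _ ?_)
    · refine summable_geometric_of_lt_one (inv_nonneg.2 hb0.le) ?_
      exact inv_lt_one_of_one_lt₀ (by linarith)
    · have h1 : Summable fun t : ℕ => D.r * w * D.γ⁻¹ ^ t := by
        refine Summable.mul_left _ (summable_geometric_of_norm_lt_one ?_)
        rw [norm_inv]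
        exact inv_lt_one_of_one_lt₀ hγ1
      exact Complex.reCLM.summable h1
  have hsa : Summable fun i : ℕ => v ((k : ℤ) - i) := by
    rw [← summable_nat_add_iff k]
    refine hsu.congr fun t => ?_
    congr 1
    push_cast
    ring
  obtain ⟨-, -, -, hC⟩ := hCF
  obtain ⟨-, -, -, -, -, hU, hL⟩ := hC _ hsa
  have g0 : ∀ m : ℤ, 0 ≤ |cos (π * v m)| := fun m => abs_nonneg _
  have g1 : ∀ m : ℤ, |cos (π * v m)| ≤ 1 := fun m => abs_cos_le_one _
  have hP0 : 0 ≤ ∏ m ∈ range (top + 1), |cos (π * v m)| := Finset.prod_nonneg fun m _ => g0 _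
  have hM0 : 0 ≤ ∏ j ∈ range (k - top), |cos (π * v ((top + 1 + j : ℕ) : ℤ))| :=
    Finset.prod_nonneg fun m _ => g0 _
  have hM1 : ∏ j ∈ range (k - top), |cos (π * v ((top + 1 + j : ℕ) : ℤ))| ≤ 1 :=
    Finset.prod_le_one (fun m _ => g0 _) fun m _ => g1 _
  refine ⟨fun X Y hX hY hX' hY' => ?_, fun X Y τ hX hY hq hτ hF => ?_⟩
  · have h1 := hU (range (k + 1 + 60000))
    have h2 := l_split (fun m => |cos (π * v m)|) top k 60000 hk
    have h3 := hup X Y hX hY hX' hY'
    have h4 : 0 ≤ ∏ t ∈ range 60000, |cos (π * v (-((t + 1 : ℕ) : ℤ)))| :=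
      Finset.prod_nonneg fun m _ => g0 _
    refine h1.trans (h2.le.trans ?_)
    exact mul_le_mul (mul_le_of_le_one_right hP0 hM1) h3 h4 hP0
  · refine hL _ fun M => ?_
    have h2 := l_split (fun m => |cos (π * v m)|) top k M hk
    have h3 := hlo X Y hX hY hq M
    have h4 : ∏ i ∈ range (k + 1 + M), |cos (π * v ((k : ℤ) - i))| ≤
        ∏ i ∈ range M, |cos (π * v ((k : ℤ) - i))| := by
      rw [add_comm (k + 1) M, Finset.prod_range_add]
      exact mul_le_of_le_one_right (Finset.prod_nonneg fun m _ => g0 _)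
        (Finset.prod_le_one (fun m _ => g0 _) fun m _ => g1 _)
    have h5 : ∑ j ∈ range (k - top), v ((top + 1 + j : ℕ) : ℤ) ^ 2 ≤ τ := by
      have h6 := hF ((range (k - top)).image fun j : ℕ => ((top + 1 + j : ℕ) : ℤ)) (by
        intro m hm
        obtain ⟨j, -, rfl⟩ := Finset.mem_image.1 hm
        omega)
      rwa [Finset.sum_image (fun i _ j _ hij => by
        have : ((top + 1 + i : ℕ) : ℤ) = ((top + 1 + j : ℕ) : ℤ) := hij
        omega)] at h6
    have h6 : 1 - 5 * τ ≤ ∏ j ∈ range (k - top), |cos (π * v ((top + 1 + j : ℕ) : ℤ))| := by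
      have h7 := l_prod_ge (range (k - top)) (fun j => |cos (π * v ((top + 1 + j : ℕ) : ℤ))|)
        (fun j => 5 * v ((top + 1 + j : ℕ) : ℤ) ^ 2) (fun j => g0 _) (fun j => g1 _)
        fun j => l_cos_ge _
      rw [← Finset.mul_sum] at h7
      linarith
    refine le_trans ?_ h4
    refine le_trans ?_ h2.ge
    rw [mul_right_comm]
    exact mul_le_mul (mul_le_mul_of_nonneg_left h6 hP0) h3 (Real.exp_pos _).le
      (mul_nonneg hP0 hM0)

end Vale.Agent.Q105
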