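import Vale.Agent.Q105.Main0
import Vale.Agent.Q105.CertAll

/-!
# A singular Bernoulli convolution whose inverse parameter has degree 31
-/

open MeasureTheory

namespace Vale.Agent.Q105

open Vale.Agent.P105

theorem sing31 {b : ℝ} (h0 : 0 < b) (hb : b ^ 33 - b ^ 32 - b ^ 31 - b ^ 30 - 1 = 0) :
    IsIntegral ℤ b ∧ (minpoly ℚ b).natDegree = 31 ∧ ¬ Salem.IsPisot b ∧ ¬ Salem.IsSalem b ∧
      bernConv b⁻¹ ⟂ₘ volume :=
  sing31_pre rowCert h0 hb

end Vale.Agent.Q105
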