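import Vale.Agent.Q105.Defs

/-!
# Row N: the characters of a family as functions of the two coordinates
-/

open MeasureTheory Real Filter Topology Finset

namespace Vale.Agent.Q105

open Vale.Agent.P105

theorem n28_norm_sgn (b : Bool) : ‖(sgn b : ℂ)‖ = 1 := by
  cases b <;> simp [sgn]

theorem n28_ei_add (s t : ℝ) : ei (s + t) = ei s * ei t := by
  simp [ei, add_mul, Complex.exp_add]

theorem n28_ei_int (m : ℤ) : ei (2 * π * m) = 1 := by
  have h := Complex.exp_int_mul_two_pi_mul_I m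
  rw [ei, ← h]
  congr 1
  push_cast
  ring

theorem rowN28 : RowN := by
  intro D hD J _ Φ
  have hb1 := hD.out.b1
  have hb0 : 0 < D.b := by linarith
  have hγ2 : (10000 : ℝ) / 9999 ≤ ‖D.γ‖ := by
    have h1 := hD.out.n1
    have h2 := norm_nonneg D.γ
    by_contra h3
    have h4 : ‖D.γ‖ ≤ 10000 / 9999 := (not_le.1 h3).le
    have h5 : ‖D.γ‖ ^ 2 ≤ (10000 / 9999) ^ 2 := pow_le_pow_left₀ h2 h4 2
    norm_num at h5 h1
    linarith
  have hγ0 : D.γ ≠ 0 := by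
    intro h
    rw [h, norm_zero] at hγ2
    norm_num at hγ2
  have hq : ‖D.γ⁻¹‖ ≤ 9999 / 10000 := by
    rw [norm_inv]
    calc ‖D.γ‖⁻¹ ≤ ((10000 : ℝ) / 9999)⁻¹ := inv_anti₀ (by norm_num) hγ2
      _ = 9999 / 10000 := by norm_num
  have hgeo : HasSum (fun i : ℕ => ((9999 : ℝ) / 10000) ^ i) 10000 := by
    have h := hasSum_geometric_of_lt_one (r := (9999 : ℝ) / 10000) (by norm_num) (by norm_num)
    norm_num at h
    exact h
  have hbd : ∀ (ω : ℕ → Bool) (i : ℕ), ‖(sgn (ω i) : ℂ) * D.γ⁻¹ ^ i‖ ≤ ((9999 : ℝ) / 10000) ^ i := by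
    intro ω i
    rw [norm_mul, n28_norm_sgn, one_mul, norm_pow]
    exact pow_le_pow_left₀ (norm_nonneg _) hq i
  have hZ : ∀ ω : ℕ → Bool, Summable fun i => (sgn (ω i) : ℂ) * D.γ⁻¹ ^ i := fun ω =>
    Summable.of_norm_bounded hgeo.summable (hbd ω)
  have hbi : Summable fun i : ℕ => D.b⁻¹ ^ i :=
    summable_geometric_of_lt_one (inv_nonneg.2 hb0.le) (inv_lt_one_of_one_lt₀ (by linarith))
  have hY : ∀ ω : ℕ → Bool, Summable fun i => sgn (ω i) * D.b⁻¹ ^ i := fun ω => by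
    refine Summable.of_norm_bounded hbi fun i => ?_
    have h1 : ‖sgn (ω i)‖ = 1 := by cases ω i <;> simp [sgn]
    rw [norm_mul, h1, one_mul, Real.norm_of_nonneg (pow_nonneg (inv_nonneg.2 hb0.le) i)]
  have ha : ∀ (k : ℕ) (j : J) (i : ℕ), Φ.a k j i = D.c * Φ.Wb j * D.b ^ k * D.b⁻¹ ^ i +
      2 * (D.r * Φ.Wg j * D.γ ^ k * D.γ⁻¹ ^ i).re - Φ.n j ((k : ℤ) - i) := by
    intro k j i
    rw [Fam.a, Φ.hv, zpow_sub₀ hb0.ne', zpow_sub₀ hγ0, zpow_natCast, zpow_natCast, zpow_natCast,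
      zpow_natCast, inv_pow, inv_pow, div_eq_mul_inv, div_eq_mul_inv, ← mul_assoc, ← mul_assoc]
  have hn0 : ∀ (k : ℕ) (j : J) (i : ℕ), i ∉ range k → Φ.n j ((k : ℤ) - i) = 0 := by
    intro k j i hi
    have h1 : ¬ i < k := fun h => hi (Finset.mem_range.2 h)
    exact Φ.hn j _ (by omega)
  refine ⟨fun k j => ?_, ?_, fun ω => tsum_of_norm_bounded hgeo (hbd ω), fun k j => ?_⟩
  · have h1 : Summable fun i : ℕ => D.r * Φ.Wg j * D.γ ^ k * D.γ⁻¹ ^ i :=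
      Summable.mul_left _ (summable_geometric_of_norm_lt_one (hq.trans_lt (by norm_num)))
    have h2 : Summable fun i : ℕ => (D.r * Φ.Wg j * D.γ ^ k * D.γ⁻¹ ^ i).re :=
      Complex.reCLM.summable h1
    have h3 : Summable fun i : ℕ => (Φ.n j ((k : ℤ) - i) : ℝ) :=
      summable_of_ne_finset_zero (s := range k) fun i hi => by rw [hn0 k j i hi, Int.cast_zero]
    exact (((hbi.mul_left _).add (h2.mul_left 2)).sub h3).congr fun i => (ha k j i).symm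
  · refine measurable_of_tendsto_metrizable
      (f := fun M ω => ∑ i ∈ range M, (sgn (ω i) : ℂ) * D.γ⁻¹ ^ i) (fun M => ?_) ?_
    · refine Finset.measurable_sum _ fun i _ => Measurable.mul_const ?_ _
      exact (measurable_of_countable fun b : Bool => (sgn b : ℂ)).comp (measurable_pi_apply i)
    · exact tendsto_pi_nhds.2 fun ω => (hZ ω).hasSum.tendsto_sum_nat
  · refine ⟨π * ∑ i ∈ range k, (Φ.n j ((k : ℤ) - i) : ℝ), fun ω => ?_⟩
    have h1 := (hY ω).hasSum.mul_left (D.c * Φ.Wb j * D.b ^ k)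
    have h2 := (Complex.reCLM.hasSum ((hZ ω).hasSum.mul_left (D.r * Φ.Wg j * D.γ ^ k))).mul_left 2
    have h3 : HasSum (fun i : ℕ => sgn (ω i) * (Φ.n j ((k : ℤ) - i) : ℝ))
        (∑ i ∈ range k, sgn (ω i) * (Φ.n j ((k : ℤ) - i) : ℝ)) :=
      hasSum_sum_of_ne_finset_zero fun i hi => by rw [hn0 k j i hi, Int.cast_zero, mul_zero]
    have h4 : ph (Φ.a k j) ω = D.c * Φ.Wb j * D.b ^ k * (∑' i, sgn (ω i) * D.b⁻¹ ^ i) +
        2 * (D.r * Φ.Wg j * D.γ ^ k * ∑' i, (sgn (ω i) : ℂ) * D.γ⁻¹ ^ i).re -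
        ∑ i ∈ range k, sgn (ω i) * (Φ.n j ((k : ℤ) - i) : ℝ) := by
      refine HasSum.tsum_eq ?_
      have h5 := (h1.add h2).sub h3
      have h6 : (fun i : ℕ => sgn (ω i) * Φ.a k j i) = fun i : ℕ =>
          D.c * Φ.Wb j * D.b ^ k * (sgn (ω i) * D.b⁻¹ ^ i) +
            2 * Complex.reCLM (D.r * Φ.Wg j * D.γ ^ k * ((sgn (ω i) : ℂ) * D.γ⁻¹ ^ i)) -
            sgn (ω i) * (Φ.n j ((k : ℤ) - i) : ℝ) := by
        funext i
        have h7 : D.r * Φ.Wg j * D.γ ^ k * ((sgn (ω i) : ℂ) * D.γ⁻¹ ^ i) =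
            (sgn (ω i) : ℂ) * (D.r * Φ.Wg j * D.γ ^ k * D.γ⁻¹ ^ i) := by ring
        rw [ha, Complex.reCLM_apply, h7, Complex.re_ofReal_mul]
        ring
      rw [h6]
      exact h5
    have h5 : ∑ i ∈ range k, sgn (ω i) * (Φ.n j ((k : ℤ) - i) : ℝ) =
        ∑ i ∈ range k, (Φ.n j ((k : ℤ) - i) : ℝ) -
          2 * ((∑ i ∈ range k, if ω i then 0 else Φ.n j ((k : ℤ) - i) : ℤ) : ℝ) := by
      rw [Int.cast_sum, Finset.mul_sum, ← Finset.sum_sub_distrib]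
      refine Finset.sum_congr rfl fun i _ => ?_
      cases ω i <;> simp [sgn]
      ring
    have h6 : (2 * π * D.r * Φ.Wg j * D.γ ^ k * ∑' i, (sgn (ω i) : ℂ) * D.γ⁻¹ ^ i).re =
        2 * π * (D.r * Φ.Wg j * D.γ ^ k * ∑' i, (sgn (ω i) : ℂ) * D.γ⁻¹ ^ i).re := by
      rw [← Complex.re_ofReal_mul]
      congr 1
      push_cast
      ring
    rw [← n28_ei_add, ← mul_one (ei _),
      ← n28_ei_int (∑ i ∈ range k, if ω i then 0 else Φ.n j ((k : ℤ) - i)), ← n28_ei_add, chi, h4,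
      h5, h6]
    congr 1
    ring

end Vale.Agent.Q105
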