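import Vale.Agent.Q105.Defs

/-!
# Row S: elimination of the hidden coordinate
-/

open MeasureTheory Real Filter Topology Finset
open scoped ENNReal

namespace Vale.Agent.Q105

open Vale.Agent.P105

theorem s_vol (r : ℝ) (hr : 0 ≤ r) :
    volume (Metric.ball (0 : ℂ) r) = ENNReal.ofReal (π * r ^ 2) := by
  rw [Complex.volume_ball, ENNReal.ofReal_mul pi_pos.le, ENNReal.ofReal_pow hr, mul_comm]
  congr 1
  rw [← NNReal.coe_real_pi, ENNReal.ofReal_coe_nnreal]

theorem rowS (hCF : RowCF) : RowS := by
  intro Y Z G R ρ α p hY hZ hG hR hρ hρ1 hα hp hv hP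
  have := hCF.1
  have hR0 : 0 ≤ R := (norm_nonneg _).trans (hR fun _ => true)
  set B : Set ℂ := Metric.ball 0 (R + 1) with hB
  set b : Set ℂ := Metric.ball 0 ρ with hb
  have mB : MeasurableSet B := Metric.isOpen_ball.measurableSet
  have mb : MeasurableSet b := Metric.isOpen_ball.measurableSet
  set G' : Set (ℝ × ℂ) := G ∩ Prod.snd ⁻¹' B with hG'
  have mG' : MeasurableSet G' := hG.inter (measurable_snd mB)
  set l : ℝ → ℝ≥0∞ := fun x => volume (Prod.mk x ⁻¹' G') with hl
  have ml : Measurable l := measurable_measure_prodMk_left mG'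
  have vb : volume b = ENNReal.ofReal (π * ρ ^ 2) := s_vol ρ hρ.le
  have vB : volume B = ENNReal.ofReal (π * (R + 1) ^ 2) := s_vol _ (by linarith)
  have hpos : 0 < π * ρ ^ 2 := by positivity
  set a : ℝ≥0∞ := ENNReal.ofReal (p / 2) * volume b with ha
  have a0 : a ≠ 0 := by
    rw [ha, vb]
    exact mul_ne_zero (ENNReal.ofReal_pos.2 (by linarith)).ne' (ENNReal.ofReal_pos.2 hpos).ne'
  have a1 : a ≠ ∞ := by
    rw [ha, vb]
    exact ENNReal.mul_ne_top ENNReal.ofReal_ne_top ENNReal.ofReal_ne_top
  have mE : MeasurableSet {x | a ≤ l x} := measurableSet_le measurable_const ml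
  refine ⟨{x | a ≤ l x}, mE, ?_, ?_⟩
  · have h1 : ∫⁻ x, l x ≤ ENNReal.ofReal α * volume B := by
      rw [hl, ← Measure.prod_apply mG', Measure.prod_apply_symm mG', ← lintegral_indicator_const mB]
      refine lintegral_mono fun z => ?_
      by_cases hz : z ∈ B
      · rw [Set.indicator_of_mem hz]
        exact (measure_mono fun x hx => hx.1).trans (hv z)
      · rw [Set.indicator_of_notMem hz]
        have : (fun x : ℝ => (x, z)) ⁻¹' G' = ∅ :=
          Set.eq_empty_of_forall_notMem fun x hx => hz hx.2
        simp [this]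
    have h2 := (mul_meas_ge_le_lintegral₀ (μ := volume) ml.aemeasurable a).trans h1
    have h3 : ENNReal.ofReal α * volume B =
        a * ENNReal.ofReal (2 * α * (R + 1) ^ 2 / (p * ρ ^ 2)) := by
      rw [ha, vb, vB, ← ENNReal.ofReal_mul hα, ← ENNReal.ofReal_mul (by linarith),
        ← ENNReal.ofReal_mul (by positivity)]
      congr 1
      field_simp
    rw [h3] at h2
    exact (ENNReal.mul_le_mul_iff_right a0 a1).1 h2
  · set H : Set ((ℕ → Bool) × ℂ) :=
      (fun q => (Y q.1, Z q.1 + q.2)) ⁻¹' G ∩ Prod.snd ⁻¹' b with hH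
    have mH : MeasurableSet H :=
      (((hY.comp measurable_fst).prodMk
        ((hZ.comp measurable_fst).add measurable_snd)) hG).inter (measurable_snd mb)
    have h1 : ENNReal.ofReal p * volume b ≤ (PP.prod volume) H := by
      rw [Measure.prod_apply_symm mH, ← lintegral_indicator_const mb]
      refine lintegral_mono fun η => ?_
      by_cases hη : η ∈ b
      · rw [Set.indicator_of_mem hη]
        exact (hP η (mem_ball_zero_iff.1 hη)).trans (measure_mono fun ω hω => ⟨hω, hη⟩)
      · rw [Set.indicator_of_notMem hη]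
        exact zero_le
    have h2 : (PP.prod volume) H ≤ volume b * PP (Y ⁻¹' {x | a ≤ l x}) + a := by
      have h4 : ∫⁻ ω, ((Y ⁻¹' {x | a ≤ l x}).indicator (fun _ => volume b) ω + a) ∂PP =
          volume b * PP (Y ⁻¹' {x | a ≤ l x}) + a := by
        rw [lintegral_add_right _ measurable_const, lintegral_indicator_const (hY mE)]
        simp
      rw [Measure.prod_apply mH, ← h4]
      refine lintegral_mono fun ω => ?_
      by_cases hω : ω ∈ Y ⁻¹' {x | a ≤ l x}
      · rw [Set.indicator_of_mem hω]
        exact (measure_mono fun η hη => hη.2).trans le_self_add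
      · rw [Set.indicator_of_notMem hω, zero_add]
        have h5 : l (Y ω) ≤ a := (not_le.1 hω).le
        refine le_trans ?_ h5
        rw [hl]
        dsimp only
        rw [← measure_preimage_add volume (Z ω) (Prod.mk (Y ω) ⁻¹' G')]
        refine measure_mono fun η hη => ⟨hη.1, ?_⟩
        have h6 : ‖η‖ < ρ := mem_ball_zero_iff.1 hη.2
        refine mem_ball_zero_iff.2 ?_
        exact (norm_add_le _ _).trans_lt (by linarith [hR ω])
    have h3 : ENNReal.ofReal p * volume b = a + a := by
      rw [ha, ← add_mul, ← ENNReal.ofReal_add (by linarith) (by linarith), add_halves]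
    have h7 := h1.trans h2
    rw [h3, ENNReal.add_le_add_iff_right a1] at h7
    have h8 : volume b * ENNReal.ofReal (p / 2) ≤ volume b * PP (Y ⁻¹' {x | a ≤ l x}) := by
      rw [mul_comm]
      exact h7
    refine (ENNReal.mul_le_mul_iff_right ?_ ?_).1 h8
    · rw [vb]
      exact (ENNReal.ofReal_pos.2 hpos).ne'
    · rw [vb]
      exact ENNReal.ofReal_ne_top

end Vale.Agent.Q105
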