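import Vale.Agent.Q105.Near
import Vale.Agent.Q105.Root

/-!
# Row T1: location of the 33 roots of `F`
-/

open Polynomial

namespace Vale.Agent.Q105

/-- the scale -/
def t1_D : GaussianInt := ⟨10 ^ 15, 0⟩

/-- the Newton step at `w / 10 ^ 15` is small -/
def t1_ok (w : GaussianInt) : Prop :=
  33 ^ 2 * (w ^ 33 - t1_D * w ^ 32 - t1_D ^ 2 * w ^ 31 - t1_D ^ 3 * w ^ 30 - t1_D ^ 33).norm <
    100 ^ 2 * (33 * w ^ 32 - 32 * t1_D * w ^ 31 - 31 * t1_D ^ 2 * w ^ 30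
      - 30 * t1_D ^ 3 * w ^ 29).norm

instance t1_dec (w : GaussianInt) : Decidable (t1_ok w) := Int.decLt _ _

theorem t1_norm (w : GaussianInt) : ((w.norm : ℤ) : ℝ) = ‖(w : ℂ)‖ ^ 2 := by
  rw [GaussianInt.intCast_real_norm, Complex.sq_norm]

theorem t1_disc (w : GaussianInt) (h : t1_ok w) :
    ∃ r, FF r = 0 ∧ ‖r - (w : ℂ) / 10 ^ 15‖ < 1 / 10 ^ 13 := by
  apply t1_near
  have hD : ((t1_D : GaussianInt) : ℂ) = 10 ^ 15 := by
    rw [t1_D, GaussianInt.toComplex_def']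
    simp only [Int.cast_pow, Int.cast_ofNat, Int.cast_zero, zero_mul, add_zero]
  have h1 := (Int.cast_lt (R := ℝ)).mpr h
  simp only [Int.cast_mul, Int.cast_pow, Int.cast_ofNat, t1_norm, map_sub, map_mul, map_pow, hD,
    map_ofNat] at h1
  generalize (w : ℂ) = u at h1
  generalize hd : (10 ^ 15 : ℂ) = d at h1
  have hn : ‖d‖ = 10 ^ 15 := by rw [← hd]; simp
  have hd0 : d ≠ 0 := by rw [← hd]; norm_num
  have e1 : FF (u / d) = (u ^ 33 - d * u ^ 32 - d ^ 2 * u ^ 31 - d ^ 3 * u ^ 30 - d ^ 33) / d ^ 33 := by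
    rw [FF]; field_simp
  have e2 : 33 * (u / d) ^ 32 - 32 * (u / d) ^ 31 - 31 * (u / d) ^ 30 - 30 * (u / d) ^ 29 =
      (33 * u ^ 32 - 32 * d * u ^ 31 - 31 * d ^ 2 * u ^ 30 - 30 * d ^ 3 * u ^ 29) / d ^ 32 := by
    field_simp
  rw [e1, e2, norm_div, norm_div, norm_pow, norm_pow, hn]
  generalize hA : ‖u ^ 33 - d * u ^ 32 - d ^ 2 * u ^ 31 - d ^ 3 * u ^ 30 - d ^ 33‖ = A at h1 ⊢
  generalize hB : ‖33 * u ^ 32 - 32 * d * u ^ 31 - 31 * d ^ 2 * u ^ 30 - 30 * d ^ 3 * u ^ 29‖ = B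
    at h1 ⊢
  have hB0 : 0 ≤ B := hB ▸ norm_nonneg _
  have h2 : 33 * A < 100 * B := by
    refine lt_of_pow_lt_pow_left₀ 2 (by positivity) ?_
    rw [mul_pow, mul_pow]
    exact h1
  have hT : (0 : ℝ) < (10 ^ 15) ^ 32 := by positivity
  rw [pow_succ ((10 : ℝ) ^ 15) 32]
  generalize ((10 : ℝ) ^ 15) ^ 32 = T at hT ⊢
  have e3 : 33 * (A / (T * 10 ^ 15)) = 33 * A / 10 ^ 15 / T := by field_simp
  have e4 : 1 / 10 ^ 13 * (B / T) = 100 * B / 10 ^ 15 / T := by field_simp; ring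
  rw [e3, e4]
  gcongr

/-- the 28 inner roots, times `10 ^ 15` -/
def t1_w : Fin 28 → GaussianInt := ![
  ⟨-772311855819974, -625021449415270⟩,
  ⟨-772311855819974, 625021449415270⟩,
  ⟨-329677628296293, -936281061323931⟩,
  ⟨-329677628296293, 936281061323931⟩,
  ⟨-870701039324120, 463435896135978⟩,
  ⟨-870701039324120, -463435896135978⟩,
  ⟨-144251348164542, -973303908863554⟩,
  ⟨-144251348164542, 973303908863554⟩,
  ⟨-939097993402323, -284806393427928⟩,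
  ⟨-939097993402323, 284806393427928⟩,
  ⟨-974138465283757, 96061163312478⟩,
  ⟨-974138465283757, -96061163312478⟩,
  ⟨47357900598315, 975932929515342⟩,
  ⟨47357900598315, -975932929515342⟩,
  ⟨971532489254162, 101910776783977⟩,
  ⟨971532489254162, -101910776783977⟩,
  ⟨927564986230245, -299653350129966⟩,
  ⟨927564986230245, 299653350129966⟩,
  ⟨237285820475036, 943090839611032⟩,
  ⟨237285820475036, -943090839611032⟩,
  ⟨844416292285531, -481484375833468⟩,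
  ⟨844416292285531, 481484375833468⟩,
  ⟨728004216477272, 640966831357202⟩,
  ⟨728004216477272, -640966831357202⟩,
  ⟨418406166245445, -875037630735223⟩,
  ⟨418406166245445, 875037630735223⟩,
  ⟨584054382342666, -773399991404927⟩,
  ⟨584054382342666, 773399991404927⟩]

theorem t1_w_ok : ∀ j, t1_ok (t1_w j) := by decide +kernel

theorem t1_w_sep : ∀ i j, i ≠ j → 200 ^ 2 ≤ (t1_w i - t1_w j).norm := by decide +kernel

theorem t1_w_small : ∀ j, (t1_w j).norm ≤ (9935999 * 10 ^ 8) ^ 2 := by decide +kernel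

theorem t1_g_ok : t1_ok ⟨-648087302275427, 761703392782325⟩ := by decide +kernel

theorem t1_inner : ∃ r : Fin 28 → ℂ, Function.Injective r ∧ ∀ j, FF (r j) = 0 ∧ ‖r j‖ ≤ 0.9936 := by
  choose r h1 h2 using fun j => t1_disc _ (t1_w_ok j)
  refine ⟨r, fun i j hij => ?_, fun j => ⟨h1 j, ?_⟩⟩
  · by_contra hne
    have h3 := (Int.cast_le (R := ℝ)).mpr (t1_w_sep i j hne)
    simp only [Int.cast_pow, Int.cast_ofNat, t1_norm, map_sub] at h3
    have h4 : (200 : ℝ) ≤ ‖(t1_w i : ℂ) - t1_w j‖ := le_of_pow_le_pow_left₀ two_ne_zero (by positivity) h3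
    have h5 : ‖(t1_w i : ℂ) / 10 ^ 15 - t1_w j / 10 ^ 15‖ < 2 / 10 ^ 13 := by
      have e : (t1_w i : ℂ) / 10 ^ 15 - t1_w j / 10 ^ 15 =
          (r j - t1_w j / 10 ^ 15) - (r i - t1_w i / 10 ^ 15) := by rw [hij]; ring
      rw [e]
      refine (norm_sub_le _ _).trans_lt ?_
      linarith [h2 i, h2 j]
    rw [← sub_div, norm_div, norm_pow, Complex.norm_ofNat, div_lt_iff₀ (by positivity)] at h5
    linarith
  · have h3 := (Int.cast_le (R := ℝ)).mpr (t1_w_small j)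
    simp only [Int.cast_pow, Int.cast_ofNat, Int.cast_mul, t1_norm] at h3
    have h4 : ‖(t1_w j : ℂ)‖ ≤ 9935999 * 10 ^ 8 := le_of_pow_le_pow_left₀ two_ne_zero (by positivity) h3
    have h5 : ‖r j‖ ≤ ‖r j - t1_w j / 10 ^ 15‖ + ‖(t1_w j : ℂ) / 10 ^ 15‖ := by
      have := norm_add_le (r j - t1_w j / 10 ^ 15) ((t1_w j : ℂ) / 10 ^ 15)
      rwa [sub_add_cancel] at this
    have h6 : ‖(t1_w j : ℂ) / 10 ^ 15‖ ≤ 0.9935999 := by
      rw [norm_div, norm_pow, Complex.norm_ofNat, div_le_iff₀ (by positivity)]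
      linarith
    linarith [h2 j]

theorem t1_gamma : ∃ γ : ℂ, FF γ = 0 ∧ |γ.re + 0.648087302275427| ≤ 1 / 10 ^ 13 ∧
    |γ.im - 0.761703392782325| ≤ 1 / 10 ^ 13 := by
  obtain ⟨γ, h1, h2⟩ := t1_disc _ t1_g_ok
  refine ⟨γ, h1, ?_, ?_⟩
  · refine le_trans (le_of_eq ?_) ((Complex.abs_re_le_norm _).trans h2.le)
    congr 1
    rw [GaussianInt.toComplex_def']
    simp [Complex.div_re, Complex.normSq]
    norm_num
  · refine le_trans (le_of_eq ?_) ((Complex.abs_im_le_norm _).trans h2.le)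
    congr 1
    rw [GaussianInt.toComplex_def']
    simp [Complex.div_im, Complex.normSq]
    norm_num

theorem t1_conj {z : ℂ} (h : FF z = 0) : FF ((starRingEnd ℂ) z) = 0 := by
  have := congrArg (starRingEnd ℂ) h
  simpa [FF] using this

theorem t1_cube {z : ℂ} (h : z ^ 2 + z + 1 = 0) : FF z = 0 := by
  have h3 : z ^ 3 = 1 := by linear_combination (z - 1) * h
  have h30 : z ^ 30 = 1 := by rw [show z ^ 30 = (z ^ 3) ^ 10 by ring, h3, one_pow]
  rw [FF, show z ^ 33 = z ^ 30 * z ^ 3 by ring, show z ^ 32 = z ^ 30 * z ^ 2 by ring,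
    show z ^ 31 = z ^ 30 * z by ring, h30, h3]
  linear_combination -h

theorem t1_omega : ∃ ω : ℂ, ω ^ 2 + ω + 1 = 0 ∧ ω.re = -1 / 2 ∧ 0 < ω.im ∧ ‖ω‖ = 1 := by
  have h3 : √3 ^ 2 = 3 := Real.sq_sqrt (by norm_num)
  refine ⟨⟨-1 / 2, √3 / 2⟩, ?_, rfl, by positivity, ?_⟩
  · apply Complex.ext
    · simp [pow_two]
      nlinarith
    · simp [pow_two]
      ring
  · rw [Complex.norm_eq_sqrt_sq_add_sq, Real.sqrt_eq_one]
    simp only
    nlinarith

theorem rowT1 : RowT1 := by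
  classical
  obtain ⟨b, hb0, hb⟩ := exists_root
  obtain ⟨hb1, hb2⟩ := root_enc hb0 hb
  obtain ⟨γ, hγ, hre, him⟩ := t1_gamma
  obtain ⟨r, hr, hr'⟩ := t1_inner
  obtain ⟨ω, hω, hωre, hωim, hωn⟩ := t1_omega
  rw [abs_le] at hre him
  obtain ⟨hre1, hre2⟩ := hre
  obtain ⟨him1, him2⟩ := him
  have hn : ‖γ‖ ^ 2 = γ.re ^ 2 + γ.im ^ 2 := by
    rw [Complex.sq_norm, Complex.normSq_apply]; ring
  have hn1 : 1.00020920 ≤ ‖γ‖ ^ 2 := by rw [hn]; nlinarith
  have hn2 : ‖γ‖ ^ 2 ≤ 1.00020922 := by rw [hn]; nlinarith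
  have hFb : FF b = 0 := by rw [FF]; exact_mod_cast hb
  refine ⟨b, γ, ⟨by linarith, by linarith, abs_le.mpr ⟨by linarith, by linarith⟩,
    abs_le.mpr ⟨by linarith, by linarith⟩, hn1, hn2⟩, hFb, hγ, fun z hz => ?_⟩
  by_contra hc
  simp only [not_or, not_le] at hc
  obtain ⟨c1, c2, c3, c4, c5⟩ := hc
  have hω' : (starRingEnd ℂ) ω ^ 2 + (starRingEnd ℂ) ω + 1 = 0 := by
    simpa using congrArg (starRingEnd ℂ) hω
  have c6 : z ≠ ω := fun h => c4 (h ▸ hω)
  have c7 : z ≠ (starRingEnd ℂ) ω := fun h => c4 (h ▸ hω')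
  have hγn : (0.9936 : ℝ) < ‖γ‖ := by
    refine lt_of_pow_lt_pow_left₀ 2 (norm_nonneg _) ?_
    linarith
  have ne_of_re : ∀ x y : ℂ, x.re ≠ y.re → x ≠ y := fun x y h e => h (congrArg _ e)
  have ne_of_im : ∀ x y : ℂ, x.im ≠ y.im → x ≠ y := fun x y h e => h (congrArg _ e)
  have d1 : (b : ℂ) ≠ γ := ne_of_re _ _ (by simp only [Complex.ofReal_re]; linarith)
  have d2 : (b : ℂ) ≠ (starRingEnd ℂ) γ :=
    ne_of_re _ _ (by simp only [Complex.ofReal_re, Complex.conj_re]; linarith)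
  have d3 : (b : ℂ) ≠ ω := ne_of_re _ _ (by simp only [Complex.ofReal_re]; linarith)
  have d4 : (b : ℂ) ≠ (starRingEnd ℂ) ω :=
    ne_of_re _ _ (by simp only [Complex.ofReal_re, Complex.conj_re]; linarith)
  have d5 : γ ≠ (starRingEnd ℂ) γ := ne_of_im _ _ (by simp only [Complex.conj_im]; linarith)
  have d6 : γ ≠ ω := ne_of_re _ _ (by linarith)
  have d7 : γ ≠ (starRingEnd ℂ) ω := ne_of_re _ _ (by simp only [Complex.conj_re]; linarith)
  have d8 : (starRingEnd ℂ) γ ≠ ω := ne_of_re _ _ (by simp only [Complex.conj_re]; linarith)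
  have d9 : (starRingEnd ℂ) γ ≠ (starRingEnd ℂ) ω :=
    ne_of_re _ _ (by simp only [Complex.conj_re]; linarith)
  have d10 : ω ≠ (starRingEnd ℂ) ω := ne_of_im _ _ (by simp only [Complex.conj_im]; linarith)
  set U : Finset ℂ := {z, (b : ℂ), γ, (starRingEnd ℂ) γ, ω, (starRingEnd ℂ) ω} with hU
  have hUc : U.card = 6 := by
    rw [hU, Finset.card_insert_of_notMem (by simp [c1, c2, c3, c6, c7]),
      Finset.card_insert_of_notMem (by simp [d1, d2, d3, d4]),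
      Finset.card_insert_of_notMem (by simp [d5, d6, d7]),
      Finset.card_insert_of_notMem (by simp [d8, d9]), Finset.card_pair d10]
  have hUm : ∀ x ∈ U, FF x = 0 ∧ (0.9936 : ℝ) < ‖x‖ := by
    intro x hx
    simp only [hU, Finset.mem_insert, Finset.mem_singleton] at hx
    rcases hx with h | h | h | h | h | h <;> rw [h]
    · exact ⟨hz, c5⟩
    · exact ⟨hFb, by rw [Complex.norm_real, Real.norm_of_nonneg hb0.le]; linarith⟩
    · exact ⟨hγ, hγn⟩
    · exact ⟨t1_conj hγ, by rwa [Complex.norm_conj]⟩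
    · exact ⟨t1_cube hω, by rw [hωn]; norm_num⟩
    · exact ⟨t1_cube hω', by rw [Complex.norm_conj, hωn]; norm_num⟩
  have hdis : Disjoint U (Finset.univ.image r) := by
    rw [Finset.disjoint_left]
    intro x hx hx'
    obtain ⟨j, -, rfl⟩ := Finset.mem_image.mp hx'
    exact absurd (hr' j).2 (not_le.mpr (hUm _ hx).2)
  have hsub : U ∪ Finset.univ.image r ⊆ t1_P.roots.toFinset := by
    intro x hx
    rw [Multiset.mem_toFinset, t1_mem]
    rcases Finset.mem_union.mp hx with h | h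
    · exact (hUm x h).1
    · obtain ⟨j, -, rfl⟩ := Finset.mem_image.mp h
      exact (hr' j).1
  have h1 := (Finset.card_le_card hsub).trans (Multiset.toFinset_card_le _)
  rw [Finset.card_union_of_disjoint hdis, hUc, Finset.card_image_of_injective _ hr, t1_card,
    Finset.card_univ, Fintype.card_fin] at h1
  omega

end Vale.Agent.Q105
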