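import Vale.Agent.Q105.Defs
import Vale.Agent.Q105.Irr
import Vale.Agent.Q105.Glue

/-!
# Row T2: degree 31, neither Pisot nor Salem
-/

namespace Vale.Agent.Q105

theorem t2_real {b : ℝ} (h : FF b = 0) : b ^ 33 - b ^ 32 - b ^ 31 - b ^ 30 - 1 = 0 := by
  unfold FF at h
  exact_mod_cast h

theorem rowT2 : RowT2 := by
  intro b γ h
  have hb := t2_real h.Fb
  exact ⟨irr_isIntegral b hb, irr_natDegree b hb,
    not_pisot_salem_of_conj (conj_out fun z hz hz' => irr_conj b hb z hz hz')⟩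

end Vale.Agent.Q105
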