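import Vale.Agent.Q105.Defs

/-!
# Row T3: the residues and the integer sequence
-/

open Finset Polynomial

namespace Vale.Agent.Q105

/-- the derivative of `F` -/
noncomputable def t3_D (z : ℂ) : ℂ := 33 * z ^ 32 - 32 * z ^ 31 - 31 * z ^ 30 - 30 * z ^ 29

/-- `F` as a polynomial -/
noncomputable def t3_p : ℂ[X] := X ^ 33 - X ^ 32 - X ^ 31 - X ^ 30 - 1

theorem t3_res (z : ℂ) : res z = (z ^ 2 + z + 1) / t3_D z := rfl

theorem t3_monic : t3_p.Monic := by unfold t3_p; monicity!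

theorem t3_deg : t3_p.natDegree = 33 := by unfold t3_p; compute_degree!

theorem t3_eval (z : ℂ) : t3_p.eval z = FF z := by simp [t3_p, FF]

theorem t3_der (z : ℂ) : (derivative t3_p).eval z = t3_D z := by
  simp only [t3_p, t3_D, derivative_sub, derivative_X_pow, derivative_one, eval_sub, eval_mul,
    eval_pow, eval_X, eval_C, eval_zero]
  norm_num

theorem t3_Dlow {z : ℂ} (hz : FF z = 0) (h : ‖z‖ ≤ 1.0002) : 23.8 ≤ ‖t3_D z‖ := by
  have e : (30 : ℂ) = z * t3_D z - (3 * z ^ 33 - 2 * z ^ 32 - z ^ 31) := by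
    unfold FF at hz
    unfold t3_D
    linear_combination (-30 : ℂ) * hz
  have hp : ∀ k : ℕ, k ≤ 33 → ‖z‖ ^ k ≤ 1.007 := fun k hk =>
    calc ‖z‖ ^ k ≤ (1.0002 : ℝ) ^ k := pow_le_pow_left₀ (norm_nonneg _) h k
      _ ≤ 1.0002 ^ 33 := pow_le_pow_right₀ (by norm_num) hk
      _ ≤ 1.007 := by norm_num
  have h1 : ‖3 * z ^ 33 - 2 * z ^ 32 - z ^ 31‖ ≤ 3 * ‖z‖ ^ 33 + 2 * ‖z‖ ^ 32 + ‖z‖ ^ 31 := by
    refine (norm_sub_le _ _).trans (add_le_add ((norm_sub_le _ _).trans (add_le_add ?_ ?_)) ?_) <;>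
      simp
  have h2 : (30 : ℝ) ≤ ‖z‖ * ‖t3_D z‖ + ‖3 * z ^ 33 - 2 * z ^ 32 - z ^ 31‖ := by
    calc (30 : ℝ) = ‖(30 : ℂ)‖ := by simp
      _ = ‖z * t3_D z - (3 * z ^ 33 - 2 * z ^ 32 - z ^ 31)‖ := by rw [← e]
      _ ≤ _ := by rw [← norm_mul]; exact norm_sub_le _ _
  have h3 := hp 33 le_rfl
  have h4 := hp 32 (by norm_num)
  have h5 := hp 31 (by norm_num)
  have h6 : ‖z‖ * ‖t3_D z‖ ≤ 1.0002 * ‖t3_D z‖ := mul_le_mul_of_nonneg_right h (norm_nonneg _)
  linarith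

theorem t3_Dreal {b : ℝ} (h1 : 1.8392867 ≤ b) (h2 : b ≤ 1.8392868) :
    4.7 * 10 ^ 8 ≤ 33 * b ^ 32 - 32 * b ^ 31 - 31 * b ^ 30 - 30 * b ^ 29 ∧
      33 * b ^ 32 - 32 * b ^ 31 - 31 * b ^ 30 - 30 * b ^ 29 ≤ 4.9 * 10 ^ 8 := by
  have e : 33 * b ^ 32 - 32 * b ^ 31 - 31 * b ^ 30 - 30 * b ^ 29 =
      b ^ 29 * (33 * b ^ 3 - 32 * b ^ 2 - 31 * b - 30) := by ring
  have lo : ∀ k : ℕ, (1.8392867 : ℝ) ^ k ≤ b ^ k := fun k => pow_le_pow_left₀ (by norm_num) h1 k
  have hi : ∀ k : ℕ, b ^ k ≤ (1.8392868 : ℝ) ^ k := fun k => pow_le_pow_left₀ (by linarith) h2 k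
  have a1 : 4.7 * 10 ^ 7 ≤ b ^ 29 := le_trans (by norm_num) (lo 29)
  have a2 : b ^ 29 ≤ 4.8 * 10 ^ 7 := (hi 29).trans (by norm_num)
  have a3 : 6.2222 ≤ b ^ 3 := le_trans (by norm_num) (lo 3)
  have a4 : b ^ 3 ≤ 6.2223 := (hi 3).trans (by norm_num)
  have a5 : 3.3829 ≤ b ^ 2 := le_trans (by norm_num) (lo 2)
  have a6 : b ^ 2 ≤ 3.383 := (hi 2).trans (by norm_num)
  have q1 : 10 ≤ 33 * b ^ 3 - 32 * b ^ 2 - 31 * b - 30 := by linarith
  have q2 : 33 * b ^ 3 - 32 * b ^ 2 - 31 * b - 30 ≤ 10.1 := by linarith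
  rw [e]
  constructor
  · calc (4.7 * 10 ^ 8 : ℝ) = 4.7 * 10 ^ 7 * 10 := by norm_num
      _ ≤ _ := mul_le_mul a1 q1 (by norm_num) (by linarith)
  · calc _ ≤ (4.8 * 10 ^ 7 * 10.1 : ℝ) := mul_le_mul a2 q2 (by linarith) (by norm_num)
      _ ≤ _ := by norm_num

theorem t3_Dcast (b : ℝ) :
    t3_D b = ((33 * b ^ 32 - 32 * b ^ 31 - 31 * b ^ 30 - 30 * b ^ 29 : ℝ) : ℂ) := by
  unfold t3_D; push_cast; ring

theorem t3_rescast (b : ℝ) : res b =
    (((b ^ 2 + b + 1) / (33 * b ^ 32 - 32 * b ^ 31 - 31 * b ^ 30 - 30 * b ^ 29) : ℝ) : ℂ) := by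
  unfold res; push_cast; ring

theorem t3_gnorm {b : ℝ} {γ : ℂ} (h : Outer b γ) : ‖γ‖ ≤ 1.0002 := by
  have := h.n2
  nlinarith [norm_nonneg γ]

theorem t3_Dne {b : ℝ} {γ : ℂ} (h : Roots b γ) {z : ℂ} (hz : FF z = 0) : t3_D z ≠ 0 := by
  have key : ‖z‖ ≤ 1.0002 → t3_D z ≠ 0 := fun h1 h0 => by
    have := t3_Dlow hz h1
    rw [h0, norm_zero] at this
    norm_num at this
  rcases h.all z hz with rfl | rfl | rfl | h1 | h1
  · rw [t3_Dcast]
    have := (t3_Dreal h.out.b1 h.out.b2).1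
    exact_mod_cast (by linarith :
      (0 : ℝ) < 33 * b ^ 32 - 32 * b ^ 31 - 31 * b ^ 30 - 30 * b ^ 29).ne'
  · exact key (t3_gnorm h.out)
  · exact key (by rw [Complex.norm_conj]; exact t3_gnorm h.out)
  · refine key ?_
    have e : z ^ 3 = 1 := by linear_combination (z - 1) * h1
    have e2 : ‖z‖ ^ 3 = 1 := by rw [← norm_pow, e, norm_one]
    have := (pow_eq_one_iff_of_nonneg (norm_nonneg z) (by norm_num)).1 e2
    rw [this]; norm_num
  · exact key (h1.trans (by norm_num))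

/-- the set of roots -/
noncomputable def t3_s : Finset ℂ := t3_p.roots.toFinset

theorem t3_mem {z : ℂ} : z ∈ t3_s ↔ FF z = 0 := by
  rw [t3_s, Multiset.mem_toFinset, mem_roots t3_monic.ne_zero, IsRoot, t3_eval]

theorem t3_nodup {b : ℝ} {γ : ℂ} (h : Roots b γ) : t3_p.roots.Nodup := by
  rw [Multiset.nodup_iff_count_le_one]
  intro z
  rw [count_roots]
  by_contra hc
  have h1 := (one_lt_rootMultiplicity_iff_isRoot t3_monic.ne_zero).1 (not_le.1 hc)
  exact t3_Dne h (z := z) (by rw [← t3_eval]; exact h1.1) (by rw [← t3_der]; exact h1.2)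

theorem t3_card {b : ℝ} {γ : ℂ} (h : Roots b γ) : t3_s.card = 33 := by
  rw [t3_s, Multiset.toFinset_card_of_nodup (t3_nodup h),
    ← (IsAlgClosed.splits t3_p).natDegree_eq_card_roots, t3_deg]

theorem t3_nodal {b : ℝ} {γ : ℂ} (h : Roots b γ) : t3_p = Lagrange.nodal t3_s id := by
  rw [Lagrange.nodal_eq, Finset.prod_eq_multiset_prod, t3_s, Multiset.toFinset_val,
    (t3_nodup h).dedup]
  exact (IsAlgClosed.splits t3_p).eq_prod_roots_of_monic t3_monic

theorem t3_prod {b : ℝ} {γ : ℂ} (h : Roots b γ) {t : ℂ} (ht : t ∈ t3_s) :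
    ∏ j ∈ t3_s.erase t, (t - j) = t3_D t := by
  have := Lagrange.eval_nodal_derivative_eval_node_eq (v := id) ht
  rw [← t3_nodal h, Lagrange.eval_nodal] at this
  rw [← t3_der]
  exact this.symm

/-- the power sums with weights `1 / F'` -/
noncomputable def t3_S (n : ℕ) : ℂ := ∑ t ∈ t3_s, t ^ n / t3_D t

theorem t3_S_low {b : ℝ} {γ : ℂ} (h : Roots b γ) {n : ℕ} (hn : n < 33) :
    t3_S n = if n = 32 then 1 else 0 := by
  have h1 := Lagrange.coeff_eq_sum (s := t3_s) (v := id) (Set.injOn_id _) (P := (X ^ n : ℂ[X]))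
    (by rw [degree_X_pow, t3_card h]; exact_mod_cast hn)
  rw [t3_card h, coeff_X_pow] at h1
  have h2 : t3_S n = ∑ i ∈ t3_s, eval (id i) (X ^ n : ℂ[X]) / ∏ j ∈ t3_s.erase i, (id i - id j) :=
    sum_congr rfl fun t ht => by
      simp only [id, eval_pow, eval_X]
      rw [t3_prod h ht]
  rw [h2, ← h1]
  simp only [show 33 - 1 = 32 from rfl, eq_comm]

theorem t3_S_step (n : ℕ) :
    t3_S (n + 33) = t3_S (n + 32) + t3_S (n + 31) + t3_S (n + 30) + t3_S n := by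
  simp only [t3_S, ← sum_add_distrib]
  refine sum_congr rfl fun t ht => ?_
  have hz := t3_mem.1 ht
  unfold FF at hz
  simp only [← add_div]
  congr 1
  linear_combination t ^ n * hz

theorem t3_S_int {b : ℝ} {γ : ℂ} (h : Roots b γ) (n : ℕ) : ∃ k : ℤ, (k : ℂ) = t3_S n := by
  induction n using Nat.strong_induction_on with
  | _ n ih =>
    rcases lt_or_ge n 33 with hn | hn
    · rw [t3_S_low h hn]
      split_ifs
      · exact ⟨1, by simp⟩
      · exact ⟨0, by simp⟩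
    · obtain ⟨m, rfl⟩ : ∃ m, n = m + 33 := ⟨n - 33, by omega⟩
      obtain ⟨k1, e1⟩ := ih (m + 32) (by omega)
      obtain ⟨k2, e2⟩ := ih (m + 31) (by omega)
      obtain ⟨k3, e3⟩ := ih (m + 30) (by omega)
      obtain ⟨k4, e4⟩ := ih m (by omega)
      exact ⟨k1 + k2 + k3 + k4, by rw [t3_S_step, ← e1, ← e2, ← e3, ← e4]; push_cast; ring⟩

theorem t3_T (m : ℕ) : ∑ t ∈ t3_s, res t * t ^ m = t3_S (m + 2) + t3_S (m + 1) + t3_S m := by
  simp only [t3_S, ← sum_add_distrib]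
  refine sum_congr rfl fun t _ => ?_
  rw [t3_res]
  ring

/-- the integer sequence -/
theorem t3_K {b : ℝ} {γ : ℂ} (h : Roots b γ) : ∃ K : ℕ → ℤ,
    (∀ m, (K m : ℂ) = ∑ t ∈ t3_s, res t * t ^ m) ∧ (∀ m ≤ 29, K m = 0) ∧ K 30 = 1 ∧ K 31 = 2 ∧
      K 32 = 4 ∧ ∀ m, K (m + 33) = K (m + 32) + K (m + 31) + K (m + 30) + K m := by
  choose M hM using t3_S_int h
  have lo : ∀ n < 33, M n = if n = 32 then 1 else 0 := fun n hn => by
    have := (hM n).trans (t3_S_low h hn)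
    split_ifs at this ⊢ <;> exact_mod_cast this
  have st : ∀ n, M (n + 33) = M (n + 32) + M (n + 31) + M (n + 30) + M n := fun n => by
    have := t3_S_step n
    simp only [← hM] at this
    exact_mod_cast this
  have z : ∀ n ≤ 31, M n = 0 := fun n hn => by rw [lo n (by omega), if_neg (by omega)]
  have m32 : M 32 = 1 := by rw [lo 32 (by norm_num), if_pos rfl]
  have m33 : M 33 = 1 := by
    have := st 0
    simp only [zero_add] at this
    rw [this, m32, z 31 le_rfl, z 30 (by norm_num), z 0 (by norm_num)]; rfl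
  have m34 : M 34 = 2 := by
    have : M 34 = M 33 + M 32 + M 31 + M 1 := st 1
    rw [this, m33, m32, z 31 le_rfl, z 1 (by norm_num)]; rfl
  refine ⟨fun m => M (m + 2) + M (m + 1) + M m, fun m => ?_, fun m hm => ?_, ?_, ?_, ?_,
    fun m => ?_⟩
  · rw [t3_T, ← hM, ← hM, ← hM]; push_cast; ring
  · simp only [z (m + 2) (by omega), z (m + 1) (by omega), z m (by omega)]; rfl
  · show M 32 + M 31 + M 30 = 1
    rw [m32, z 31 le_rfl, z 30 (by norm_num)]; rfl
  · show M 33 + M 32 + M 31 = 2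
    rw [m33, m32, z 31 le_rfl]; rfl
  · show M 34 + M 33 + M 32 = 4
    rw [m34, m33, m32]; rfl
  · have a0 := st m
    have a1 : M (m + 34) = M (m + 33) + M (m + 32) + M (m + 31) + M (m + 1) := st (m + 1)
    have a2 : M (m + 35) = M (m + 34) + M (m + 33) + M (m + 32) + M (m + 2) := st (m + 2)
    show M (m + 35) + M (m + 34) + M (m + 33) =
      (M (m + 34) + M (m + 33) + M (m + 32)) + (M (m + 33) + M (m + 32) + M (m + 31)) +
        (M (m + 32) + M (m + 31) + M (m + 30)) + (M (m + 2) + M (m + 1) + M m)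
    linarith

theorem t3_term {z : ℂ} (hz : FF z = 0) (h : z ^ 2 + z + 1 = 0 ∨ ‖z‖ ≤ 0.9936) (m : ℕ) :
    ‖res z * z ^ m‖ ≤ 0.15 * 0.9936 ^ m := by
  rcases h with h | h
  · rw [t3_res, h, zero_div, zero_mul, norm_zero]; positivity
  · have h1 := t3_Dlow hz (h.trans (by norm_num))
    have h2 : ‖z ^ 2 + z + 1‖ ≤ 3 := by
      refine (norm_add_le _ _).trans ?_
      have := norm_add_le (z ^ 2) z
      rw [norm_pow] at this
      rw [norm_one]
      nlinarith [norm_nonneg z]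
    rw [norm_mul, norm_pow, t3_res, norm_div]
    refine mul_le_mul ?_ (pow_le_pow_left₀ (norm_nonneg _) h m) (by positivity) (by norm_num)
    rw [div_le_iff₀ (by linarith)]
    linarith

theorem t3_r2 {b : ℝ} {γ : ℂ} (h : Roots b γ) : ‖res γ‖ ≤ 0.013 := by
  have h1 := t3_Dlow h.Fγ (t3_gnorm h.out)
  obtain ⟨x1, x2⟩ := abs_le.1 h.out.re
  obtain ⟨y1, y2⟩ := abs_le.1 h.out.im
  have h2 : ‖γ ^ 2 + γ + 1‖ ≤ 0.3 := by
    have e1 : (γ ^ 2 + γ + 1).re = γ.re ^ 2 - γ.im ^ 2 + γ.re + 1 := by simp [pow_two]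
    have e2 : (γ ^ 2 + γ + 1).im = γ.im * (2 * γ.re + 1) := by simp [pow_two]; ring
    have a1 : 0.19 ≤ γ.re ^ 2 - γ.im ^ 2 + γ.re + 1 := by nlinarith
    have a2 : γ.re ^ 2 - γ.im ^ 2 + γ.re + 1 ≤ 0.193 := by nlinarith
    have a3 : -0.227 ≤ γ.im * (2 * γ.re + 1) := by nlinarith
    have a4 : γ.im * (2 * γ.re + 1) ≤ 0 := by nlinarith
    have a5 : ‖γ ^ 2 + γ + 1‖ ^ 2 ≤ 0.3 ^ 2 := by
      rw [Complex.sq_norm, Complex.normSq_apply, e1, e2]
      nlinarith
    exact (pow_le_pow_iff_left₀ (norm_nonneg _) (by norm_num) two_ne_zero).1 a5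
  rw [t3_res, norm_div, div_le_iff₀ (by linarith)]
  linarith

theorem t3_dec {b : ℝ} {γ : ℂ} (h : Roots b γ) (m : ℕ) (k : ℤ)
    (hk : (k : ℂ) = ∑ t ∈ t3_s, res t * t ^ m) :
    |(res b).re * b ^ m + 2 * (res γ * γ ^ m).re - k| ≤ 5 * 0.9936 ^ m := by
  obtain ⟨y1, _⟩ := abs_le.1 h.out.im
  have hcj : FF ((starRingEnd ℂ) γ) = 0 := by
    have := congrArg (starRingEnd ℂ) h.Fγ
    simpa [FF] using this
  have n1 : (b : ℂ) ≠ γ := fun e => by
    have := congrArg Complex.im e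
    rw [Complex.ofReal_im] at this
    linarith
  have n2 : (b : ℂ) ≠ (starRingEnd ℂ) γ := fun e => by
    have := congrArg Complex.im e
    rw [Complex.ofReal_im, Complex.conj_im] at this
    linarith
  have n3 : γ ≠ (starRingEnd ℂ) γ := fun e => by
    have := congrArg Complex.im e
    rw [Complex.conj_im] at this
    linarith
  have hsub : ({(b : ℂ), γ, (starRingEnd ℂ) γ} : Finset ℂ) ⊆ t3_s := by
    intro z hz
    simp only [mem_insert, mem_singleton] at hz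
    rcases hz with rfl | rfl | rfl
    · exact t3_mem.2 h.Fb
    · exact t3_mem.2 h.Fγ
    · exact t3_mem.2 hcj
  have hc : res ((starRingEnd ℂ) γ) * (starRingEnd ℂ) γ ^ m = (starRingEnd ℂ) (res γ * γ ^ m) := by
    simp only [res, map_mul, map_div₀, map_add, map_sub, map_pow, map_one, map_ofNat]
  have hb : res b = ((res b).re : ℂ) := by rw [t3_rescast, Complex.ofReal_re]
  rw [← sum_sdiff hsub, sum_insert (by simp [n1, n2]), sum_insert (by simp [n3]), sum_singleton, hc,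
    Complex.add_conj] at hk
  have e : (((res b).re * b ^ m + 2 * (res γ * γ ^ m).re - k : ℝ) : ℂ) =
      -∑ t ∈ t3_s \ {(b : ℂ), γ, (starRingEnd ℂ) γ}, res t * t ^ m := by
    push_cast at hk ⊢
    rw [hk, ← hb]
    ring
  rw [← Real.norm_eq_abs, ← Complex.norm_real, e, norm_neg]
  refine (norm_sum_le _ _).trans ?_
  refine (sum_le_card_nsmul _ _ (0.15 * 0.9936 ^ m) fun z hz => ?_).trans ?_
  · rw [mem_sdiff] at hz
    have hz1 := t3_mem.1 hz.1
    refine t3_term hz1 ?_ m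
    rcases h.all z hz1 with e | e | e | e | e
    · exact absurd (by simp [e]) hz.2
    · exact absurd (by simp [e]) hz.2
    · exact absurd (by simp [e]) hz.2
    · exact Or.inl e
    · exact Or.inr e
  · have c1 : ((t3_s \ {(b : ℂ), γ, (starRingEnd ℂ) γ}).card : ℝ) ≤ 33 := by
      have := card_le_card (sdiff_subset (s := t3_s) (t := {(b : ℂ), γ, (starRingEnd ℂ) γ}))
      rw [t3_card h] at this
      exact_mod_cast this
    rw [nsmul_eq_mul]
    have : (0 : ℝ) ≤ 0.9936 ^ m := by positivity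
    nlinarith

theorem t3_zstep {K : Type} [Field K] {z : K} (h0 : z ≠ 0)
    (hz : z ^ 33 - z ^ 32 - z ^ 31 - z ^ 30 - 1 = 0) (m : ℤ) :
    z ^ (m + 33) = z ^ (m + 32) + z ^ (m + 31) + z ^ (m + 30) + z ^ m := by
  simp only [zpow_add₀ h0, zpow_ofNat]
  linear_combination z ^ m * hz

theorem rowT3 : RowT3 := by
  intro b γ h
  obtain ⟨K, hK, K0, K30, K31, K32, Kst⟩ := t3_K h
  have b1 := h.out.b1
  have b2 := h.out.b2
  obtain ⟨d1, d2⟩ := t3_Dreal b1 b2
  have N0 : ∀ m : ℤ, m ≤ 29 → K m.toNat = 0 := fun m hm => K0 _ (by omega)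
  refine ⟨fun m => K m.toNat, ⟨h.out, ?_, ?_, t3_r2 h, N0, fun m _ => ?_, fun m => ?_⟩,
    K30, K31, K32⟩
  · show 1 / 10 ^ 8 ≤ (res b).re
    rw [t3_rescast, Complex.ofReal_re, le_div_iff₀ (by linarith)]
    nlinarith
  · show (res b).re ≤ 2 / 10 ^ 8
    rw [t3_rescast, Complex.ofReal_re, div_le_iff₀ (by linarith)]
    nlinarith
  · simpa only [Dat.y, zpow_natCast, Int.toNat_natCast] using t3_dec h m (K m) (hK m)
  · have hb : b ^ 33 - b ^ 32 - b ^ 31 - b ^ 30 - 1 = 0 := by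
      have := h.Fb
      unfold FF at this
      exact_mod_cast this
    have hγ0 : γ ≠ 0 := fun e => by
      have := h.Fγ
      simp [FF, e] at this
    have e1 := t3_zstep (by linarith : b ≠ 0) hb m
    have e2 := t3_zstep hγ0 h.Fγ m
    have e3 : K (m + 33).toNat = K (m + 32).toNat + K (m + 31).toNat + K (m + 30).toNat +
        K m.toNat + if -3 ≤ m ∧ m ≤ -1 then 1 else 0 := by
      rcases le_or_gt 0 m with hm | hm
      · obtain ⟨n, rfl⟩ := Int.eq_ofNat_of_zero_le hm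
        rw [if_neg (by omega), add_zero, show ((n : ℤ) + 33).toNat = n + 33 by omega,
          show ((n : ℤ) + 32).toNat = n + 32 by omega, show ((n : ℤ) + 31).toNat = n + 31 by omega,
          show ((n : ℤ) + 30).toNat = n + 30 by omega, Int.toNat_natCast]
        exact Kst n
      · rcases lt_or_ge m (-3) with h3 | h3
        · rw [if_neg (by omega), N0 _ (by omega), N0 _ (by omega), N0 _ (by omega),
            N0 _ (by omega), N0 _ (by omega)]
          rfl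
        · rw [if_pos (by omega), N0 m (by omega), N0 (m + 30) (by omega)]
          obtain rfl | rfl | rfl : m = -3 ∨ m = -2 ∨ m = -1 := by omega
          · show K 30 = K 29 + K 28 + 0 + 0 + 1
            rw [K30, K0 29 le_rfl, K0 28 (by norm_num)]; rfl
          · show K 31 = K 30 + K 29 + 0 + 0 + 1
            rw [K31, K30, K0 29 le_rfl]; rfl
          · show K 32 = K 31 + K 30 + 0 + 0 + 1
            rw [K32, K31, K30]; rfl
    simp only [Dat.y]
    rw [e1, e2, e3]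
    simp only [mul_add, Complex.add_re]
    split_ifs <;> push_cast <;> ring

end Vale.Agent.Q105
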