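import Vale.Agent.Q105.Defs

/-!
# The far tail of the reduced sequence
-/

open Finset

namespace Vale.Agent.Q105

/-- square of the distance to `2 ^ 40`, plus one -/
def tau_g (x : ℕ) : ℕ :=
  Nat.mul (Nat.succ (Nat.add (Nat.sub x 1099511627776) (Nat.sub 1099511627776 x)))
    (Nat.succ (Nat.add (Nat.sub x 1099511627776) (Nat.sub 1099511627776 x)))

/-- sum of `tau_g` over the first `n` entries -/
def tau_S : ℕ → List ℕ → ℕ
  | 0, _ => 0
  | n + 1, l => Nat.add (tau_g (l.headD 0)) (tau_S n l.tail)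

theorem tau_sum (n : ℕ) : ∀ l : List ℕ, ∑ i ∈ range n, tau_g (l.getD i 0) = tau_S n l := by
  induction n with
  | zero => intro l; rfl
  | succ n ih =>
    intro l
    rw [sum_range_succ', tau_S, ← ih, Nat.add_eq, add_comm]
    cases l <;> simp

theorem tau_cert : tau_S 1300 (TT.drop 1802) ≤ 87980000000000000000 := by
  decide +kernel

theorem tau_pt {y : ℝ} {x : ℕ} (h : |y + 1 - (x : ℝ) / 2 ^ 40| ≤ 1 / 2 ^ 40) :
    y ^ 2 ≤ (tau_g x : ℝ) / 2 ^ 80 := by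
  set d : ℕ := (x - 1099511627776) + (1099511627776 - x) + 1 with hd
  have e : tau_g x = d * d := rfl
  have h1 : (x : ℝ) - 1099511627776 + 1 ≤ d ∧ 1099511627776 - (x : ℝ) + 1 ≤ d := by
    have a1 : x + 1 ≤ d + 1099511627776 := by omega
    have a2 : 1099511627776 + 1 ≤ d + x := by omega
    have b1 : ((x + 1 : ℕ) : ℝ) ≤ ((d + 1099511627776 : ℕ) : ℝ) := Nat.cast_le.2 a1
    have b2 : ((1099511627776 + 1 : ℕ) : ℝ) ≤ ((d + x : ℕ) : ℝ) := Nat.cast_le.2 a2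
    push_cast at b1 b2
    constructor <;> linarith
  have h2 : |y| ≤ (d : ℝ) / 2 ^ 40 := by
    obtain ⟨l, u⟩ := abs_le.1 h
    norm_num at l u ⊢
    rw [abs_le]
    constructor <;> linarith [h1.1, h1.2]
  have h3 : |y| ^ 2 ≤ ((d : ℝ) / 2 ^ 40) ^ 2 := pow_le_pow_left₀ (abs_nonneg _) h2 2
  rw [sq_abs] at h3
  refine h3.trans (le_of_eq ?_)
  rw [e]; push_cast; ring

theorem tau_near {D : Dat} (hT : Tab D) :
    ∑ k ∈ range 1300, D.y (501 + (k : ℕ)) ^ 2 ≤ 7.28 / 10 ^ 5 := by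
  have h1 : ∑ k ∈ range 1300, D.y (501 + (k : ℕ)) ^ 2 ≤
      ∑ k ∈ range 1300, (tau_g ((TT.drop 1802).getD k 0) : ℝ) / 2 ^ 80 := by
    refine sum_le_sum fun k hk => tau_pt ?_
    have hk' := mem_range.1 hk
    have h := hT (1802 + k) (by omega)
    have e1 : (((1802 + k : ℕ) : ℤ) - 1301) = 501 + (k : ℤ) := by push_cast; ring
    have e2 : (TT.drop 1802).getD k 0 = TT.getD (1802 + k) 0 := by
      simp only [List.getD_eq_getElem?_getD, List.getElem?_drop]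
    rw [e1] at h
    rw [e2]
    exact h
  rw [← sum_div, ← Nat.cast_sum, tau_sum] at h1
  have h2 : ((tau_S 1300 (TT.drop 1802) : ℕ) : ℝ) ≤ ((87980000000000000000 : ℕ) : ℝ) :=
    Nat.cast_le.2 tau_cert
  generalize ((tau_S 1300 (TT.drop 1802) : ℕ) : ℝ) = s at h1 h2
  refine h1.trans ?_
  norm_num at h2 ⊢
  linarith

theorem tau_pow : (0.9936 : ℝ) ^ 3600 ≤ 1 / 10 ^ 10 := by
  have h1 : (0.9936 : ℝ) ^ 100 ≤ 0.5263 := by norm_num
  have h2 : ((0.9936 : ℝ) ^ 100) ^ 36 ≤ 0.5263 ^ 36 := pow_le_pow_left₀ (by positivity) h1 36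
  rw [← pow_mul] at h2
  exact h2.trans (by norm_num)

theorem tau_geo (q : ℝ) (h0 : 0 ≤ q) (h1 : q ≤ 0.9873) (t : ℕ) : ∑ k ∈ range t, q ^ k ≤ 79 := by
  induction t with
  | zero => simp
  | succ t ih =>
    rw [sum_range_succ', pow_zero]
    have : ∑ k ∈ range t, q ^ (k + 1) = q * ∑ k ∈ range t, q ^ k := by
      rw [mul_sum]; exact sum_congr rfl fun k _ => by ring
    rw [this]
    have h3 : 0 ≤ ∑ k ∈ range t, q ^ k := sum_nonneg fun k _ => pow_nonneg h0 k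
    nlinarith

theorem tau_far {D : Dat} (hD : D.Good) (t : ℕ) :
    ∑ k ∈ range t, D.y (501 + ((1300 + k : ℕ) : ℤ)) ^ 2 ≤ 2 / 10 ^ 7 := by
  obtain ⟨q, hq⟩ : ∃ q : ℝ, q = 0.9936 := ⟨_, rfl⟩
  have q0 : 0 ≤ q := by rw [hq]; norm_num
  have q1 : q ≤ 1 := by rw [hq]; norm_num
  have q2 : q ^ 2 ≤ 0.9873 := by rw [hq]; norm_num
  have qp : q ^ 3600 ≤ 1 / 10 ^ 10 := by rw [hq]; exact tau_pow
  have h1 : ∀ k ∈ range t, D.y (501 + ((1300 + k : ℕ) : ℤ)) ^ 2 ≤ 25 / 10 ^ 10 * (q ^ 2) ^ k := by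
    intro k _
    have h := hD.dec (1801 + k) (by omega)
    have e1 : (501 + ((1300 + k : ℕ) : ℤ)) = ((1801 + k : ℕ) : ℤ) := by push_cast; ring
    rw [← hq] at h
    rw [e1, ← sq_abs]
    have h3 := pow_le_pow_left₀ (abs_nonneg _) h 2
    refine h3.trans ?_
    have e2 : (5 * q ^ (1801 + k)) ^ 2 = 25 * (q ^ 3600 * q ^ 2) * (q ^ 2) ^ k := by
      rw [mul_pow, ← pow_mul, ← pow_mul, ← pow_add, mul_assoc, ← pow_add]
      congr 1
      · norm_num
      · congr 1; omega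
    rw [e2]
    have h4 : q ^ 3600 * q ^ 2 ≤ 1 / 10 ^ 10 * 1 :=
      mul_le_mul qp (q2.trans (by norm_num)) (pow_nonneg q0 2) (by norm_num)
    have h5 : 0 ≤ (q ^ 2) ^ k := pow_nonneg (pow_nonneg q0 2) k
    generalize q ^ 3600 * q ^ 2 = s at h4
    refine mul_le_mul_of_nonneg_right ?_ h5
    linarith
  refine (sum_le_sum h1).trans ?_
  rw [← mul_sum]
  have := tau_geo (q ^ 2) (pow_nonneg q0 2) q2 t
  linarith

theorem rowTau : RowTau := by
  intro D hD hT F hF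
  obtain ⟨M, hM⟩ := F.bddAbove
  have hsub : F ⊆ (range (1300 + M.toNat)).image fun k : ℕ => (501 + (k : ℤ)) := by
    intro m hm
    have h1 := hF m hm
    have h2 : m ≤ M := hM hm
    refine mem_image.2 ⟨(m - 501).toNat, mem_range.2 ?_, ?_⟩ <;> omega
  refine (sum_le_sum_of_subset_of_nonneg hsub fun m _ _ => sq_nonneg _).trans ?_
  rw [sum_image fun a _ b _ h => by simpa using h, sum_range_add]
  have h1 := tau_near hT
  have h2 := tau_far hD M.toNat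
  linarith

end Vale.Agent.Q105
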