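import Vale.Agent.Q105.Defs

/-!
# Row W: the bilinear bounds follow from the Gram bound
-/

open MeasureTheory Real Filter Topology Finset
open scoped ENNReal

namespace Vale.Agent.Q105

open Vale.Agent.P105

/-- upper bound for `2 ^ 40 * |cos (π z / 10 ^ 5)|` -/
def w72_cz (z : ℤ) : ℕ :=
  cosU (Nat.sub (red (((z + 200000).toNat * 1099511627776) / 100000)) 1)

/-- numerator of the bound of one factor -/
def w72_F (z : ℤ) : ℕ := w72_cz z * 1000747039 + 54664000 * w72_cz (z - 50000)

/-- denominator of the bound of one factor -/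
def w72_den : ℕ := 1099511627776 * 998505900

theorem w72_cz_spec (hC : RowC) (z : ℤ) (hz : -200000 ≤ z) :
    |cos (π * ((z : ℝ) / 10 ^ 5))| ≤ (w72_cz z : ℝ) / 2 ^ 40 := by
  obtain ⟨m, hm⟩ : ∃ m : ℕ, (m : ℤ) = z + 200000 := ⟨(z + 200000).toNat, by omega⟩
  have hm' : (z + 200000).toNat = m := by omega
  have hz' : (z : ℝ) = (m : ℝ) - 200000 := by
    have : (m : ℝ) = (z : ℝ) + 200000 := by exact_mod_cast hm
    linarith
  unfold w72_cz
  rw [hm']
  refine (hC (m * 1099511627776 / 100000) 1 2 _ (by norm_num) ?_).1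
  have h1 : (m * 1099511627776 / 100000) * 100000 ≤ m * 1099511627776 := Nat.div_mul_le_self _ _
  have h2 : m * 1099511627776 < (m * 1099511627776 / 100000 + 1) * 100000 := by omega
  have h1' : ((m * 1099511627776 / 100000 : ℕ) : ℝ) * 100000 ≤ (m : ℝ) * 1099511627776 := by
    exact_mod_cast h1
  have h2' : (m : ℝ) * 1099511627776 <
      (((m * 1099511627776 / 100000 : ℕ) : ℝ) + 1) * 100000 := by exact_mod_cast h2
  rw [hz', abs_le]
  generalize ((m * 1099511627776 / 100000 : ℕ) : ℝ) = q at h1' h2'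
  push_cast
  constructor <;> linarith

theorem w72_fac (hC : RowC) (z : ℤ) (hz : -150000 ≤ z) :
    (|cos (π * ((z : ℝ) / 10 ^ 5))| * (1 + (π * 0.0087) ^ 2) +
      2 * (π * 0.0087) * |sin (π * ((z : ℝ) / 10 ^ 5))|) / cos (2 * π * 0.0087) ≤
      (w72_F z : ℝ) / w72_den := by
  have h1 := w72_cz_spec hC z (by omega)
  have h2 := w72_cz_spec hC (z - 50000) (by omega)
  have e : π * (((z - 50000 : ℤ) : ℝ) / 10 ^ 5) = π * ((z : ℝ) / 10 ^ 5) - π / 2 := by
    push_cast; ring
  rw [e, cos_sub_pi_div_two] at h2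
  have hp : π * 0.0087 ≤ 0.027332 := by have := pi_lt_d6; linarith
  have hp0 : 0 ≤ π * 0.0087 := by positivity
  have hsq : (π * 0.0087) ^ 2 ≤ 0.027332 ^ 2 := pow_le_pow_left₀ hp0 hp 2
  have hc : 0.9985059 ≤ cos (2 * π * 0.0087) := by
    have := one_sub_sq_div_two_le_cos (x := 2 * π * 0.0087)
    have e2 : (2 * π * 0.0087) ^ 2 = 4 * (π * 0.0087) ^ 2 := by ring
    rw [e2] at this
    norm_num at hsq this ⊢
    linarith
  have hn : |cos (π * ((z : ℝ) / 10 ^ 5))| * (1 + (π * 0.0087) ^ 2) +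
      2 * (π * 0.0087) * |sin (π * ((z : ℝ) / 10 ^ 5))| ≤
      (w72_cz z : ℝ) / 2 ^ 40 * 1.000747039 + 0.054664 * ((w72_cz (z - 50000) : ℝ) / 2 ^ 40) := by
    refine add_le_add (mul_le_mul h1 (by norm_num at hsq ⊢; linarith) (by positivity)
      ((abs_nonneg _).trans h1)) (mul_le_mul (by linarith) h2 (abs_nonneg _) (by norm_num))
  refine (div_le_div₀ (le_trans (by positivity) hn) hn (by norm_num) hc).trans (le_of_eq ?_)
  unfold w72_F w72_den
  push_cast
  generalize (w72_cz z : ℝ) = a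
  generalize (w72_cz (z - 50000) : ℝ) = b
  field_simp
  ring

/-- certified upper bounds, sums of the centres -/
def w72_P : List ℕ := [5179, 4071, 1196, 331, 5319, 1922, 1090, 3740, 2078, 1924, 2953, 2228, 2294]

/-- certified upper bounds, differences of the centres -/
def w72_M : List ℕ := [100000, 4182, 1244, 4107, 174, 1783, 3702, 1195, 2494, 2832, 1877, 2570, 2555]

theorem w72_yh : ∀ i < 37, -20000 ≤ yh.getD i 0 ∧ yh.getD i 0 ≤ 70000 := by decide +kernel

theorem w72_chkP : ∀ d < 13, (∏ t ∈ range (13 + d),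
    w72_F (yh.getD (12 + t) 0 + yh.getD (12 + t - d) 0)) * 100000 ≤
      w72_P.getD d 0 * w72_den ^ (13 + d) := by decide +kernel

theorem w72_chkM : ∀ d < 13, 1 ≤ d → (∏ t ∈ range (13 + d),
    w72_F (yh.getD (12 + t) 0 - yh.getD (12 + t - d) 0)) * 100000 ≤
      w72_M.getD d 0 * w72_den ^ (13 + d) := by decide +kernel

theorem w72_prod (hC : RowC) (n W : ℕ) (z : ℕ → ℤ) (hz : ∀ t < n, -150000 ≤ z t)
    (h : (∏ t ∈ range n, w72_F (z t)) * 100000 ≤ W * w72_den ^ n) (k : ℕ) (hk : n ≤ k + 1)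
    (C : ℕ → ℝ) (hCz : ∀ t < n, C (k - t) = (z t : ℝ) / 10 ^ 5) :
    wf 0.0087 ((range n).image fun t => k - t) C ≤ (W : ℝ) / 100000 := by
  unfold wf
  rw [prod_image (by
    intro a ha b hb hab
    simp only [coe_range, Set.mem_Iio] at ha hb
    simp only at hab
    omega)]
  have hcos : 0 < cos (2 * π * 0.0087) := by
    refine cos_pos_of_mem_Ioo ⟨?_, ?_⟩ <;> nlinarith [pi_pos]
  refine (prod_le_prod (g := fun t => (w72_F (z t) : ℝ) / w72_den) (fun t _ => by positivity)
    (fun t ht => ?_)).trans ?_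
  · rw [hCz t (mem_range.1 ht)]
    exact w72_fac hC _ (hz t (mem_range.1 ht))
  · have hd : (0 : ℝ) < w72_den := by unfold w72_den; norm_num
    rw [prod_div_distrib, prod_const, card_range, div_le_div_iff₀ (by positivity) (by norm_num)]
    exact_mod_cast h

/-- the weights -/
noncomputable def w72_w (d : ℕ) : ℝ :=
  if d < 13 then ((w72_P.getD d 0 : ℝ) / 100000 + (w72_M.getD d 0 : ℝ) / 100000) / 2 else 1

theorem w72_w0 (d : ℕ) : 0 ≤ w72_w d := by
  unfold w72_w; split_ifs <;> positivity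

theorem w72_Kr0 {r : ℝ} (h : 0 ≤ r) : 0 ≤ Kr r :=
  div_nonneg h (by nlinarith [sq_nonneg (r - 1 / 2)])

theorem w72_sum (n : ℕ) :
    w72_w 0 + 2 * ∑ d ∈ range n, w72_w (d + 1) * Kr (0.54369 ^ (d + 1)) ≤ 0.617 := by
  have h1 : ∑ d ∈ range n, w72_w (d + 1) * Kr (0.54369 ^ (d + 1)) ≤
      ∑ d ∈ range (12 + n), w72_w (d + 1) * Kr (0.54369 ^ (d + 1)) :=
    sum_le_sum_of_subset_of_nonneg (range_subset_range.2 (by omega))
      fun d _ _ => mul_nonneg (w72_w0 _) (w72_Kr0 (by positivity))
  rw [sum_range_add] at h1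
  have h2 : ∑ t ∈ range n, w72_w (12 + t + 1) * Kr (0.54369 ^ (12 + t + 1)) ≤
      ∑ t ∈ range n, 0.0004 * (0.54369 : ℝ) ^ t := by
    refine sum_le_sum fun t _ => ?_
    have e : w72_w (12 + t + 1) = 1 := by unfold w72_w; rw [if_neg (by omega)]
    have hr : (0.54369 : ℝ) ^ (12 + t + 1) = 0.54369 ^ 13 * 0.54369 ^ t := by ring
    have ht : (0.54369 : ℝ) ^ t ≤ 1 := pow_le_one₀ (by norm_num) (by norm_num)
    have ht0 : (0 : ℝ) < 0.54369 ^ t := by positivity
    have h13 : (0.54369 : ℝ) ^ 13 ≤ 0.00037 := by norm_num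
    have h130 : (0 : ℝ) < 0.54369 ^ 13 := by positivity
    rw [e, one_mul, hr]
    generalize (0.54369 : ℝ) ^ t = s at ht ht0
    generalize (0.54369 : ℝ) ^ 13 = q at h13 h130
    have hqs : q * s ≤ 0.00037 := by nlinarith
    have hqs' : q * s ≤ 0.00037 * s := by nlinarith
    unfold Kr
    rw [div_le_iff₀ (by nlinarith [sq_nonneg (q * s)])]
    nlinarith [sq_nonneg (q * s), mul_nonneg ht0.le (sq_nonneg (q * s))]
  have h3 : ∑ t ∈ range n, (0.54369 : ℝ) ^ t ≤ (1 - 0.54369)⁻¹ := by
    rw [← tsum_geometric_of_lt_one (by norm_num) (by norm_num)]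
    exact (summable_geometric_of_lt_one (by norm_num) (by norm_num)).sum_le_tsum _
      fun _ _ => by positivity
  rw [← mul_sum] at h2
  have h4 : w72_w 0 + 2 * ∑ d ∈ range 12, w72_w (d + 1) * Kr (0.54369 ^ (d + 1)) ≤ 0.6128 := by
    simp only [sum_range_succ, sum_range_zero, w72_w, w72_P, w72_M, Kr]
    norm_num
  norm_num at h3
  linarith

theorem rowW72 (hB : RowB) (hC : RowC) : RowW := by
  intro D J _ Φ Λ hs hG hk0 hv
  have hΛ : 0 ≤ Λ := le_trans (sum_nonneg fun j _ => sum_nonneg fun j' _ =>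
    mul_nonneg (mul_nonneg (Φ.h0 j) (Φ.h0 j')) (abs_nonneg _)) (hG Φ.k0 le_rfl)
  refine ⟨fun d => Λ * w72_w d, ?_, fun d => mul_nonneg hΛ (w72_w0 d), fun n => ?_⟩
  · intro k d hk u u' p p' hp hp' hu hu'
    have hpp : 0 ≤ p * p' := mul_nonneg hp hp'
    by_cases hd : d < 13
    · have key : ∀ S' : Finset ℕ, S' ⊆ (range (13 + d)).image (fun t => k + d - 24 - t) → _ :=
        fun S' hS' => hB J Φ.h (Φ.a (k + d)) (Φ.a k)
          ((range (13 + d)).image fun t => k + d - 24 - t) S'
          (fun i => (yh.getD (k + d - 12 - i) 0 : ℝ) / 10 ^ 5)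
          (fun i => (yh.getD (k - 12 - i) 0 : ℝ) / 10 ^ 5) 0.0087 Λ p p' u u' Φ.h0 (hs _) (hs _)
          (by norm_num) (by norm_num) hp hp'
          (fun j i hi => by
            rw [union_eq_left.2 hS'] at hi
            obtain ⟨t, ht, rfl⟩ := mem_image.1 hi
            have ht' := mem_range.1 ht
            have := hv j (12 + t) (by omega)
            have e1 : k + d - 12 - (k + d - 24 - t) = 12 + t := by omega
            have e2 : ((k + d : ℕ) : ℤ) - ((k + d - 24 - t : ℕ) : ℤ) = ((12 + (12 + t) : ℕ) : ℤ) := by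
              omega
            simp only [Fam.a, e1, e2]
            exact this)
          (fun j i hi => by
            rw [union_eq_left.2 hS'] at hi
            obtain ⟨t, ht, rfl⟩ := mem_image.1 hi
            have ht' := mem_range.1 ht
            have := hv j (12 + t - d) (by omega)
            have e1 : k - 12 - (k + d - 24 - t) = 12 + t - d := by omega
            have e2 : ((k : ℕ) : ℤ) - ((k + d - 24 - t : ℕ) : ℤ) =
                ((12 + (12 + t - d) : ℕ) : ℤ) := by omega
            simp only [Fam.a, e1, e2]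
            exact this)
          (hG _ (by omega)) (hG _ hk) hu hu'
      have hP := w72_prod hC (13 + d) _ _ (fun t ht => by
          have := w72_yh (12 + t) (by omega)
          have := w72_yh (12 + t - d) (by omega)
          omega) (w72_chkP d hd) (k + d - 24) (by omega)
        ((fun i => (yh.getD (k + d - 12 - i) 0 : ℝ) / 10 ^ 5) +
          fun i => (yh.getD (k - 12 - i) 0 : ℝ) / 10 ^ 5) (fun t ht => by
          have e1 : k + d - 12 - (k + d - 24 - t) = 12 + t := by omega
          have e2 : k - 12 - (k + d - 24 - t) = 12 + t - d := by omega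
          simp only [Pi.add_apply, e1, e2]
          push_cast
          ring)
      rcases Nat.eq_zero_or_pos d with rfl | hd1
      · refine (key ∅ (empty_subset _)).trans (mul_le_mul_of_nonneg_left ?_ hpp)
        have e : w72_w 0 = ((w72_P.getD 0 0 : ℝ) / 100000 + 1) / 2 := by
          simp [w72_w, w72_M]
        have e' : ∀ C, wf 0.0087 ∅ C = 1 := fun C => by simp [wf]
        simp only [e, e']
        nlinarith [mul_le_mul_of_nonneg_left hP hΛ]
      · have hM := w72_prod hC (13 + d) _ _ (fun t ht => by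
            have := w72_yh (12 + t) (by omega)
            have := w72_yh (12 + t - d) (by omega)
            omega) (w72_chkM d hd hd1) (k + d - 24) (by omega)
          ((fun i => (yh.getD (k + d - 12 - i) 0 : ℝ) / 10 ^ 5) -
            fun i => (yh.getD (k - 12 - i) 0 : ℝ) / 10 ^ 5) (fun t ht => by
            have e1 : k + d - 12 - (k + d - 24 - t) = 12 + t := by omega
            have e2 : k - 12 - (k + d - 24 - t) = 12 + t - d := by omega
            simp only [Pi.sub_apply, e1, e2]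
            push_cast
            ring)
        refine (key _ subset_rfl).trans (mul_le_mul_of_nonneg_left ?_ hpp)
        simp only [w72_w, if_pos hd]
        nlinarith [mul_le_mul_of_nonneg_left hP hΛ, mul_le_mul_of_nonneg_left hM hΛ]
    · refine (hB J Φ.h (Φ.a (k + d)) (Φ.a k) ∅ ∅ 0 0 0 Λ p p' u u' Φ.h0 (hs _) (hs _) le_rfl
        (by norm_num) hp hp' (by simp) (by simp) (hG _ (by omega)) (hG _ hk) hu hu').trans
        (le_of_eq ?_)
      simp only [wf, prod_empty, w72_w, if_neg hd]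
      ring
  · have := mul_le_mul_of_nonneg_left (w72_sum n) hΛ
    simp only [mul_assoc, ← mul_sum]
    linarith

end Vale.Agent.Q105
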