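import Vale.Agent.Q105.Fin
import Vale.Agent.Q105.A
import Vale.Agent.Q105.B33
import Vale.Agent.Q105.C82
import Vale.Agent.Q105.CF
import Vale.Agent.Q105.E0
import Vale.Agent.Q105.G
import Vale.Agent.Q105.H
import Vale.Agent.Q105.I
import Vale.Agent.Q105.K
import Vale.Agent.Q105.K151
import Vale.Agent.Q105.K2
import Vale.Agent.Q105.L
import Vale.Agent.Q105.N28
import Vale.Agent.Q105.S
import Vale.Agent.Q105.T1
import Vale.Agent.Q105.T2
import Vale.Agent.Q105.T3
import Vale.Agent.Q105.T40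
import Vale.Agent.Q105.Tau
import Vale.Agent.Q105.W72

/-!
# All rows together: the singularity follows from the finite certificate
-/

open MeasureTheory

namespace Vale.Agent.Q105

open Vale.Agent.P105

theorem sing31_pre (hC : RowCert) {b : ℝ} (h0 : 0 < b)
    (hb : b ^ 33 - b ^ 32 - b ^ 31 - b ^ 30 - 1 = 0) :
    IsIntegral ℤ b ∧ (minpoly ℚ b).natDegree = 31 ∧ ¬ Salem.IsPisot b ∧ ¬ Salem.IsSalem b ∧
      bernConv b⁻¹ ⟂ₘ volume :=
  sing31_of_rows rowT1 rowT2 rowT3 rowT40 rowN28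
    (rowA rowCF rowH (rowE0 rowCF) rowK (rowS rowCF) rowN28) (rowW72 (rowB33 rowCF) rowC82)
    (rowG_ok rowCF (rowK2 (rowK151 (rowL rowCF rowI) rowC82) rowTau)) hC h0 hb

end Vale.Agent.Q105
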