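import Vale.Agent.Q105.Defs

/-!
# Row N: the characters of a family as functions of the two coordinates
-/

open MeasureTheory Real Filter Topology Finset

namespace Vale.Agent.Q105

open Vale.Agent.P105

lemma n_abs_sgn (b : Bool) : |sgn b| = 1 := by cases b <;> simp [sgn]

lemma n_norm_sgn (b : Bool) : ‖(sgn b : ℂ)‖ = 1 := by
  rw [Complex.norm_real, Real.norm_eq_abs, n_abs_sgn]

lemma n_gpos {b : ℝ} {γ : ℂ} (h : Outer b γ) : 10000 / 9999 ≤ ‖γ‖ := by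
  have h1 := h.n1
  have h0 := norm_nonneg γ
  by_contra hc
  push Not at hc
  have : ‖γ‖ ^ 2 ≤ (10000 / 9999 : ℝ) ^ 2 := pow_le_pow_left₀ h0 hc.le 2
  norm_num at this h1
  linarith

lemma n_ginv {b : ℝ} {γ : ℂ} (h : Outer b γ) : ‖γ⁻¹‖ ≤ 9999 / 10000 := by
  have h1 := n_gpos h
  rw [norm_inv]
  calc ‖γ‖⁻¹ ≤ (10000 / 9999 : ℝ)⁻¹ := inv_anti₀ (by norm_num) h1
    _ = 9999 / 10000 := by norm_num

lemma n_binv {b : ℝ} {γ : ℂ} (h : Outer b γ) : ‖b⁻¹‖ < 1 := by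
  have h1 := h.b1
  have hb : (1 : ℝ) < b := by linarith
  rw [Real.norm_eq_abs, abs_of_pos (by positivity)]
  exact inv_lt_one_of_one_lt₀ hb

lemma n_sumC {z : ℂ} (hz : ‖z‖ < 1) (ω : ℕ → Bool) :
    Summable fun i => (sgn (ω i) : ℂ) * z ^ i :=
  Summable.of_norm_bounded (summable_geometric_of_lt_one (norm_nonneg z) hz) fun i => by
    rw [norm_mul, n_norm_sgn, one_mul, norm_pow]

lemma n_sumR {x : ℝ} (hx : ‖x‖ < 1) (ω : ℕ → Bool) :
    Summable fun i => sgn (ω i) * x ^ i :=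
  Summable.of_norm_bounded (summable_geometric_of_lt_one (norm_nonneg x) hx) fun i => by
    rw [norm_mul, Real.norm_eq_abs, n_abs_sgn, one_mul, norm_pow]

lemma n_meas {z : ℂ} (hz : ‖z‖ < 1) :
    Measurable fun ω : ℕ → Bool => ∑' i, (sgn (ω i) : ℂ) * z ^ i := by
  refine measurable_of_tendsto_metrizable
    (f := fun n (ω : ℕ → Bool) => ∑ i ∈ range n, (sgn (ω i) : ℂ) * z ^ i) (fun n => ?_) ?_
  · refine Finset.measurable_sum _ fun i _ => ?_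
    have h1 : Measurable fun b : Bool => (sgn b : ℂ) * z ^ i := measurable_from_top
    exact h1.comp (measurable_pi_apply i)
  · exact tendsto_pi_nhds.2 fun ω => (n_sumC hz ω).hasSum.tendsto_sum_nat

lemma n_bound {z : ℂ} (hz : ‖z‖ ≤ 9999 / 10000) (ω : ℕ → Bool) :
    ‖∑' i, (sgn (ω i) : ℂ) * z ^ i‖ ≤ 10000 := by
  have h1 : ‖z‖ < 1 := by linarith
  have h2 := hasSum_geometric_of_lt_one (norm_nonneg z) h1
  have h3 : ‖∑' i, (sgn (ω i) : ℂ) * z ^ i‖ ≤ (1 - ‖z‖)⁻¹ :=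
    tsum_of_norm_bounded h2 fun i => by rw [norm_mul, n_norm_sgn, one_mul, norm_pow]
  refine h3.trans ?_
  calc (1 - ‖z‖)⁻¹ ≤ (1 / 10000 : ℝ)⁻¹ := inv_anti₀ (by norm_num) (by linarith)
    _ = 10000 := by norm_num

lemma n_ei_add (x y : ℝ) : ei (x + y) = ei x * ei y := by
  unfold ei
  rw [← Complex.exp_add]
  congr 1
  push_cast
  ring

lemma n_ei_int (x : ℝ) (m : ℤ) : ei (x + 2 * π * m) = ei x := by
  unfold ei
  have h : ((x + 2 * π * m : ℝ) : ℂ) * Complex.I =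
      x * Complex.I + m * (2 * π * Complex.I) := by
    push_cast
    ring
  rw [h, Complex.exp_add, Complex.exp_int_mul_two_pi_mul_I, mul_one]

lemma n_form {D : Dat} (hD : D.Good) {J : Type} [Fintype J] (Φ : Fam D J) (k : ℕ) (j : J)
    (i : ℕ) : Φ.a k j i = D.c * Φ.Wb j * D.b ^ k * D.b⁻¹ ^ i +
      (2 * D.r * Φ.Wg j * D.γ ^ k * D.γ⁻¹ ^ i).re - Φ.n j ((k : ℤ) - i) := by
  have hb : D.b ≠ 0 := by
    have := hD.out.b1
    intro h
    rw [h] at this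
    norm_num at this
  have hg : D.γ ≠ 0 := by
    have := n_gpos hD.out
    intro h
    rw [h] at this
    norm_num at this
  unfold Fam.a
  rw [Φ.hv, zpow_sub₀ hb, zpow_sub₀ hg, zpow_natCast, zpow_natCast, zpow_natCast, zpow_natCast]
  have h : 2 * D.r * Φ.Wg j * D.γ ^ k * D.γ⁻¹ ^ i =
      ((2 : ℝ) : ℂ) * (D.r * Φ.Wg j * (D.γ ^ k / D.γ ^ i)) := by
    rw [div_eq_mul_inv, inv_pow]
    push_cast
    ring
  rw [h, Complex.re_ofReal_mul, div_eq_mul_inv, inv_pow]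
  ring

lemma n_zero {D : Dat} {J : Type} [Fintype J] (Φ : Fam D J) (k : ℕ) (j : J) (i : ℕ)
    (hi : i ∉ range k) : ((Φ.n j ((k : ℤ) - i) : ℤ) : ℝ) = 0 := by
  rw [Finset.mem_range, not_lt] at hi
  rw [Φ.hn j _ (by omega), Int.cast_zero]

theorem rowN (hCF : RowCF) : RowN := by
  have _h := hCF.1
  intro D hD J _ Φ
  have hg := n_ginv hD.out
  have hg1 : ‖D.γ⁻¹‖ < 1 := by linarith
  have hb1 := n_binv hD.out
  refine ⟨fun k j => ?_, n_meas hg1, n_bound hg, fun k j => ?_⟩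
  · have h1 : Summable fun i : ℕ => D.c * Φ.Wb j * D.b ^ k * D.b⁻¹ ^ i :=
      (summable_geometric_of_norm_lt_one hb1).mul_left _
    have h2 : Summable fun i : ℕ => (2 * D.r * Φ.Wg j * D.γ ^ k * D.γ⁻¹ ^ i).re :=
      (Complex.hasSum_re ((summable_geometric_of_norm_lt_one hg1).mul_left
        (2 * D.r * Φ.Wg j * D.γ ^ k)).hasSum).summable
    have h3 : Summable fun i : ℕ => ((Φ.n j ((k : ℤ) - i) : ℤ) : ℝ) :=
      summable_of_ne_finset_zero (s := range k) fun i hi => n_zero Φ k j i hi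
    exact ((h1.add h2).sub h3).congr fun i => (n_form hD Φ k j i).symm
  · refine ⟨π * ∑ i ∈ range k, ((Φ.n j ((k : ℤ) - i) : ℤ) : ℝ), fun ω => ?_⟩
    have h1 := ((n_sumR hb1 ω).hasSum).mul_left (D.c * Φ.Wb j * D.b ^ k)
    have h2 := Complex.hasSum_re
      (((n_sumC hg1 ω).hasSum).mul_left (2 * D.r * Φ.Wg j * D.γ ^ k))
    have h3 : HasSum (fun i : ℕ => sgn (ω i) * ((Φ.n j ((k : ℤ) - i) : ℤ) : ℝ))
        (∑ i ∈ range k, sgn (ω i) * ((Φ.n j ((k : ℤ) - i) : ℤ) : ℝ)) :=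
      hasSum_sum_of_ne_finset_zero fun i hi => by rw [n_zero Φ k j i hi, mul_zero]
    have h4 := (h1.add h2).sub h3
    have h5 : (fun i => sgn (ω i) * Φ.a k j i) = fun i =>
        D.c * Φ.Wb j * D.b ^ k * (sgn (ω i) * D.b⁻¹ ^ i) +
          (2 * D.r * Φ.Wg j * D.γ ^ k * ((sgn (ω i) : ℂ) * D.γ⁻¹ ^ i)).re -
          sgn (ω i) * ((Φ.n j ((k : ℤ) - i) : ℤ) : ℝ) := by
      funext i
      have e : 2 * D.r * Φ.Wg j * D.γ ^ k * ((sgn (ω i) : ℂ) * D.γ⁻¹ ^ i) =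
          (sgn (ω i) : ℂ) * (2 * D.r * Φ.Wg j * D.γ ^ k * D.γ⁻¹ ^ i) := by ring
      rw [n_form hD, e, Complex.re_ofReal_mul]
      ring
    rw [← h5] at h4
    have h6 := h4.tsum_eq
    have h7 : ∑ i ∈ range k, sgn (ω i) * ((Φ.n j ((k : ℤ) - i) : ℤ) : ℝ) =
        ∑ i ∈ range k, ((Φ.n j ((k : ℤ) - i) : ℤ) : ℝ) -
          2 * ((∑ i ∈ range k, (if ω i then 0 else Φ.n j ((k : ℤ) - i)) : ℤ) : ℝ) := by
      rw [Int.cast_sum, Finset.mul_sum, ← Finset.sum_sub_distrib]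
      refine Finset.sum_congr rfl fun i _ => ?_
      cases ω i
      · simp only [sgn, Bool.false_eq_true, if_false]
        ring
      · simp [sgn]
    have e : 2 * (π : ℂ) * D.r * Φ.Wg j * D.γ ^ k * ∑' i, (sgn (ω i) : ℂ) * D.γ⁻¹ ^ i =
        (π : ℂ) * (2 * D.r * Φ.Wg j * D.γ ^ k * ∑' i, (sgn (ω i) : ℂ) * D.γ⁻¹ ^ i) := by ring
    unfold chi ph
    rw [← n_ei_add, e, Complex.re_ofReal_mul, h6, h7]
    refine Eq.trans ?_ (n_ei_int _ (∑ i ∈ range k, (if ω i then 0 else Φ.n j ((k : ℤ) - i))))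
    congr 1
    ring

end Vale.Agent.Q105
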