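import Vale.Agent.Q105.Defs

/-!
# A root of `F` near a point where the Newton step is small
-/

open Polynomial

namespace Vale.Agent.Q105

/-- `F` as a polynomial -/
noncomputable def t1_P : ℂ[X] := X ^ 33 - X ^ 32 - X ^ 31 - X ^ 30 - 1

theorem t1_monic : t1_P.Monic := by rw [t1_P]; monicity!

theorem t1_deg : t1_P.natDegree = 33 := by rw [t1_P]; compute_degree!

theorem t1_eval (z : ℂ) : t1_P.eval z = FF z := by
  simp only [t1_P, FF, eval_sub, eval_pow, eval_X, eval_one]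

theorem t1_eval' (z : ℂ) :
    t1_P.derivative.eval z = 33 * z ^ 32 - 32 * z ^ 31 - 31 * z ^ 30 - 30 * z ^ 29 := by
  simp only [t1_P, derivative_sub, derivative_X_pow, derivative_one, eval_sub, eval_mul, eval_C,
    eval_pow, eval_X, eval_zero, sub_zero]
  norm_num

theorem t1_card : t1_P.roots.card = 33 := by
  rw [← (IsAlgClosed.splits t1_P).natDegree_eq_card_roots, t1_deg]

theorem t1_mem {z : ℂ} : z ∈ t1_P.roots ↔ FF z = 0 := by
  rw [mem_roots t1_monic.ne_zero, IsRoot.def, t1_eval]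

theorem t1_sum_le (z : ℂ) (R : ℝ) (hR : 0 < R) (s : Multiset ℂ) (h : ∀ r ∈ s, R ≤ ‖r - z‖) :
    ‖(s.map fun r => 1 / (z - r)).sum‖ ≤ s.card / R := by
  induction s using Multiset.induction_on with
  | empty => simp
  | cons a s ih =>
    rw [Multiset.map_cons, Multiset.sum_cons, Multiset.card_cons, Nat.cast_succ, add_div, add_comm]
    refine (norm_add_le _ _).trans (add_le_add (ih fun r hr => h r (Multiset.mem_cons_of_mem hr)) ?_)
    rw [norm_div, norm_one, norm_sub_rev]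
    exact one_div_le_one_div_of_le hR (h a (Multiset.mem_cons_self _ _))

theorem t1_near (z : ℂ) (R : ℝ)
    (h : 33 * ‖FF z‖ < R * ‖33 * z ^ 32 - 32 * z ^ 31 - 31 * z ^ 30 - 30 * z ^ 29‖) :
    ∃ w, FF w = 0 ∧ ‖w - z‖ < R := by
  have hR : 0 < R := by
    by_contra hc
    have h1 := mul_nonpos_of_nonpos_of_nonneg (not_lt.mp hc)
      (norm_nonneg (33 * z ^ 32 - 32 * z ^ 31 - 31 * z ^ 30 - 30 * z ^ 29))
    have h2 := norm_nonneg (FF z)
    linarith
  by_cases h0 : FF z = 0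
  · exact ⟨z, h0, by simpa using hR⟩
  by_contra hc
  have hc' : ∀ r ∈ t1_P.roots, R ≤ ‖r - z‖ := fun r hr =>
    not_lt.mp fun hl => hc ⟨r, t1_mem.mp hr, hl⟩
  have h1 := t1_sum_le z R hR _ hc'
  have h2 := (IsAlgClosed.splits t1_P).eval_derivative_eq_eval_mul_sum (x := z)
    (by rwa [t1_eval])
  rw [t1_eval', t1_eval] at h2
  rw [h2, norm_mul] at h
  rw [t1_card, le_div_iff₀ hR] at h1
  have h3 := mul_le_mul_of_nonneg_left h1 (norm_nonneg (FF z))
  push_cast at h3
  nlinarith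

end Vale.Agent.Q105
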