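import Vale.Agent.Q105.Near
import Vale.Agent.Q105.T4D

/-!
# Row T4: verification of the table
-/

namespace Vale.Agent.Q105

/-- Horner evaluation -/
noncomputable def t4ev : List ℤ → ℂ → ℂ
  | [], _ => 0
  | a :: l, z => a + z * t4ev l z

theorem t4_bound (M : ℝ) (hM : 0 ≤ M) (z w : ℂ) (hz : ‖z‖ ≤ 2) (hw : ‖w‖ ≤ 2) :
    ∀ l : List ℤ, (∀ a ∈ l, |(a : ℝ)| ≤ M) →
      ‖t4ev l z‖ + M ≤ M * 2 ^ l.length ∧
        ‖t4ev l z - t4ev l w‖ ≤ M * 4 ^ l.length * ‖z - w‖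
  | [], _ => by simp [t4ev]; positivity
  | a :: l, h => by
    obtain ⟨h1, h2⟩ := t4_bound M hM z w hz hw l fun x hx => h x (List.mem_cons_of_mem _ hx)
    have ha : ‖(a : ℂ)‖ ≤ M := by
      rw [Complex.norm_intCast]; exact h a List.mem_cons_self
    have hE := norm_nonneg (t4ev l z)
    have hd := norm_nonneg (z - w)
    have h24 : (2 : ℝ) ^ l.length ≤ 4 ^ l.length := pow_le_pow_left₀ (by norm_num) (by norm_num) _
    refine ⟨?_, ?_⟩
    · have : ‖(a : ℂ) + z * t4ev l z‖ ≤ M + 2 * ‖t4ev l z‖ := by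
        refine (norm_add_le _ _).trans (add_le_add ha ?_)
        rw [norm_mul]; exact mul_le_mul_of_nonneg_right hz hE
      simp only [t4ev, List.length_cons, pow_succ]
      linarith
    · have e : t4ev (a :: l) z - t4ev (a :: l) w =
          (z - w) * t4ev l z + w * (t4ev l z - t4ev l w) := by
        simp only [t4ev]; ring
      rw [e]
      refine (norm_add_le _ _).trans ?_
      rw [norm_mul, norm_mul, List.length_cons, pow_succ]
      have h3 : ‖t4ev l z‖ ≤ M * 4 ^ l.length := by nlinarith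
      have h4 : ‖z - w‖ * ‖t4ev l z‖ ≤ ‖z - w‖ * (M * 4 ^ l.length) :=
        mul_le_mul_of_nonneg_left h3 hd
      have h5 : ‖w‖ * ‖t4ev l z - t4ev l w‖ ≤ 2 * (M * 4 ^ l.length * ‖z - w‖) :=
        mul_le_mul hw h2 (norm_nonneg _) (by norm_num)
      have h6 : 0 ≤ M * 4 ^ l.length * ‖z - w‖ := by positivity
      nlinarith

theorem t4_rep (z : ℂ) (l : List ℤ) : ∀ i : ℕ, t4ev (List.replicate i 0 ++ l) z = z ^ i * t4ev l z
  | 0 => by simp
  | i + 1 => by
    rw [List.replicate_succ, List.cons_append, t4ev, t4_rep z l i]; push_cast; ring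

/-- strict evaluation of a natural number -/
def t4f (x : ℕ) (k : ℕ → Bool) : Bool := Nat.rec (k 0) (fun n _ => k (Nat.succ n)) x

theorem t4f_eq (x : ℕ) (k : ℕ → Bool) : t4f x k = k x := by cases x <;> rfl

/-- strict evaluation of an integer -/
noncomputable def t4g (x : ℤ) (k : ℤ → Bool) : Bool :=
  Int.rec (fun n => t4f n fun n => k (Int.ofNat n)) (fun n => t4f n fun n => k (Int.negSucc n)) x

theorem t4g_eq (x : ℤ) (k : ℤ → Bool) : t4g x k = k x := by
  cases x <;> simp only [t4g, t4f_eq]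

/-- exact evaluation at `(u + i v) / S` -/
def t4G (S u v : ℤ) : List ℤ → ℤ × ℤ × ℤ
  | [] => (0, 0, 1)
  | a :: l => (a * S * (t4G S u v l).2.2 + u * (t4G S u v l).1 - v * (t4G S u v l).2.1,
      u * (t4G S u v l).2.1 + v * (t4G S u v l).1, S * (t4G S u v l).2.2)

/-- the same in continuation style -/
noncomputable def t4K (S u v : ℤ) (l : List ℤ) : (ℤ → ℤ → ℤ → Bool) → Bool :=
  List.rec (fun k => k 0 0 1) (fun a _ ih k => ih fun X Y T =>
    t4g (a * S * T + u * X - v * Y) fun X' => t4g (u * Y + v * X) fun Y' =>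
      t4g (S * T) fun T' => k X' Y' T') l

theorem t4K_eq (S u v : ℤ) : ∀ (l : List ℤ) (k : ℤ → ℤ → ℤ → Bool),
    t4K S u v l k = k (t4G S u v l).1 (t4G S u v l).2.1 (t4G S u v l).2.2
  | [], _ => rfl
  | a :: l, k => by
    have := t4K_eq S u v l fun X Y T =>
      t4g (a * S * T + u * X - v * Y) fun X' => t4g (u * Y + v * X) fun Y' =>
        t4g (S * T) fun T' => k X' Y' T'
    simp only [t4g_eq] at this
    simp only [t4G]
    rw [← this]
    simp only [t4K, t4g_eq]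

theorem t4G_T (S u v : ℤ) : ∀ l : List ℤ, (t4G S u v l).2.2 = S ^ l.length
  | [] => by simp [t4G]
  | a :: l => by simp [t4G, t4G_T S u v l, pow_succ, mul_comm]

/-- the point `(u + i v) / S` -/
noncomputable def t4p (S u v : ℤ) : ℂ := ⟨u / S, v / S⟩

theorem t4G_ev (S u v : ℤ) (hS : 0 < S) : ∀ l : List ℤ,
    (t4ev l (t4p S u v)).re = (t4G S u v l).1 / (t4G S u v l).2.2 ∧
      (t4ev l (t4p S u v)).im = (t4G S u v l).2.1 / (t4G S u v l).2.2
  | [] => by simp [t4ev, t4G]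
  | a :: l => by
    obtain ⟨h1, h2⟩ := t4G_ev S u v hS l
    have hS' : (S : ℝ) ≠ 0 := by exact_mod_cast hS.ne'
    have hT : ((t4G S u v l).2.2 : ℝ) ≠ 0 := by
      rw [t4G_T]; exact_mod_cast (pow_pos hS _).ne'
    simp only [t4ev, Complex.add_re, Complex.add_im, Complex.mul_re, Complex.mul_im, h1, h2, t4G,
      Complex.intCast_re, Complex.intCast_im]
    simp only [t4p]
    push_cast
    constructor <;> field_simp <;> ring

/-- the coefficients of `F` -/
def t4F : List ℤ := -1 :: (List.replicate 29 0 ++ [-1, -1, -1, 1])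

/-- the coefficients of `F'` -/
def t4D : List ℤ := List.replicate 29 0 ++ [-30, -31, -32, 33]

theorem t4F_ev (z : ℂ) : t4ev t4F z = FF z := by
  rw [t4F, t4ev, t4_rep]; simp only [t4ev, FF]; push_cast; ring

theorem t4D_ev (z : ℂ) :
    t4ev t4D z = 33 * z ^ 32 - 32 * z ^ 31 - 31 * z ^ 30 - 30 * z ^ 29 := by
  rw [t4D, t4_rep]; simp only [t4ev]; push_cast; ring

/-- the test for a root near `(u + i v) / 2 ^ 2400` -/
noncomputable def t4near (u v : ℤ) : Bool :=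
  t4K (2 ^ 2400) u v t4F fun X Y T => t4K (2 ^ 2400) u v t4D fun X' _ T' =>
    decide (33 * (|X| + |Y|) * T' * 2 ^ 2300 < |X'| * T)

theorem t4_root (u v : ℤ) (h : t4near u v = true) :
    ∃ w, FF w = 0 ∧ ‖w - t4p (2 ^ 2400) u v‖ < 1 / 2 ^ 2300 := by
  apply t1_near
  have hS : (0 : ℤ) < 2 ^ 2400 := by positivity
  rw [t4near, t4K_eq, t4K_eq, decide_eq_true_eq] at h
  obtain ⟨h1, h2⟩ := t4G_ev _ u v hS t4F
  obtain ⟨h3, -⟩ := t4G_ev _ u v hS t4D
  have hT : (0 : ℝ) < ((t4G (2 ^ 2400) u v t4F).2.2 : ℤ) := by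
    rw [t4G_T]; exact_mod_cast pow_pos hS _
  have hT' : (0 : ℝ) < ((t4G (2 ^ 2400) u v t4D).2.2 : ℤ) := by
    rw [t4G_T]; exact_mod_cast pow_pos hS _
  rw [← t4F_ev, ← t4D_ev]
  have a1 := Complex.norm_le_abs_re_add_abs_im (t4ev t4F (t4p (2 ^ 2400) u v))
  have a2 := Complex.abs_re_le_norm (t4ev t4D (t4p (2 ^ 2400) u v))
  rw [h1, h2, abs_div, abs_div, abs_of_pos hT, ← add_div] at a1
  rw [h3, abs_div, abs_of_pos hT'] at a2
  have h' : (33 : ℝ) * (|((t4G (2 ^ 2400) u v t4F).1 : ℝ)| + |((t4G (2 ^ 2400) u v t4F).2.1 : ℝ)|) *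
      ((t4G (2 ^ 2400) u v t4D).2.2 : ℤ) * 2 ^ 2300 <
      |((t4G (2 ^ 2400) u v t4D).1 : ℝ)| * ((t4G (2 ^ 2400) u v t4F).2.2 : ℤ) := by
    have := (Int.cast_lt (R := ℝ)).2 h
    simpa only [Int.cast_mul, Int.cast_add, Int.cast_abs, Int.cast_pow, Int.cast_ofNat] using this
  generalize (|((t4G (2 ^ 2400) u v t4F).1 : ℝ)| + |((t4G (2 ^ 2400) u v t4F).2.1 : ℝ)|) = P at *
  generalize |((t4G (2 ^ 2400) u v t4D).1 : ℝ)| = P' at *
  generalize (((t4G (2 ^ 2400) u v t4F).2.2 : ℤ) : ℝ) = T at *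
  generalize (((t4G (2 ^ 2400) u v t4D).2.2 : ℤ) : ℝ) = T' at *
  have hR : (0 : ℝ) < 2 ^ 2300 := by positivity
  generalize (2 : ℝ) ^ 2300 = R at *
  calc 33 * _ ≤ 33 * (P / T) := by linarith
    _ < 1 / R * (P' / T') := by
      rw [← mul_div_assoc, div_mul_div_comm, div_lt_div_iff₀ hT (mul_pos hR hT')]; linarith
    _ ≤ _ := mul_le_mul_of_nonneg_left a2 (by positivity)

theorem t4_near_b : t4near t4ub 0 = true := by decide +kernel

theorem t4_near_g : t4near t4ug t4vg = true := by decide +kernel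

theorem t4_lo : 18 * 2 ^ 2400 ≤ 10 * t4ub ∧ 10 * t4ub ≤ 19 * 2 ^ 2400 ∧
    -6482 * 2 ^ 2400 ≤ 10000 * t4ug ∧ 10000 * t4ug ≤ -6480 * 2 ^ 2400 ∧
    7616 * 2 ^ 2400 ≤ 10000 * t4vg ∧ 10000 * t4vg ≤ 7618 * 2 ^ 2400 := by decide +kernel

theorem t4_R : (1 : ℝ) / 2 ^ 2300 ≤ 1 / 10 ^ 5 := by
  apply one_div_le_one_div_of_le (by norm_num)
  calc (10 : ℝ) ^ 5 ≤ 2 ^ 20 := by norm_num
    _ ≤ 2 ^ 2300 := pow_le_pow_right₀ (by norm_num) (by norm_num)

theorem t4_co (k u : ℤ) (d : ℤ) (hd : 0 < d) :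
    (k * 2 ^ 2400 ≤ d * u → (k : ℝ) / d ≤ u / ((2 ^ 2400 : ℤ) : ℝ)) ∧
      (d * u ≤ k * 2 ^ 2400 → u / ((2 ^ 2400 : ℤ) : ℝ) ≤ (k : ℝ) / d) := by
  have hS : (0 : ℤ) < 2 ^ 2400 := by positivity
  generalize (2 : ℤ) ^ 2400 = S at *
  have hS' : (0 : ℝ) < S := by exact_mod_cast hS
  have hd' : (0 : ℝ) < d := by exact_mod_cast hd
  constructor <;> intro h
  · rw [div_le_div_iff₀ hd' hS', mul_comm (u : ℝ)]; exact_mod_cast h
  · rw [div_le_div_iff₀ hS' hd', mul_comm (u : ℝ)]; exact_mod_cast h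

theorem t4_pb : 1.8 ≤ (t4p (2 ^ 2400) t4ub 0).re ∧ (t4p (2 ^ 2400) t4ub 0).re ≤ 1.9 ∧
    (t4p (2 ^ 2400) t4ub 0).im = 0 := by
  have h1 := (t4_co 18 t4ub 10 (by norm_num)).1 t4_lo.1
  have h2 := (t4_co 19 t4ub 10 (by norm_num)).2 t4_lo.2.1
  refine ⟨le_trans (by norm_num) h1, le_trans h2 (by norm_num), ?_⟩
  simp only [t4p, Int.cast_zero, zero_div]

theorem t4_pg : -0.6482 ≤ (t4p (2 ^ 2400) t4ug t4vg).re ∧
    (t4p (2 ^ 2400) t4ug t4vg).re ≤ -0.6480 ∧ 0.7616 ≤ (t4p (2 ^ 2400) t4ug t4vg).im ∧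
    (t4p (2 ^ 2400) t4ug t4vg).im ≤ 0.7618 := by
  have h1 := (t4_co (-6482) t4ug 10000 (by norm_num)).1 t4_lo.2.2.1
  have h2 := (t4_co (-6480) t4ug 10000 (by norm_num)).2 t4_lo.2.2.2.1
  have h3 := (t4_co 7616 t4vg 10000 (by norm_num)).1 t4_lo.2.2.2.2.1
  have h4 := (t4_co 7618 t4vg 10000 (by norm_num)).2 t4_lo.2.2.2.2.2
  exact ⟨le_trans (by norm_num) h1, le_trans h2 (by norm_num), le_trans (by norm_num) h3,
    le_trans h4 (by norm_num)⟩

theorem t4_cube {w : ℂ} (h : w ^ 2 + w + 1 = 0) : w.re = -1 / 2 := by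
  have h1 := congrArg Complex.re h
  have h2 := congrArg Complex.im h
  simp only [sq, Complex.add_re, Complex.mul_re, Complex.one_re, Complex.zero_re, Complex.add_im,
    Complex.mul_im, Complex.one_im, Complex.zero_im] at h1 h2
  by_contra hc
  have : w.im = 0 := by
    have : w.im * (2 * w.re + 1) = 0 := by linarith
    rcases mul_eq_zero.1 this with h | h
    · exact h
    · exact absurd (by linarith) hc
  rw [this] at h1; nlinarith [sq_nonneg (w.re + 1 / 2)]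

theorem t4_loc_b {b : ℝ} {γ : ℂ} (H : Roots b γ) :
    ‖(b : ℂ) - t4p (2 ^ 2400) t4ub 0‖ < 1 / 2 ^ 2300 := by
  obtain ⟨w, hw, hd⟩ := t4_root _ _ t4_near_b
  obtain ⟨p1, p2, p3⟩ := t4_pb
  have hR := t4_R
  have h1 := abs_le.1 ((Complex.abs_re_le_norm _).trans (hd.le.trans hR))
  rw [Complex.sub_re] at h1
  have g1 := abs_le.1 H.out.re
  rcases H.all w hw with h | h | h | h | h
  · rwa [← h]
  · rw [h] at h1; linarith [h1.1, g1.2]
  · rw [h, Complex.conj_re] at h1; linarith [h1.1, g1.2]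
  · rw [t4_cube h] at h1; linarith [h1.1]
  · have := (le_abs_self _).trans ((Complex.abs_re_le_norm w).trans h)
    linarith [h1.1]

theorem t4_loc_g {b : ℝ} {γ : ℂ} (H : Roots b γ) :
    ‖γ - t4p (2 ^ 2400) t4ug t4vg‖ < 1 / 2 ^ 2300 := by
  obtain ⟨w, hw, hd⟩ := t4_root _ _ t4_near_g
  obtain ⟨p1, p2, p3, p4⟩ := t4_pg
  have hR := t4_R
  have h1 := abs_le.1 ((Complex.abs_re_le_norm _).trans (hd.le.trans hR))
  have h2 := abs_le.1 ((Complex.abs_im_le_norm _).trans (hd.le.trans hR))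
  rw [Complex.sub_re] at h1
  rw [Complex.sub_im] at h2
  have g1 := abs_le.1 H.out.im
  rcases H.all w hw with h | h | h | h | h
  · rw [h, Complex.ofReal_im] at h2; linarith [h2.1]
  · rwa [← h]
  · rw [h, Complex.conj_im] at h2; linarith [h2.1, g1.1]
  · rw [t4_cube h] at h1; linarith [h1.2]
  · have e := Complex.sq_norm w
    rw [Complex.normSq_apply] at e
    have a1 : 0.6479 ≤ -w.re := by linarith [h1.2]
    have a2 : 0.7615 ≤ w.im := by linarith [h2.1]
    have := norm_nonneg w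
    nlinarith

theorem t4_id (z : ℂ) : t4ev t4A z * (33 * z ^ 32 - 32 * z ^ 31 - 31 * z ^ 30 - 30 * z ^ 29) =
    (t4den : ℂ) * (z ^ 2 + z + 1) + t4ev t4B z * FF z := by
  simp only [t4A, t4B, t4den, t4ev, FF]
  push_cast
  ring

theorem t4_den : 1 ≤ t4den := by decide +kernel

theorem t4_res {z : ℂ} (h : FF z = 0) (h' : z ^ 2 + z + 1 ≠ 0) :
    res z = t4ev t4A z / (t4den : ℂ) := by
  have e := t4_id z
  rw [h, mul_zero, add_zero] at e
  have hd : (t4den : ℂ) ≠ 0 := by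
    have := t4_den
    exact_mod_cast (by omega : t4den ≠ 0)
  have h0 : (33 * z ^ 32 - 32 * z ^ 31 - 31 * z ^ 30 - 30 * z ^ 29) ≠ 0 := by
    intro h0; rw [h0, mul_zero] at e; exact mul_ne_zero hd h' e.symm
  rw [res, div_eq_div_iff h0 hd, e, mul_comm]

/-- the integer parts -/
def t4N (i : ℕ) : ℤ := if i = 30 then 1 else if i = 31 then 2 else if i = 32 then 4 else 0

/-- the test of one starting value -/
noncomputable def t4ini (i : ℕ) : Bool :=
  t4K (2 ^ 2400) t4ub 0 (List.replicate i 0 ++ t4A) fun X _ T =>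
    t4K (2 ^ 2400) t4ug t4vg (List.replicate i 0 ++ t4A) fun X' _ _ =>
      decide (|(X + 2 * X') * 2 ^ 1950 -
        ((t4I.getD i 0 : ℕ) + (t4N i - 1) * 2 ^ 1950) * (t4den * T)| ≤ t4den * T)

theorem t4_ini_all : (List.range 33).all t4ini = true := by decide +kernel

theorem t4_A : t4A.length = 33 ∧ ∀ a ∈ t4A, |a| ≤ 2 ^ 200 := by decide +kernel

theorem t4_lip {z p : ℂ} (hz : ‖z‖ ≤ 1.9) (h : ‖z - p‖ < 1 / 2 ^ 2300) {i : ℕ} (hi : i < 33) :
    |(t4ev (List.replicate i 0 ++ t4A) z).re - (t4ev (List.replicate i 0 ++ t4A) p).re| ≤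
      1 / 2 ^ 1970 := by
  have hp : ‖p‖ ≤ 2 := by
    have := norm_sub_norm_le p z
    rw [norm_sub_rev] at this; linarith only [this, hz, h.le.trans t4_R]
  have hM : ∀ a ∈ List.replicate i (0 : ℤ) ++ t4A, |(a : ℝ)| ≤ 2 ^ 200 := by
    intro a ha
    rcases List.mem_append.1 ha with ha | ha
    · rw [List.eq_of_mem_replicate ha]; simp
    · exact_mod_cast t4_A.2 a ha
  have h1 := (t4_bound (2 ^ 200) (by positivity) z p (by linarith only [hz]) hp _ hM).2
  rw [← Complex.sub_re]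
  refine (Complex.abs_re_le_norm _).trans (h1.trans ?_)
  have h2 : (4 : ℝ) ^ (List.replicate i (0 : ℤ) ++ t4A).length ≤ 2 ^ 130 := by
    rw [List.length_append, List.length_replicate, t4_A.1]
    calc (4 : ℝ) ^ (i + 33) ≤ 4 ^ 65 := pow_le_pow_right₀ (by norm_num) (by omega)
      _ = 2 ^ 130 := by norm_num
  have e : (2 : ℝ) ^ 2300 = 2 ^ 200 * 2 ^ 130 * 2 ^ 1970 := by rw [← pow_add, ← pow_add]
  have a1 : (0 : ℝ) < 2 ^ 200 := by positivity
  have a2 : (0 : ℝ) < 2 ^ 130 := by positivity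
  have a3 : (0 : ℝ) < 2 ^ 1970 := by positivity
  rw [e] at h
  generalize (2 : ℝ) ^ 200 = A at *
  generalize (2 : ℝ) ^ 130 = B at *
  generalize (2 : ℝ) ^ 1970 = C at *
  calc A * _ * ‖z - p‖ ≤ A * B * (1 / (A * B * C)) :=
        mul_le_mul (mul_le_mul_of_nonneg_left h2 a1.le) h.le (norm_nonneg _) (by positivity)
    _ = 1 / C := by field_simp

theorem t4_arith (a a' X X' T d I n S ε : ℝ) (hT : 0 < T) (hd : 1 ≤ d) (hS : 0 < S)
    (hε : 3 * ε * S ≤ 1) (h1 : |a - X / T| ≤ ε) (h2 : |a' - X' / T| ≤ ε)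
    (h3 : |(X + 2 * X') * S - (I + (n - 1) * S) * (d * T)| ≤ d * T) :
    |(a / d + 2 * (a' / d) - n + 1) * S - I| ≤ 2 := by
  have hd0 : 0 < d := by linarith
  have e : (a / d + 2 * (a' / d) - n + 1) * S - I =
      ((a - X / T) + 2 * (a' - X' / T)) * S / d +
        ((X + 2 * X') * S - (I + (n - 1) * S) * (d * T)) / (d * T) := by
    field_simp; ring
  have b1 : |((a - X / T) + 2 * (a' - X' / T)) * S / d| ≤ 1 := by
    rw [abs_div, abs_of_pos hd0, div_le_one hd0, abs_mul, abs_of_pos hS]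
    have : |(a - X / T) + 2 * (a' - X' / T)| ≤ 3 * ε := by
      rw [abs_le] at *; constructor <;> linarith [h1.1, h1.2, h2.1, h2.2]
    nlinarith
  have b2 : |((X + 2 * X') * S - (I + (n - 1) * S) * (d * T)) / (d * T)| ≤ 1 := by
    rw [abs_div, abs_of_pos (mul_pos hd0 hT), div_le_one (mul_pos hd0 hT)]; exact h3
  rw [e]
  refine (abs_add_le _ _).trans ?_
  linarith

theorem t4_start {b : ℝ} {γ : ℂ} (H : Roots b γ) {N : ℤ → ℤ}
    (G : Dat.Good ⟨b, (res b).re, γ, res γ, N⟩) (h30 : N 30 = 1) (h31 : N 31 = 2)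
    (h32 : N 32 = 4) {i : ℕ} (hi : i < 33) :
    |(Dat.y ⟨b, (res b).re, γ, res γ, N⟩ i + 1) * 2 ^ 1950 - (t4I.getD i 0 : ℕ)| ≤ 2 := by
  have hb0 : (0 : ℝ) < b := by linarith [H.out.b1]
  have hb : ‖(b : ℂ)‖ ≤ 1.9 := by
    rw [Complex.norm_real, Real.norm_eq_abs, abs_of_pos hb0]; linarith [H.out.b2]
  have hg : ‖γ‖ ≤ 1.9 := by nlinarith [H.out.n2, norm_nonneg γ]
  have cb : (b : ℂ) ^ 2 + b + 1 ≠ 0 := fun h => by
    have := t4_cube h; rw [Complex.ofReal_re] at this; linarith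
  have cg : γ ^ 2 + γ + 1 ≠ 0 := fun h => by
    have := t4_cube h; have h' := abs_le.1 H.out.re; linarith [h'.2]
  have hS : (0 : ℤ) < 2 ^ 2400 := by positivity
  have l1 := t4_lip hb (t4_loc_b H) hi
  have l2 := t4_lip hg (t4_loc_g H) hi
  rw [(t4G_ev _ _ _ hS _).1] at l1 l2
  have c := List.all_eq_true.1 t4_ini_all i (List.mem_range.2 hi)
  rw [t4ini, t4K_eq, t4K_eq, decide_eq_true_eq] at c
  rw [t4G_T] at l1 l2 c
  have hN : N i = t4N i := by
    unfold t4N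
    split_ifs with a1 a2 a3
    · rw [a1]; exact h30
    · rw [a2]; exact h31
    · rw [a3]; exact h32
    · exact G.N0 _ (by omega)
  have hd : (1 : ℝ) ≤ (t4den : ℕ) := by exact_mod_cast t4_den
  have e : Dat.y ⟨b, (res b).re, γ, res γ, N⟩ i =
      (t4ev (List.replicate i 0 ++ t4A) b).re / (t4den : ℕ) +
        2 * ((t4ev (List.replicate i 0 ++ t4A) γ).re / (t4den : ℕ)) - (t4N i : ℤ) := by
    simp only [Dat.y, zpow_natCast, hN]
    rw [t4_res H.Fb cb, t4_res H.Fγ cg, t4_rep, t4_rep, ← Complex.div_natCast_re,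
      ← Complex.div_natCast_re, ← Complex.ofReal_pow, mul_div_assoc, Complex.re_ofReal_mul,
      mul_div_assoc, mul_comm (γ ^ i), mul_comm (b ^ i)]
  rw [e]
  have c' := (Int.cast_le (R := ℝ)).2 c
  simp only [Int.cast_abs, Int.cast_sub, Int.cast_mul, Int.cast_add, Int.cast_natCast,
    Int.cast_one] at c'
  rw [Int.cast_pow 2 1950, Int.cast_ofNat] at c'
  refine t4_arith _ _ _ _ _ _ _ _ _ _ ?_ hd (by positivity) ?_ l1 l2 c'
  · exact_mod_cast pow_pos hS _
  · have e : (2 : ℝ) ^ 1970 = 2 ^ 1950 * 2 ^ 20 := by rw [← pow_add]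
    have a3 : (0 : ℝ) < 2 ^ 1950 := by positivity
    rw [e]
    generalize (2 : ℝ) ^ 1950 = C at *
    field_simp; norm_num

/-- the comparison with an entry of the table -/
def t4close (x t : ℕ) : Bool :=
  decide (4 * |(x : ℤ) * 1099511627776 - t * 2 ^ 1950| ≤ 3 * 2 ^ 1950)

theorem t4_close {τ : ℝ} {x t : ℕ} (h : |τ * 2 ^ 1950 - x| ≤ 2 ^ 1833 * 2)
    (c : t4close x t = true) : |τ - (t : ℝ) / 2 ^ 40| ≤ 1 / 2 ^ 40 := by
  rw [t4close, decide_eq_true_eq] at c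
  have c' := (Int.cast_le (R := ℝ)).2 c
  simp only [Int.cast_abs, Int.cast_sub, Int.cast_mul, Int.cast_natCast] at c'
  rw [Int.cast_pow 2 1950] at c'
  simp only [Int.cast_ofNat] at c'
  clear c
  have e : (2 : ℝ) ^ 1950 = 2 ^ 1833 * 2 ^ 117 := by rw [← pow_add]
  have a3 : (0 : ℝ) < 2 ^ 1833 := by positivity
  rw [e] at h c'
  generalize (2 : ℝ) ^ 1833 = C at *
  have k : |τ * 1099511627776 - t| * (C * 2 ^ 117) ≤ 1 * (C * 2 ^ 117) := by
    have e2 : (τ * 1099511627776 - t) * (C * 2 ^ 117) =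
        1099511627776 * (τ * (C * 2 ^ 117) - x) + (x * 1099511627776 - t * (C * 2 ^ 117)) := by
      ring
    rw [← abs_of_pos (by positivity : 0 < C * 2 ^ 117), ← abs_mul, e2,
      abs_of_pos (by positivity : 0 < C * 2 ^ 117)]
    refine (abs_add_le _ _).trans ?_
    rw [abs_mul, abs_of_pos (by norm_num : (0 : ℝ) < 1099511627776)]
    linarith only [h, c', a3]
  have k' := le_of_mul_le_mul_right k (by positivity)
  have e3 : τ - (t : ℝ) / 2 ^ 40 = (τ * 1099511627776 - t) / 2 ^ 40 := by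
    field_simp; ring
  rw [e3, abs_div, abs_of_pos (by positivity : (0 : ℝ) < 2 ^ 40)]
  exact div_le_div_of_nonneg_right k' (by positivity)

/-- run a recurrence and compare with the table -/
noncomputable def t4chk (p q : ℕ → List ℕ → ℕ) (ts : List ℕ) : ℕ → List ℕ → Bool :=
  List.rec (fun _ _ => true) (fun t _ ih n h => t4f (p n h - q n h) fun x =>
    t4f (n + 1) fun n' => (Nat.ble (q n h) (p n h) && t4close x t) && ih n' (x :: h)) ts

/-- the window is accurate -/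
def t4Inv (τ : ℕ → ℝ) (n : ℕ) (h : List ℕ) : Prop :=
  ∀ j ≤ 32, |τ (n + 32 - j) * 2 ^ 1950 - (h.getD j 0 : ℕ)| ≤ 2 ^ (n + 32 - j) * 2

theorem t4_chk (τ : ℕ → ℝ) (p q : ℕ → List ℕ → ℕ)
    (hs : ∀ n h, t4Inv τ n h →
      |τ (n + 33) * 2 ^ 1950 - ((p n h : ℝ) - q n h)| ≤ 2 ^ (n + 33) * 2) :
    ∀ (ts : List ℕ) (n : ℕ) (h : List ℕ), t4Inv τ n h → n + ts.length ≤ 1801 →
      t4chk p q ts n h = true → ∀ k < ts.length,
        |τ (n + 33 + k) - (ts.getD k 0 : ℝ) / 2 ^ 40| ≤ 1 / 2 ^ 40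
  | [], _, _, _, _, _, k, hk => absurd hk (by simp)
  | t :: ts, n, h, hI, hn, hc, k, hk => by
    have hc' : ((Nat.ble (q n h) (p n h) && t4close (p n h - q n h) t) &&
        t4chk p q ts (n + 1) ((p n h - q n h) :: h)) = true := by
      rw [← hc]; simp only [t4chk, t4f_eq]
    simp only [Bool.and_eq_true, Nat.ble_eq] at hc'
    obtain ⟨⟨c1, c2⟩, c3⟩ := hc'
    have h1 := hs n h hI
    rw [← Nat.cast_sub c1] at h1
    rw [List.length_cons] at hn hk
    cases k with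
    | zero =>
      refine t4_close (h1.trans ?_) c2
      exact mul_le_mul_of_nonneg_right (pow_le_pow_right₀ (by norm_num) (by omega)) (by norm_num)
    | succ k =>
      have hI' : t4Inv τ (n + 1) ((p n h - q n h) :: h) := by
        intro j hj
        cases j with
        | zero => exact h1
        | succ j =>
          have := hI j (by omega)
          rwa [show n + 32 - j = n + 1 + 32 - (j + 1) by omega] at this
      have := t4_chk τ p q hs ts (n + 1) _ hI' (by omega) c3 k (by omega)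
      rwa [show n + 1 + 33 + k = n + 33 + (k + 1) by omega] at this

/-- the forward recurrence -/
def t4pF (_ : ℕ) (h : List ℕ) : ℕ := h.getD 0 0 + h.getD 1 0 + h.getD 2 0 + h.getD 32 0

def t4qF (_ : ℕ) (_ : List ℕ) : ℕ := 3 * 2 ^ 1950

/-- the backward recurrence -/
def t4pB (n : ℕ) (h : List ℕ) : ℕ := h.getD 32 0 + (if n ≤ 2 then 4 else 3) * 2 ^ 1950

def t4qB (_ : ℕ) (h : List ℕ) : ℕ := h.getD 31 0 + h.getD 30 0 + h.getD 29 0

theorem t4_fw : t4chk t4pF t4qF (TT.drop 1334) 0 t4I.reverse = true := by decide +kernel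

theorem t4_bw : t4chk t4pB t4qB (TT.take 1301).reverse 0 t4I = true := by decide +kernel

theorem t4_mid : ∀ i < 33, t4close (t4I.getD i 0) (TT.getD (1301 + i) 0) = true := by
  decide +kernel

theorem t4_len : TT.length = 3102 ∧ t4I.length = 33 := by decide +kernel

theorem t4_stepF (D : Dat) (G : D.Good) (n : ℕ) (h : List ℕ)
    (hI : t4Inv (fun j => D.y j + 1) n h) :
    |(D.y ((n + 33 : ℕ) : ℤ) + 1) * 2 ^ 1950 - ((t4pF n h : ℝ) - t4qF n h)| ≤ 2 ^ (n + 33) * 2 := by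
  have h0 := hI 0 (by omega)
  have h1 := hI 1 (by omega)
  have h2 := hI 2 (by omega)
  have h3 := hI 32 (by omega)
  have st := G.step n
  rw [if_neg (by omega), sub_zero] at st
  simp only [show n + 32 - 0 = n + 32 from rfl, show n + 32 - 1 = n + 31 from rfl,
    show n + 32 - 2 = n + 30 from rfl, Nat.add_sub_cancel, Nat.cast_add, Nat.cast_ofNat] at *
  rw [st, t4pF, t4qF]
  simp only [Nat.cast_add, Nat.cast_mul]
  rw [Nat.cast_pow 2 1950]
  simp only [Nat.cast_ofNat]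
  generalize (2 : ℝ) ^ 1950 = S at *
  have hE : (0 : ℝ) < 2 ^ n := by positivity
  simp only [pow_add] at *
  generalize (2 : ℝ) ^ n = E at *
  rw [abs_le] at *
  constructor <;> nlinarith [h0.1, h0.2, h1.1, h1.2, h2.1, h2.2, h3.1, h3.2]

theorem t4_stepB (D : Dat) (G : D.Good) (n : ℕ) (h : List ℕ)
    (hI : t4Inv (fun j => D.y (32 - j) + 1) n h) :
    |(D.y (32 - ((n + 33 : ℕ) : ℤ)) + 1) * 2 ^ 1950 - ((t4pB n h : ℝ) - t4qB n h)| ≤
      2 ^ (n + 33) * 2 := by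
  have h0 := hI 32 (by omega)
  have h1 := hI 31 (by omega)
  have h2 := hI 30 (by omega)
  have h3 := hI 29 (by omega)
  have st := G.step (-1 - n)
  simp only [show n + 32 - 31 = n + 1 from rfl, show n + 32 - 30 = n + 2 from rfl,
    show n + 32 - 29 = n + 3 from rfl, Nat.add_sub_cancel] at h0 h1 h2 h3
  rw [show (32 : ℤ) - ((n + 33 : ℕ) : ℤ) = -1 - n by omega]
  rw [show (-1 - n : ℤ) + 33 = 32 - n by omega,
    show (-1 - n : ℤ) + 32 = 32 - ((n + 1 : ℕ) : ℤ) by omega,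
    show (-1 - n : ℤ) + 31 = 32 - ((n + 2 : ℕ) : ℤ) by omega,
    show (-1 - n : ℤ) + 30 = 32 - ((n + 3 : ℕ) : ℤ) by omega] at st
  have hs : (((if n ≤ 2 then 4 else 3 : ℕ) : ℕ) : ℝ) =
      3 + if -3 ≤ (-1 - n : ℤ) ∧ (-1 - n : ℤ) ≤ -1 then 1 else 0 := by
    by_cases hn : n ≤ 2
    · rw [if_pos hn, if_pos (by omega)]; norm_num
    · rw [if_neg hn, if_neg (by omega)]; norm_num
  rw [t4pB, t4qB]
  simp only [Nat.cast_add, Nat.cast_mul] at hs ⊢
  rw [Nat.cast_pow 2 1950, hs]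
  simp only [Nat.cast_ofNat]
  generalize (2 : ℝ) ^ 1950 = S at *
  generalize (if -3 ≤ (-1 - n : ℤ) ∧ (-1 - n : ℤ) ≤ -1 then (1 : ℝ) else 0) = s at *
  have hE : (0 : ℝ) < 2 ^ n := by positivity
  simp only [pow_add] at *
  generalize (2 : ℝ) ^ n = E at *
  have st' : D.y (-1 - n) = D.y (32 - n) - D.y (32 - ((n + 1 : ℕ) : ℤ)) -
      D.y (32 - ((n + 2 : ℕ) : ℤ)) - D.y (32 - ((n + 3 : ℕ) : ℤ)) + s := by linarith
  rw [st']
  rw [abs_le] at *
  constructor <;> nlinarith [h0.1, h0.2, h1.1, h1.2, h2.1, h2.2, h3.1, h3.2]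

theorem rowT4 : RowT4 := by
  intro b γ H N G h30 h31 h32 i hi
  have hs := fun i hi => t4_start H G h30 h31 h32 (i := i) hi
  generalize (⟨b, (res b).re, γ, res γ, N⟩ : Dat) = D at *
  have two : ∀ k : ℕ, (2 : ℝ) ≤ 2 ^ k * 2 := fun k => by
    have : (1 : ℝ) ≤ 2 ^ k := one_le_pow₀ (by norm_num)
    linarith only [this]
  obtain ⟨l1, l2⟩ := t4_len
  by_cases c1 : i < 1301
  · have hI : t4Inv (fun j => D.y (32 - j) + 1) 0 t4I := by
      intro j hj
      have := (hs j (by omega)).trans (two (0 + 32 - j))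
      rwa [show (j : ℤ) = 32 - ((0 + 32 - j : ℕ) : ℤ) by omega] at this
    have hl : (TT.take 1301).reverse.length = 1301 := by
      rw [List.length_reverse, List.length_take, l1]; rfl
    have := t4_chk _ _ _ (t4_stepB D G) _ 0 _ hI (by omega) t4_bw (1300 - i) (by omega)
    rw [List.getD_eq_getElem?_getD, List.getElem?_reverse (by rw [List.length_take, l1]; omega),
      List.length_take, l1, List.getElem?_take_of_lt (by omega), ← List.getD_eq_getElem?_getD,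
      show min 1301 3102 - 1 - (1300 - i) = i by omega,
      show (32 : ℤ) - ((0 + 33 + (1300 - i) : ℕ) : ℤ) = (i : ℤ) - 1301 by omega] at this
    exact this
  by_cases c2 : i < 1334
  · have h1 := (hs (i - 1301) (by omega)).trans (two 1833)
    have := t4_close h1 (t4_mid (i - 1301) (by omega))
    rwa [show 1301 + (i - 1301) = i by omega,
      show ((i - 1301 : ℕ) : ℤ) = (i : ℤ) - 1301 by omega] at this
  · have hI : t4Inv (fun j => D.y j + 1) 0 t4I.reverse := by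
      intro j hj
      have := (hs (0 + 32 - j) (by omega)).trans (two (0 + 32 - j))
      rwa [List.getD_eq_getElem?_getD, List.getElem?_reverse (by omega), l2,
        show 33 - 1 - j = 0 + 32 - j by omega, ← List.getD_eq_getElem?_getD]
    have hl : (TT.drop 1334).length = 1768 := by rw [List.length_drop, l1]
    have := t4_chk _ _ _ (t4_stepF D G) _ 0 _ hI (by omega) t4_fw (i - 1334) (by omega)
    rw [List.getD_eq_getElem?_getD, List.getElem?_drop, ← List.getD_eq_getElem?_getD,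
      show 1334 + (i - 1334) = i by omega,
      show ((0 + 33 + (i - 1334) : ℕ) : ℤ) = (i : ℤ) - 1301 by omega] at this
    exact this

end Vale.Agent.Q105
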