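import Vale.Agent.Q105.Near

/-!
# Verification of the table
-/

open GaussianInt hiding norm_nonneg

namespace Vale.Agent.Q105

/-- a numerator over `2 ^ 2000` -/
def t40_Wb : GaussianInt :=
  ⟨0x1d6db7f36a2d56649671236f6213d89c03f2540e046857795eda08ea0ad0c197f468bacae53bd4a46f8aa5a9da7ea90a5d2956dd5c25155f65452974b768992e6b2589f43da298a40ded5b4527c843d20a034671f7b29576ee016a711c9a9dec119e3bb03d308be5e429e16ee918ab6a4a60b616ae94045459407815afb68e1c622cf5da63cedf6284fda4fbbd367e14ff2e033ea47480a445de1ed3190579a5bd18ed697839fd7ae007cef5cc283f9f2bd1030f1b8cae22588ace2471ae6f1f7d182a25f7d2367a16ba17974411a515791d478042aefef03f1b001f8bc576135ed67008a1a12ce4971c6189578ca1e96bc2d01b42a855500455b,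
  0x0⟩

/-- a numerator over `2 ^ 2000` -/
def t40_Wg : GaussianInt :=
  ⟨-0xa5e90ca839cf90df1f2bb61c1e8ade06f4b3308628bcc8bada1208ca3f94b1508a76fd4c5ce894c5e04ac16c0a0dafc1a1334e3c0eeb5d42c359241d5d8d69c8e97f7ac9e1114e8aa029d6c5f524fe41991bec017f1a5b03300540b8f37d826d388422ee8ed6036c00522a81dccb492bef123aebd941c0d5334dbcdfbe70b0774192df3427591a0ca4823fc79a01b6853a87c1ff2d7bf5231ac1091afddfe0ebc2054cb6212ca8f37c454a244c37f01ea9ab7e4e88aebc5e44482f0d299cf93d82ada4913be0ba4472fea6ca1d3b6e90a43d7f84f814df6162b8bcd0e76ec5400b366bb3b3be634e8690c1f472e81163223ec3bd6ee7b97cfeb9,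
  0xc2fefe5940987ce6edc62b145948ae6d231d5f7c6b0aea6a1fd39f3803477d40f4643714bd2a258ac1b04d4b222793e4058339fa442e01189d4fdf8bec49ac26377657494102fe027159a7903a272f00aebd6cf9025a3ac053d2a81745305734ff5150decc49a4892f1215ae87f47866d7fe8ab669d70b44dfa1ddce2d9b27567c64d407064a4ae017aa25fa47abf76697b59370ddab70b1b26015b9beaf8918aeccea57600c8faabea538610ef6580f5e0afb9069781f6f35c73a74e85c58921eca0fb15f6e109643714f296bd8a374de76d616dc4f9ec9177c705f8760750c36d13df2adac89e8600bab820253fa21c8e18ad04ac022e6437e⟩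

/-- a numerator over `2 ^ 2000` -/
def t40_Rb : GaussianInt :=
  ⟨0x3828601ed6b2973c85490fc07afc725e65b2721f0832fd4ae87aa60bbe986493a504b85cd28ac3f74e8c37920e1d028e073045050ae744b5cc8df89ebd64f7c46d6146387a56eb1885d9d5fbc385669ccf0de7ad3aa2f1f512eddc161e501be5aa5d9201cdbec491bf71080bd9f43ded638cdf815e5b1973de71850dd5981afc3f5089cb2a2f9c669dad6ceaee3fa83bcedf82856235f356b67bfea0c09949d68d2e3761f5a10723de60517e6674d2eb3cc8f5a638e1823ad0aa2b118010f3a2e685686d6fa2b76e1a4d81254b5effc82868f0dc4cbf70e6418c2b928d724136bb969f592c559862bb11c9c7509e41011f11b65dd31845,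
  0x0⟩

/-- a numerator over `2 ^ 2000` -/
def t40_Rg : GaussianInt :=
  ⟨0x4da3f5ce8979a3ad3c82af7a0a7a3cbbb18c21bb923debc5d6ebce9c1c112632a233a9e8d4f69f864e3f7eb4f309308ea31b1fedd95bcbc580fff342d93ba70b5d9d660a58907774ed467abdb12945d4c3761ca062189f620a01af3eb294dbb8a1fe7d9f4a9742816fd680f6ca939d0a92d50f313bf4e258c5c3a360d2f1b07ff45ede2e03b87addfc3af82b407e37203254dbcc6de2d8812697dbe86c03246fea545d950af3ae5515e6318f7c3e951055c6005ae3c01ce292e8520597c68d84441306bbd382a2b08c3d99ebaadc13953bdc9e7f2d3d5178c94fe91b8562c701cdbef80b045e223d51a4b3a92e0e0ec3287ea76e8f25d6b560,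
  0x22e0bb9007515fe2ad8d31207aa927cd2522839af96503129b98af6333e16bfa50f7b4e4dbcafa921739207d0dd0ea12f0d01d4b5f77aae19e2fda7b184687568f26a09f0234279b3d6a0d3fd94b5bf4d70fd1c8c546d74f64cc0dc683d0465d5d9d6f6ee763b1c9b13f8eca2c1694070119fb730a54354d0b528469ef372ca3d4bfc89b860bb5ec679f2387fea6508190e527a8b554e7cd7bc89b7885336e7abfc9eb0d98604be6cd0a0ec926b5aaf74d1bf378ab5851344656ce4724d70b508067c6d420f80d09b820a9e2d0d4bb5e4a8d2d18b09f8a84b79552f560c3daf226813913af844afd87f52aea70adf278f62b73d4785b01b35f0⟩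

/-- the scale -/
def t40_S : GaussianInt := ⟨2 ^ 2000, 0⟩

/-- numerator of `F` -/
def t40_Fn (W : GaussianInt) : GaussianInt :=
  W ^ 33 - t40_S * W ^ 32 - t40_S ^ 2 * W ^ 31 - t40_S ^ 3 * W ^ 30 - t40_S ^ 33

/-- numerator of `F'` -/
def t40_Dn (W : GaussianInt) : GaussianInt :=
  33 * W ^ 32 - 32 * t40_S * W ^ 31 - 31 * t40_S ^ 2 * W ^ 30 - 30 * t40_S ^ 3 * W ^ 29

/-- numerator of the defect of the residue -/
def t40_En (W R : GaussianInt) : GaussianInt := t40_S ^ 31 * (W ^ 2 + t40_S * W + t40_S ^ 2) - R * t40_Dn W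

/-- an upper bound for the modulus -/
def t40_n (x : GaussianInt) : ℤ := |x.re| + |x.im|

/-- the integer inequalities -/
def t40_C (W R : GaussianInt) : Prop :=
  33 * 2 ^ 1930 * t40_n (t40_Fn W) < 2 ^ 2000 * |(t40_Dn W).re| ∧
  2 * (2 ^ 2000) ^ 32 ≤ |(t40_Dn W).re| ∧ 2 ^ 1930 * t40_n (t40_En W R) ≤ (2 ^ 2000) ^ 33 ∧
  10 * t40_n W ≤ 19 * 2 ^ 2000 ∧ t40_n R ≤ 2 ^ 2000

theorem t40_Cb : t40_C t40_Wb t40_Rb := by
  unfold t40_C
  decide +kernel

theorem t40_Cg : t40_C t40_Wg t40_Rg := by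
  unfold t40_C
  decide +kernel

/-- the common denominator -/
def t40_T : ℤ := 2 ^ 66000

/-- numerator of `res z * z ^ i` -/
def t40_G (W R : GaussianInt) (i : ℕ) : GaussianInt := R * W ^ i * t40_S ^ (32 - i)

/-- numerator of the homogeneous sequence -/
def t40_J (i : ℕ) : ℤ := (t40_G t40_Wb t40_Rb i).re + 2 * (t40_G t40_Wg t40_Rg i).re

/-- the integer parts -/
def t40_N (i : ℕ) : ℤ := if i = 30 then 1 else if i = 31 then 2 else if i = 32 then 4 else 0

/-- numerator of the reduced sequence -/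
def t40_I (i : ℕ) : ℤ := t40_J i - t40_N i * t40_T

/-- comparison with the table -/
def t40_ok (v : ℤ) (t : ℕ) : Bool :=
  decide (|2 ^ 42 * v + 2 ^ 42 * t40_T - 4 * t * t40_T| ≤ 3 * t40_T)

/-- run a recurrence along a table -/
def t40_chk (nxt : List ℤ → ℤ) : List ℕ → List ℤ → Bool
  | [], _ => true
  | t :: ts, s => t40_ok (nxt s) t && t40_chk nxt ts (nxt s :: s)

/-- the forward step -/
def t40_fw (s : List ℤ) : ℤ := s.getD 0 0 + s.getD 1 0 + s.getD 2 0 + s.getD 32 0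

/-- the backward step -/
def t40_bw (s : List ℤ) : ℤ := s.getD 32 0 - s.getD 31 0 - s.getD 30 0 - s.getD 29 0

theorem t40_len : TT.length = 3102 := by decide +kernel

theorem t40_mid : ∀ i < 33, t40_ok (t40_I i) (TT.getD (1301 + i) 0) = true := by decide +kernel

theorem t40_fwd :
    t40_chk t40_fw (TT.drop 1334) ((List.range 33).map fun j => t40_I (32 - j)) = true := by
  decide +kernel

theorem t40_bwd : t40_chk t40_bw (TT.take 1301).reverse ((List.range 33).map t40_J) = true := by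
  decide +kernel

theorem t40_S_c : (t40_S : ℂ) = 2 ^ 2000 := by
  rw [t40_S, toComplex_def', Int.cast_pow, Int.cast_ofNat, Int.cast_zero, zero_mul, add_zero]

theorem t40_norm_le (x : GaussianInt) : ‖(x : ℂ)‖ ≤ (t40_n x : ℝ) := by
  rw [t40_n]
  push_cast
  rw [intCast_re, intCast_im]
  exact Complex.norm_le_abs_re_add_abs_im _

theorem t40_re_le (x : GaussianInt) : ((|x.re| : ℤ) : ℝ) ≤ ‖(x : ℂ)‖ := by
  push_cast
  rw [intCast_re]
  exact Complex.abs_re_le_norm _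

theorem t40_pow (w z : ℂ) (hw : ‖w‖ ≤ 2) (hz : ‖z‖ ≤ 2) (n : ℕ) :
    ‖w ^ n - z ^ n‖ ≤ n * 2 ^ n * ‖w - z‖ := by
  induction n with
  | zero => simp
  | succ n ih =>
    have e : w ^ (n + 1) - z ^ (n + 1) = (w ^ n - z ^ n) * w + z ^ n * (w - z) := by ring
    have h1 : ‖(w ^ n - z ^ n) * w‖ ≤ n * 2 ^ n * ‖w - z‖ * 2 := by
      rw [norm_mul]
      exact mul_le_mul ih hw (norm_nonneg _) (by positivity)
    have h2 : ‖z ^ n * (w - z)‖ ≤ 2 ^ n * ‖w - z‖ := by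
      rw [norm_mul, norm_pow]
      exact mul_le_mul_of_nonneg_right (pow_le_pow_left₀ (norm_nonneg _) hz n) (norm_nonneg _)
    have h3 : 0 ≤ 2 ^ n * ‖w - z‖ := by positivity
    rw [e]
    refine (norm_add_le _ _).trans ?_
    push_cast
    rw [pow_succ]
    nlinarith

theorem t40_pow' (w z : ℂ) (e : ℝ) (hw : ‖w‖ ≤ 2) (hz : ‖z‖ ≤ 2) (he : ‖w - z‖ ≤ e) (n : ℕ)
    (hn : n ≤ 32) : ‖w ^ n - z ^ n‖ ≤ 2 ^ 37 * e := by
  refine (t40_pow w z hw hz n).trans (mul_le_mul ?_ he (norm_nonneg _) (by positivity))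
  have h1 : (n : ℝ) ≤ 32 := by exact_mod_cast hn
  have h2 : (2 : ℝ) ^ n ≤ 2 ^ 32 := pow_le_pow_right₀ (by norm_num) hn
  calc (n : ℝ) * 2 ^ n ≤ 32 * 2 ^ 32 := mul_le_mul h1 h2 (by positivity) (by norm_num)
    _ = 2 ^ 37 := by norm_num

/-- the derivative of `F` -/
noncomputable def t40_D (z : ℂ) : ℂ := 33 * z ^ 32 - 32 * z ^ 31 - 31 * z ^ 30 - 30 * z ^ 29

theorem t40_an (w z r : ℂ) (e : ℝ) (he : ‖w - z‖ ≤ e) (he1 : e ≤ 1 / 2 ^ 44) (hz : ‖z‖ ≤ 1.9)
    (hr : ‖r‖ ≤ 1) (hD : 2 ≤ ‖t40_D z‖) (hE : ‖z ^ 2 + z + 1 - r * t40_D z‖ ≤ e) (i : ℕ)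
    (hi : i ≤ 32) : ‖res w * w ^ i - r * z ^ i‖ ≤ 2 ^ 80 * e := by
  have he0 : 0 ≤ e := (norm_nonneg _).trans he
  have hz2 : ‖z‖ ≤ 2 := hz.trans (by norm_num)
  have hw : ‖w‖ ≤ 2 := by
    have := norm_add_le (w - z) z
    rw [sub_add_cancel] at this
    have h2 : (1 : ℝ) / 2 ^ 44 ≤ 0.1 := by norm_num
    linarith
  have P := t40_pow' w z e hw hz2 he
  have hDD : ‖t40_D w - t40_D z‖ ≤ 2 ^ 44 * e := by
    have e1 : t40_D w - t40_D z = 33 * (w ^ 32 - z ^ 32) - 32 * (w ^ 31 - z ^ 31) -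
        31 * (w ^ 30 - z ^ 30) - 30 * (w ^ 29 - z ^ 29) := by
      simp only [t40_D]; ring
    have a1 := P 32 le_rfl
    have a2 := P 31 (by norm_num)
    have a3 := P 30 (by norm_num)
    have a4 := P 29 (by norm_num)
    rw [e1]
    generalize w ^ 32 - z ^ 32 = A at *
    generalize w ^ 31 - z ^ 31 = B at *
    generalize w ^ 30 - z ^ 30 = C at *
    generalize w ^ 29 - z ^ 29 = D at *
    have b1 := norm_sub_le (33 * A - 32 * B - 31 * C) (30 * D)
    have b2 := norm_sub_le (33 * A - 32 * B) (31 * C)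
    have b3 := norm_sub_le (33 * A) (32 * B)
    simp only [norm_mul, Complex.norm_ofNat] at b1 b2 b3
    linarith
  have hDw : 1 ≤ ‖t40_D w‖ := by
    have h1 := norm_sub_le (t40_D w) (t40_D w - t40_D z)
    rw [sub_sub_cancel] at h1
    have h2 : 2 ^ 44 * e ≤ 1 := by rw [le_div_iff₀ (by positivity)] at he1; linarith
    linarith
  have hD0 : t40_D w ≠ 0 := by
    intro h
    rw [h, norm_zero] at hDw
    linarith
  have hres : ‖res w - r‖ ≤ 2 ^ 46 * e := by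
    have e1 : res w - r = ((z ^ 2 + z + 1 - r * t40_D z) + (w ^ 2 - z ^ 2) + (w - z) -
        r * (t40_D w - t40_D z)) / t40_D w := by
      rw [eq_div_iff hD0, sub_mul, show res w = (w ^ 2 + w + 1) / t40_D w from rfl,
        div_mul_cancel₀ _ hD0]
      ring
    have a2 := P 2 (by norm_num)
    have a3 : ‖r * (t40_D w - t40_D z)‖ ≤ 1 * (2 ^ 44 * e) := by
      rw [norm_mul]
      exact mul_le_mul hr hDD (norm_nonneg _) zero_le_one
    rw [e1, norm_div]
    refine (div_le_self (norm_nonneg _) hDw).trans ?_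
    generalize z ^ 2 + z + 1 - r * t40_D z = A at *
    generalize w ^ 2 - z ^ 2 = B at *
    generalize w - z = C at *
    generalize r * (t40_D w - t40_D z) = D at *
    have b1 := norm_sub_le (A + B + C) D
    have b2 := norm_add_le (A + B) C
    have b3 := norm_add_le A B
    linarith
  have e2 : res w * w ^ i - r * z ^ i = (res w - r) * w ^ i + r * (w ^ i - z ^ i) := by ring
  have a1 : ‖(res w - r) * w ^ i‖ ≤ 2 ^ 46 * e * 2 ^ 32 := by
    rw [norm_mul, norm_pow]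
    refine mul_le_mul hres ?_ (by positivity) (by positivity)
    exact (pow_le_pow_left₀ (norm_nonneg _) hw i).trans (pow_le_pow_right₀ (by norm_num) hi)
  have a2 : ‖r * (w ^ i - z ^ i)‖ ≤ 1 * (2 ^ 37 * e) := by
    rw [norm_mul]
    exact mul_le_mul hr (P i hi) (norm_nonneg _) zero_le_one
  rw [e2]
  have := norm_add_le ((res w - r) * w ^ i) (r * (w ^ i - z ^ i))
  linarith

theorem t40_gen' (s K : ℝ) (hs : 0 < s) (hK : 2 ^ 44 ≤ K) (W R Fn Dn En : ℂ)
    (hF : Fn = W ^ 33 - s * W ^ 32 - s ^ 2 * W ^ 31 - s ^ 3 * W ^ 30 - s ^ 33)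
    (hD : Dn = 33 * W ^ 32 - 32 * s * W ^ 31 - 31 * s ^ 2 * W ^ 30 - 30 * s ^ 3 * W ^ 29)
    (hE : En = s ^ 31 * (W ^ 2 + s * W + s ^ 2) - R * Dn)
    (c1 : 33 * K * ‖Fn‖ < s * ‖Dn‖) (c2 : 2 * s ^ 32 ≤ ‖Dn‖) (c3 : K * ‖En‖ ≤ s ^ 33)
    (c4 : 10 * ‖W‖ ≤ 19 * s) (c5 : ‖R‖ ≤ s) :
    ∃ w, FF w = 0 ∧ ‖w - W / s‖ ≤ 1 / K ∧
      ∀ i ≤ 32, ‖res w * w ^ i - R * W ^ i * s ^ (32 - i) / s ^ 33‖ ≤ 2 ^ 80 * (1 / K) := by
  have hK0 : 0 < K := lt_of_lt_of_le (by positivity) hK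
  have hsc : (s : ℂ) ≠ 0 := Complex.ofReal_ne_zero.mpr hs.ne'
  have hn : ‖(s : ℂ)‖ = s := by rw [Complex.norm_real, Real.norm_eq_abs, abs_of_pos hs]
  have eF : FF (W / s) = Fn / s ^ 33 := by rw [hF, FF]; field_simp
  have eD : t40_D (W / s) = Dn / s ^ 32 := by rw [hD, t40_D]; field_simp
  have eE : (W / s) ^ 2 + W / s + 1 - R / s * t40_D (W / s) = En / s ^ 33 := by
    rw [eD, hE]; field_simp
  obtain ⟨w, hw, hd⟩ := t1_near (W / s) (1 / K) (by
    change 33 * ‖FF (W / s)‖ < 1 / K * ‖t40_D (W / s)‖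
    rw [eF, eD, norm_div, norm_div, norm_pow, norm_pow, hn, ← mul_div_assoc, div_mul_div_comm,
      div_lt_div_iff₀ (by positivity) (by positivity)]
    have := mul_lt_mul_of_pos_right c1 (pow_pos hs 32)
    calc 33 * ‖Fn‖ * (K * s ^ 32) = 33 * K * ‖Fn‖ * s ^ 32 := by ring
      _ < s * ‖Dn‖ * s ^ 32 := this
      _ = _ := by ring)
  refine ⟨w, hw, hd.le, fun i hi => ?_⟩
  have e1 : R * W ^ i * s ^ (32 - i) / s ^ 33 = R / s * (W / s) ^ i := by
    have : (s : ℂ) ^ 33 = s ^ (32 - i) * s ^ i * s := by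
      rw [← pow_add, ← pow_succ, Nat.sub_add_cancel hi]
    rw [this, div_pow]
    field_simp
  rw [e1]
  refine t40_an w _ _ _ hd.le (one_div_le_one_div_of_le (by positivity) hK) ?_ ?_ ?_ ?_ i hi
  · rw [norm_div, hn, div_le_iff₀ hs]; linarith
  · rw [norm_div, hn, div_le_iff₀ hs]; linarith
  · rw [eD, norm_div, norm_pow, hn, le_div_iff₀ (by positivity)]; exact c2
  · rw [eE, norm_div, norm_pow, hn, div_le_div_iff₀ (by positivity) hK0]; linarith

theorem t40_gen (W R : GaussianInt) (h : t40_C W R) :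
    ∃ w, FF w = 0 ∧ ‖w - (W : ℂ) / ((2 ^ 2000 : ℝ) : ℂ)‖ ≤ 1 / 2 ^ 1930 ∧
      ∀ i ≤ 32, |(res w * w ^ i).re - ((t40_G W R i).re : ℝ) / (t40_T : ℝ)| ≤
        2 ^ 80 * (1 / 2 ^ 1930) := by
  obtain ⟨c1, c2, c3, c4, c5⟩ := h
  have hS : (t40_S : ℂ) = ((2 ^ 2000 : ℝ) : ℂ) := by rw [t40_S_c, Complex.ofReal_pow]; rfl
  have c1' := (Int.cast_lt (R := ℝ)).mpr c1
  have c2' := (Int.cast_le (R := ℝ)).mpr c2
  have c3' := (Int.cast_le (R := ℝ)).mpr c3
  have c4' := (Int.cast_le (R := ℝ)).mpr c4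
  have c5' := (Int.cast_le (R := ℝ)).mpr c5
  simp only [Int.cast_mul, Int.cast_pow, Int.cast_ofNat] at c1' c2' c3' c4' c5'
  have hs : (0 : ℝ) < 2 ^ 2000 := by positivity
  have hK : (2 : ℝ) ^ 44 ≤ 2 ^ 1930 := pow_le_pow_right₀ (by norm_num) (by norm_num)
  have hT : (t40_T : ℝ) = (2 ^ 2000) ^ 33 := by
    rw [t40_T, Int.cast_pow, Int.cast_ofNat, ← pow_mul]
  rw [hT]
  generalize (2 : ℝ) ^ 2000 = s at *
  generalize (2 : ℝ) ^ 1930 = K at *
  have hK0 : 0 < K := lt_of_lt_of_le (by positivity) hK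
  obtain ⟨w, hw, hd, hi⟩ := t40_gen' s K hs hK W R (t40_Fn W) (t40_Dn W) (t40_En W R)
    (by simp only [t40_Fn, map_sub, map_mul, map_pow, hS])
    (by simp only [t40_Dn, map_sub, map_mul, map_pow, map_ofNat, hS])
    (by simp only [t40_En, map_sub, map_mul, map_add, map_pow, hS])
    (lt_of_le_of_lt (mul_le_mul_of_nonneg_left (t40_norm_le _) (by positivity))
      (c1'.trans_le (mul_le_mul_of_nonneg_left (t40_re_le _) hs.le)))
    (c2'.trans (t40_re_le _))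
    ((mul_le_mul_of_nonneg_left (t40_norm_le _) hK0.le).trans c3')
    ((mul_le_mul_of_nonneg_left (t40_norm_le _) (by norm_num)).trans c4')
    ((t40_norm_le _).trans c5')
  refine ⟨w, hw, hd, fun i h32 => le_trans ?_ (hi i h32)⟩
  refine le_trans (le_of_eq ?_) (Complex.abs_re_le_norm _)
  rw [Complex.sub_re, intCast_re, ← Complex.ofReal_pow s 33, Complex.div_ofReal_re]
  simp only [t40_G, map_mul, map_pow, hS]

theorem t40_locb : 18 * 2 ^ 2000 ≤ 10 * t40_Wb.re := by decide +kernel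

theorem t40_locg : 76 * 2 ^ 2000 ≤ 100 * t40_Wg.im ∧
    10002 * (2 ^ 2000) ^ 2 ≤ 10000 * t40_Wg.norm := by decide +kernel

theorem t40_cube {w : ℂ} (h : w ^ 2 + w + 1 = 0) : ‖w‖ = 1 := by
  have h3 : w ^ 3 = 1 := by linear_combination (w - 1) * h
  have := congrArg norm h3
  rw [norm_pow, norm_one] at this
  exact (pow_eq_one_iff_of_nonneg (norm_nonneg _) (by norm_num : 3 ≠ 0)).mp this

theorem t40_isb {b : ℝ} {γ : ℂ} (h : Roots b γ) {w : ℂ} (hw : FF w = 0)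
    (hd : ‖w - (t40_Wb : ℂ) / ((2 ^ 2000 : ℝ) : ℂ)‖ ≤ 1 / 2 ^ 1930) : w = b := by
  have c := (Int.cast_le (R := ℝ)).mpr t40_locb
  simp only [Int.cast_mul, Int.cast_pow, Int.cast_ofNat, intCast_re] at c
  have hs : (0 : ℝ) < 2 ^ 2000 := by positivity
  have hK : (1 : ℝ) / 2 ^ 1930 ≤ 1 / 2 ^ 44 :=
    one_div_le_one_div_of_le (by positivity) (pow_le_pow_right₀ (by norm_num) (by norm_num))
  replace hd := (Complex.abs_re_le_norm _).trans (hd.trans hK)
  generalize (2 : ℝ) ^ 2000 = s at *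
  rw [Complex.sub_re, Complex.div_ofReal_re] at hd
  have h1 : 1.8 ≤ (t40_Wb : ℂ).re / s := by rw [le_div_iff₀ hs]; linarith
  have h2 := (abs_le.mp hd).1
  have h3 := Complex.re_le_norm w
  have h4 : 1.7 ≤ ‖w‖ := by norm_num at h1 h2 ⊢; linarith
  have h5 := h.out.n2
  rcases h.all w hw with h6 | h6 | h6 | h6 | h6
  · exact h6
  · rw [h6] at h4; nlinarith
  · rw [h6, Complex.norm_conj] at h4; nlinarith
  · rw [t40_cube h6] at h4; norm_num at h4
  · linarith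

theorem t40_isg {b : ℝ} {γ : ℂ} (h : Roots b γ) {w : ℂ} (hw : FF w = 0)
    (hd : ‖w - (t40_Wg : ℂ) / ((2 ^ 2000 : ℝ) : ℂ)‖ ≤ 1 / 2 ^ 1930) : w = γ := by
  have c := (Int.cast_le (R := ℝ)).mpr t40_locg.1
  have c' := (Int.cast_le (R := ℝ)).mpr t40_locg.2
  simp only [Int.cast_mul, Int.cast_pow, Int.cast_ofNat, intCast_im, intCast_real_norm,
    Complex.normSq_eq_norm_sq] at c c'
  have hs : (0 : ℝ) < 2 ^ 2000 := by positivity
  have hK : (1 : ℝ) / 2 ^ 1930 ≤ 1 / 2 ^ 44 :=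
    one_div_le_one_div_of_le (by positivity) (pow_le_pow_right₀ (by norm_num) (by norm_num))
  replace hd := hd.trans hK
  have hd' := (Complex.abs_im_le_norm _).trans hd
  generalize (2 : ℝ) ^ 2000 = s at *
  rw [Complex.sub_im, Complex.div_ofReal_im] at hd'
  have h1 : 0.76 ≤ (t40_Wg : ℂ).im / s := by rw [le_div_iff₀ hs]; linarith
  have h2 := (abs_le.mp hd').1
  have h3 : 0.7 ≤ w.im := by norm_num at h1 h2 ⊢; linarith
  have h4 : 1.00005 ≤ ‖(t40_Wg : ℂ) / s‖ := by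
    rw [norm_div, Complex.norm_real, Real.norm_eq_abs, abs_of_pos hs, le_div_iff₀ hs]
    refine (abs_le_of_sq_le_sq' ?_ (norm_nonneg _)).2.trans' (le_refl _)
    nlinarith [sq_nonneg s]
  have h5 := norm_sub_le w (w - (t40_Wg : ℂ) / s)
  rw [sub_sub_cancel] at h5
  have h7 : 1 < ‖w‖ := by
    have : (1 : ℝ) / 2 ^ 44 < 0.00005 := by norm_num
    linarith
  have h8 := (abs_le.mp h.out.im).1
  rcases h.all w hw with h6 | h6 | h6 | h6 | h6
  · rw [h6, Complex.ofReal_im] at h3; norm_num at h3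
  · exact h6
  · rw [h6, Complex.conj_im] at h3; norm_num at h3 h8; linarith
  · rw [t40_cube h6] at h7; norm_num at h7
  · linarith

theorem t40_ok_sound {v : ℤ} {t : ℕ} {x : ℝ} (h : t40_ok v t = true)
    (hx : |x - (v : ℝ) / (t40_T : ℝ)| ≤ 1 / 2 ^ 42) : |x + 1 - (t : ℝ) / 2 ^ 40| ≤ 1 / 2 ^ 40 := by
  have hT : (0 : ℝ) < t40_T := by
    rw [t40_T, Int.cast_pow, Int.cast_ofNat]
    exact pow_pos two_pos _
  have c := (Int.cast_le (R := ℝ)).mpr (of_decide_eq_true h)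
  simp only [Int.cast_mul, Int.cast_pow, Int.cast_ofNat, Int.cast_abs, Int.cast_sub, Int.cast_add,
    Int.cast_natCast] at c
  generalize (t40_T : ℝ) = T at *
  have e : (2 ^ 42 * (v : ℝ) + 2 ^ 42 * T - 4 * t * T) = (2 ^ 42 * (v / T) + 2 ^ 42 - 4 * t) * T := by
    field_simp
  rw [e, abs_mul, abs_of_pos hT] at c
  have c' := abs_le.mp (le_of_mul_le_mul_right c hT)
  have hx' := abs_le.mp hx
  generalize (v : ℝ) / T = q at *
  rw [abs_le]
  constructor <;> linarith [c'.1, c'.2, hx'.1, hx'.2]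

/-- the list holds approximations of the first `m` terms, the last one first -/
def t40_Inv (x : ℕ → ℝ) (ε : ℝ) (m : ℕ) (s : List ℤ) : Prop :=
  ∀ a j, a + j + 1 = m → |x a - (s.getD j 0 : ℝ) / (t40_T : ℝ)| ≤ 2 ^ a * ε

theorem t40_sound (nxt : List ℤ → ℤ) (x : ℕ → ℝ) (ε : ℝ) (hε : 0 ≤ ε)
    (hb : 2 ^ 1800 * ε ≤ 1 / 2 ^ 42)
    (H : ∀ n s, t40_Inv x ε (n + 33) s →
      |x (n + 33) - (nxt s : ℝ) / (t40_T : ℝ)| ≤ 2 ^ (n + 33) * ε) :
    ∀ (ts : List ℕ) (n : ℕ) (s : List ℤ), t40_Inv x ε (n + 33) s → t40_chk nxt ts s = true →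
      n + 33 + ts.length ≤ 1801 → ∀ i < ts.length,
        |x (n + 33 + i) + 1 - (ts.getD i 0 : ℝ) / 2 ^ 40| ≤ 1 / 2 ^ 40 := by
  intro ts
  induction ts with
  | nil => intro n s _ _ _ i hi; simp at hi
  | cons t ts ih =>
    intro n s hI hc hl i hi
    rw [t40_chk, Bool.and_eq_true] at hc
    rw [List.length_cons] at hl hi
    have h1 := H n s hI
    cases i with
    | zero =>
      refine t40_ok_sound hc.1 (h1.trans (le_trans ?_ hb))
      exact mul_le_mul_of_nonneg_right (pow_le_pow_right₀ (by norm_num) (by omega)) hε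
    | succ i =>
      have := ih (n + 1) (nxt s :: s) (fun a j haj => ?_) hc.2 (by omega) i (by omega)
      · rw [List.getD_cons_succ, show n + 33 + (i + 1) = n + 1 + 33 + i by omega]
        exact this
      · cases j with
        | zero =>
          obtain rfl : a = n + 33 := by omega
          exact h1
        | succ j => exact hI a j (by omega)

theorem t40_init (x : ℕ → ℝ) (ε : ℝ) (hε : 0 ≤ ε) (f : ℕ → ℤ)
    (h : ∀ j ≤ 32, |x (32 - j) - (f j : ℝ) / (t40_T : ℝ)| ≤ ε) :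
    t40_Inv x ε (0 + 33) ((List.range 33).map f) := by
  intro a j haj
  have e : ((List.range 33).map f).getD j 0 = f j := by
    rw [List.getD_eq_getElem?_getD, List.getElem?_map, List.getElem?_range (by omega)]
    rfl
  obtain rfl : a = 32 - j := by omega
  rw [e]
  exact (h j (by omega)).trans (le_mul_of_one_le_left hε (one_le_pow₀ (by norm_num)))

theorem t40_step {z : ℂ} (hz : FF z = 0) (m : ℤ) :
    z ^ (m + 33) = z ^ (m + 32) + z ^ (m + 31) + z ^ (m + 30) + z ^ m := by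
  have h0 : z ≠ 0 := by
    rintro rfl
    norm_num [FF] at hz
  rw [zpow_add₀ h0, zpow_add₀ h0, zpow_add₀ h0, zpow_add₀ h0]
  simp only [zpow_ofNat]
  rw [FF] at hz
  linear_combination z ^ m * hz

theorem rowT40 : RowT4 := by
  intro b γ h N hG h30 h31 h32
  obtain ⟨wb, hwb, hdb, hb⟩ := t40_gen _ _ t40_Cb
  obtain ⟨wg, hwg, hdg, hg⟩ := t40_gen _ _ t40_Cg
  obtain rfl := t40_isg h hwg hdg
  rw [t40_isb h hwb hdb] at hb
  have hbig : (2 : ℝ) ^ 1800 * (3 * (2 ^ 80 * (1 / 2 ^ 1930))) ≤ 1 / 2 ^ 42 := by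
    rw [show 1930 = 1800 + 130 from rfl, pow_add]
    have : (0 : ℝ) < 2 ^ 1800 := by positivity
    generalize (2 : ℝ) ^ 1800 = q at *
    field_simp
    norm_num
  have hpos : (0 : ℝ) ≤ 2 ^ 80 * (1 / 2 ^ 1930) := by positivity
  generalize (2 : ℝ) ^ 80 * (1 / 2 ^ 1930) = e at *
  have hε : 0 ≤ 3 * e := by positivity
  have hT : (0 : ℝ) < t40_T := by
    rw [t40_T, Int.cast_pow, Int.cast_ofNat]
    exact pow_pos two_pos _
  set D : Dat := ⟨b, (res b).re, wg, res wg, N⟩ with hD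
  let u : ℤ → ℝ := fun m => (res b * (b : ℂ) ^ m).re + 2 * (res wg * wg ^ m).re
  have hy : ∀ m, D.y m = u m - N m := by
    intro m
    simp only [Dat.y, hD, u, ← Complex.ofReal_zpow, Complex.mul_re, Complex.ofReal_re,
      Complex.ofReal_im, mul_zero, sub_zero]
  have hu : ∀ m, u (m + 33) = u (m + 32) + u (m + 31) + u (m + 30) + u m := by
    intro m
    simp only [u, t40_step h.Fb m, t40_step h.Fγ m, mul_add, Complex.add_re]
    ring
  have hJ : ∀ i ≤ 32, |u (i : ℕ) - (t40_J i : ℝ) / (t40_T : ℝ)| ≤ 3 * e := by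
    intro i hi
    have a1 := abs_le.mp (hb i hi)
    have a2 := abs_le.mp (hg i hi)
    simp only [u, t40_J, zpow_natCast, Int.cast_add, Int.cast_mul, Int.cast_ofNat, add_div,
      mul_div_assoc]
    rw [abs_le]
    constructor <;> linarith [a1.1, a1.2, a2.1, a2.2]
  have hN : ∀ i ≤ 32, N (i : ℕ) = t40_N i := by
    intro i hi
    unfold t40_N
    split_ifs with a1 a2 a3
    · rw [a1]; exact h30
    · rw [a2]; exact h31
    · rw [a3]; exact h32
    · exact hG.N0 _ (by omega)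
  have hI : ∀ i ≤ 32, |D.y (i : ℕ) - (t40_I i : ℝ) / (t40_T : ℝ)| ≤ 3 * e := by
    intro i hi
    have : (t40_I i : ℝ) / (t40_T : ℝ) = (t40_J i : ℝ) / (t40_T : ℝ) - t40_N i := by
      rw [t40_I, Int.cast_sub, Int.cast_mul, sub_div, mul_div_cancel_right₀ _ hT.ne']
    rw [this, hy, hN i hi, sub_sub_sub_cancel_right]
    exact hJ i hi
  have F := t40_sound t40_fw (fun a => D.y a) (3 * e) hε hbig (fun n s hs => by
      have a0 := abs_le.mp (hs (n + 32) 0 rfl)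
      have a1 := abs_le.mp (hs (n + 31) 1 rfl)
      have a2 := abs_le.mp (hs (n + 30) 2 rfl)
      have a3 := abs_le.mp (hs n 32 rfl)
      have st := hG.step n
      rw [if_neg (by omega)] at st
      have hq : 0 ≤ (2 : ℝ) ^ n * e := by positivity
      simp only [t40_fw, Int.cast_add, add_div, Nat.cast_add, Nat.cast_ofNat, pow_add] at *
      rw [abs_le]
      constructor <;> linarith [a0.1, a0.2, a1.1, a1.2, a2.1, a2.2, a3.1, a3.2])
    _ 0 _ (t40_init _ _ hε _ fun j hj => hI (32 - j) (by omega)) t40_fwd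
    (by rw [List.length_drop, t40_len])
  have B := t40_sound t40_bw (fun a => u (32 - a)) (3 * e) hε hbig (fun n s hs => by
      have a0 := abs_le.mp (hs n 32 rfl)
      have a1 := abs_le.mp (hs (n + 1) 31 (by omega))
      have a2 := abs_le.mp (hs (n + 2) 30 (by omega))
      have a3 := abs_le.mp (hs (n + 3) 29 (by omega))
      have st := hu (32 - (n + 33 : ℕ))
      rw [show (32 : ℤ) - (n + 33 : ℕ) + 33 = 32 - n by omega,
        show (32 : ℤ) - (n + 33 : ℕ) + 32 = 32 - (n + 1 : ℕ) by omega,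
        show (32 : ℤ) - (n + 33 : ℕ) + 31 = 32 - (n + 2 : ℕ) by omega,
        show (32 : ℤ) - (n + 33 : ℕ) + 30 = 32 - (n + 3 : ℕ) by omega] at st
      have hq : 0 ≤ (2 : ℝ) ^ n * e := by positivity
      simp only [t40_bw, Int.cast_sub, sub_div, pow_add] at *
      rw [abs_le]
      constructor <;> linarith [a0.1, a0.2, a1.1, a1.2, a2.1, a2.2, a3.1, a3.2])
    _ 0 _ (t40_init _ _ hε _ fun j hj => by
      have := hJ j hj
      rwa [show (32 : ℤ) - (32 - j : ℕ) = j by omega]) t40_bwd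
    (by rw [List.length_reverse, List.length_take, t40_len]; norm_num)
  rw [List.length_drop, t40_len] at F
  rw [List.length_reverse, List.length_take, t40_len] at B
  intro i hi
  rcases lt_or_ge i 1301 with h1 | h1
  · have := B (1300 - i) (by omega)
    rw [List.getD_eq_getElem?_getD, List.getElem?_reverse (by
      rw [List.length_take, t40_len]; omega), List.length_take, t40_len,
      List.getElem?_take_of_lt (by omega), ← List.getD_eq_getElem?_getD,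
      show min 1301 3102 - 1 - (1300 - i) = i by omega,
      show (32 : ℤ) - (0 + 33 + (1300 - i) : ℕ) = (i : ℕ) - 1301 by omega] at this
    rw [hy, show N ((i : ℕ) - 1301) = 0 from hG.N0 _ (by omega), Int.cast_zero, sub_zero]
    exact this
  rcases lt_or_ge i 1334 with h2 | h2
  · have := t40_ok_sound (t40_mid (i - 1301) (by omega)) ((hI (i - 1301) (by omega)).trans
      ((le_mul_of_one_le_left hε (one_le_pow₀ (by norm_num))).trans hbig))
    rwa [show 1301 + (i - 1301) = i by omega,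
      show ((i - 1301 : ℕ) : ℤ) = (i : ℕ) - 1301 by omega] at this
  · have := F (i - 1334) (by omega)
    rwa [List.getD_eq_getElem?_getD, List.getElem?_drop, ← List.getD_eq_getElem?_getD,
      show 1334 + (i - 1334) = i by omega,
      show ((0 + 33 + (i - 1334) : ℕ) : ℤ) = (i : ℕ) - 1301 by omega] at this

end Vale.Agent.Q105
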